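import Vale.Agent.P355.H41.F7.Blk

/-! Packed accumulation of the coefficients of the classes. -/

namespace Vale.Agent.P355.H41.F7

open Finset Matrix Vale.Agent.P355
open Vale.Agent.P355.H129 (Gm NRep force force_eq dg dg_sum)

set_option linter.unusedSectionVars false

/-! ### kernel friendly sums and lists -/

/-- entry of a list. -/
def nth (l : List ℕ) : ℕ → ℕ :=
  List.rec (motive := fun _ => ℕ → ℕ) (fun _ => 0)
    (fun a _ ih n => Nat.rec (motive := fun _ => ℕ) a (fun m _ => ih m) n) l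

theorem nth_eq (l : List ℕ) (n : ℕ) : nth l n = l.getD n 0 := by
  induction l generalizing n with
  | nil => simp [nth]
  | cons a l ih =>
    cases n with
    | zero => rfl
    | succ m =>
      have : nth (a :: l) (m + 1) = nth l m := rfl
      rw [this, ih]; simp

/-- entry of a list of lists. -/
def nthL (l : List (List ℕ)) : ℕ → List ℕ :=
  List.rec (motive := fun _ => ℕ → List ℕ) (fun _ => [])
    (fun a _ ih n => Nat.rec (motive := fun _ => List ℕ) a (fun m _ => ih m) n) l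

theorem nthL_eq (l : List (List ℕ)) (n : ℕ) : nthL l n = l.getD n [] := by
  induction l generalizing n with
  | nil => simp [nthL]
  | cons a l ih =>
    cases n with
    | zero => rfl
    | succ m =>
      have : nthL (a :: l) (m + 1) = nthL l m := rfl
      rw [this, ih]; simp

/-- sum over a range. -/
def sumR (n : ℕ) (f : ℕ → ℕ) : ℕ :=
  Nat.rec (motive := fun _ => ℕ) 0 (fun k acc => Nat.add (f k) acc) n

theorem sumR_eq (n : ℕ) (f : ℕ → ℕ) : sumR n f = ∑ k ∈ range n, f k := by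
  induction n with
  | zero => rfl
  | succ n ih =>
    have : sumR (n + 1) f = f n + sumR n f := rfl
    rw [this, ih, sum_range_succ, add_comm]

/-- all numbers smaller than `n`. -/
def allR (n : ℕ) (p : ℕ → Bool) : Bool :=
  Nat.rec (motive := fun _ => Bool) true (fun k acc => and (p k) acc) n

theorem allR_spec {n : ℕ} {p : ℕ → Bool} (h : allR n p = true) : ∀ k < n, p k = true := by
  induction n with
  | zero => intro k hk; omega
  | succ n ih =>
    have h1 : (p n && allR n p) = true := h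
    rw [Bool.and_eq_true] at h1
    intro k hk
    rcases Nat.lt_succ_iff_lt_or_eq.1 hk with h2 | rfl
    · exact ih h1.2 k h2
    · exact h1.1

/-- sum over a list. -/
def sumF {α : Type} (f : α → ℕ) (l : List α) : ℕ :=
  List.rec (motive := fun _ => ℕ) 0 (fun a _ acc => Nat.add (f a) acc) l

theorem sumF_cons {α : Type} (f : α → ℕ) (a : α) (l : List α) :
    sumF f (a :: l) = f a + sumF f l := rfl

/-- digit. -/
def dgt (w X j : ℕ) : ℕ := Nat.mod (Nat.shiftRight X (Nat.mul w j)) (2 ^ w)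

theorem dgt_eq (w X j : ℕ) : dgt w X j = dg (2 ^ w) X j := by
  show (X >>> (w * j)) % 2 ^ w = X / (2 ^ w) ^ j % 2 ^ w
  rw [Nat.shiftRight_eq_div_pow, pow_mul]

/-- entry of the offset matrix. -/
def uD (w : ℕ) (Us : List ℕ) (i j : ℕ) : ℕ :=
  cond (Nat.ble i j) (dgt w (nth Us j) i) (dgt w (nth Us i) j)

theorem uD_eq (w oU : ℕ) (Us : List ℕ) (i j : ℕ) : (Gm w oU Us i j : ℝ) = (uD w Us i j : ℝ) - oU := by
  unfold Gm uD
  rcases hb : Nat.ble i j with _ | _
  · have : ¬ i ≤ j := by rw [← Nat.ble_eq, hb]; simp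
    rw [cond_false, dgt_eq, nth_eq, max_eq_left (by omega), min_eq_right (by omega)]
    push_cast; rfl
  · have : i ≤ j := by rw [← Nat.ble_eq, hb]
    rw [cond_true, dgt_eq, nth_eq, max_eq_right this, min_eq_left this]
    push_cast; rfl

/-! ### masks -/

/-- data of a block for the evaluation. -/
structure BE where
  d : ℕ
  w : ℕ
  oU : ℕ
  Us : List ℕ
  MP : List ℕ
  MN : List ℕ

/-- the mask of the group elements with entry `z`. -/
def msk (V n : ℕ) (D : List SPm) (z : ℤ) (s s' : ℕ) : ℕ :=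
  sumR n fun j => cond (decide (spE (D.getD j []) s s' = z)) (Nat.shiftLeft 1 (Nat.mul V j)) 0

/-- check of the evaluation data. -/
def BE.ck (V n : ℕ) (b : BD) (e : BE) : Bool :=
  Nat.beq b.d e.d && Nat.beq b.w e.w && Nat.beq b.oU e.oU && decide (b.Us = e.Us) &&
  allR b.d fun s => allR b.d fun s' =>
    Nat.beq (nth e.MP (Nat.add (Nat.mul s b.d) s')) (msk V n b.D 1 s s') &&
    Nat.beq (nth e.MN (Nat.add (Nat.mul s b.d) s')) (msk V n b.D (-1) s s')

/-- positive part. -/
def BE.P (e : BE) (x y : ℕ) : ℕ :=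
  sumR e.d fun s => sumR e.d fun s' =>
    Nat.add (Nat.mul (uD e.w e.Us (Nat.add (Nat.mul x e.d) s) (Nat.add (Nat.mul y e.d) s'))
        (nth e.MP (Nat.add (Nat.mul s e.d) s')))
      (Nat.mul e.oU (nth e.MN (Nat.add (Nat.mul s e.d) s')))

/-- negative part. -/
def BE.Q (e : BE) (x y : ℕ) : ℕ :=
  sumR e.d fun s => sumR e.d fun s' =>
    Nat.add (Nat.mul (uD e.w e.Us (Nat.add (Nat.mul x e.d) s) (Nat.add (Nat.mul y e.d) s'))
        (nth e.MN (Nat.add (Nat.mul s e.d) s')))
      (Nat.mul e.oU (nth e.MP (Nat.add (Nat.mul s e.d) s')))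

/-- bound. -/
def BE.M (e : BE) (x y : ℕ) : ℕ :=
  sumR e.d fun s => sumR e.d fun s' =>
    Nat.add (uD e.w e.Us (Nat.add (Nat.mul x e.d) s) (Nat.add (Nat.mul y e.d) s')) e.oU

theorem msk_rep (V n : ℕ) (D : List SPm) (z : ℤ) (s s' : ℕ) (v : ℕ → ℝ) :
    NRep V (fun j => if j < n then v j else 0) (msk V n D z s s') 1
      (∑ j ∈ range n, (if spE (D.getD j []) s s' = z then 1 else 0 : ℝ) * v j) := by
  refine ⟨n, fun j => if j < n ∧ spE (D.getD j []) s s' = z then 1 else 0, fun j => ?_,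
    fun j hj => ?_, ?_, ?_⟩
  · simp only; split_ifs <;> omega
  · simp only; rw [if_neg (by omega)]
  · unfold msk
    rw [sumR_eq]
    refine sum_congr rfl fun j hj => ?_
    have hj' := mem_range.1 hj
    beta_reduce
    by_cases hz : spE (D.getD j []) s s' = z
    · rw [if_pos ⟨hj', hz⟩, decide_eq_true hz, cond_true, one_mul]
      show 1 <<< (V * j) = _
      rw [Nat.shiftLeft_eq, one_mul, pow_mul]
    · rw [if_neg (fun h => hz h.2), decide_eq_false hz, cond_false, zero_mul]
  · refine sum_congr rfl fun j hj => ?_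
    have hj' := mem_range.1 hj
    beta_reduce
    by_cases hz : spE (D.getD j []) s s' = z
    · rw [if_pos hz, if_pos ⟨hj', hz⟩, if_pos hj', Nat.cast_one]
    · rw [if_neg hz, if_neg (fun h => hz h.2), zero_mul, Nat.cast_zero, zero_mul]

theorem spE_cases (p : SPm) (s s' : ℕ) : spE p s s' = 1 ∨ spE p s s' = -1 ∨ spE p s s' = 0 := by
  unfold spE sgz
  split_ifs <;> simp

theorem spE_split (p : SPm) (s s' : ℕ) : ((spE p s s' : ℤ) : ℝ)
    = (if spE p s s' = 1 then 1 else 0 : ℝ) - (if spE p s s' = -1 then 1 else 0 : ℝ) := by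
  rcases spE_cases p s s' with h | h | h <;> rw [h] <;> norm_num

theorem NRep.dsum {W : ℕ} {val : ℕ → ℝ} (d : ℕ) {P M : ℕ → ℕ → ℕ} {v : ℕ → ℕ → ℝ}
    (h : ∀ s < d, ∀ s' < d, NRep W val (P s s') (M s s') (v s s')) :
    NRep W val (sumR d fun s => sumR d fun s' => P s s') (sumR d fun s => sumR d fun s' => M s s')
      (∑ s ∈ range d, ∑ s' ∈ range d, v s s') := by
  simp only [sumR_eq]
  exact NRep.sum d fun s hs => NRep.sum d fun s' hs' => h s hs s' hs'

theorem BE.rep {V n : ℕ} {b : BD} {e : BE} (h : BE.ck V n b e = true) (v : ℕ → ℕ → ℕ → ℝ)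
    (x y : ℕ) : ∃ p q, NRep V (fun j => if j < n then v x y j else 0) (e.P x y) (e.M x y) p ∧
      NRep V (fun j => if j < n then v x y j else 0) (e.Q x y) (e.M x y) q ∧
      b.C n v x y = p - q := by
  unfold BE.ck at h
  simp only [Bool.and_eq_true, Nat.beq_eq, decide_eq_true_eq] at h
  obtain ⟨⟨⟨⟨h1, h2⟩, h3⟩, h4⟩, h5⟩ := h
  have hm : ∀ s < b.d, ∀ s' < b.d, nth e.MP (s * b.d + s') = msk V n b.D 1 s s' ∧
      nth e.MN (s * b.d + s') = msk V n b.D (-1) s s' := by
    intro s hs s' hs'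
    have := allR_spec (allR_spec h5 s hs) s' hs'
    simp only [Bool.and_eq_true, Nat.beq_eq] at this
    exact this
  set vp : ℕ → ℕ → ℝ := fun s s' =>
    ∑ j ∈ range n, (if spE (b.D.getD j []) s s' = 1 then 1 else 0 : ℝ) * v x y j with hvp
  set vn : ℕ → ℕ → ℝ := fun s s' =>
    ∑ j ∈ range n, (if spE (b.D.getD j []) s s' = -1 then 1 else 0 : ℝ) * v x y j with hvn
  refine ⟨∑ s ∈ range e.d, ∑ s' ∈ range e.d,
      ((uD e.w e.Us (x * e.d + s) (y * e.d + s') : ℝ) * vp s s' + (e.oU : ℝ) * vn s s'),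
    ∑ s ∈ range e.d, ∑ s' ∈ range e.d,
      ((uD e.w e.Us (x * e.d + s) (y * e.d + s') : ℝ) * vn s s' + (e.oU : ℝ) * vp s s'), ?_, ?_, ?_⟩
  · refine NRep.dsum e.d fun s hs s' hs' => ?_
    rw [← h1] at hs hs' ⊢
    have r1 := msk_rep V n b.D 1 s s' (v x y)
    have r2 := msk_rep V n b.D (-1) s s' (v x y)
    rw [← (hm s hs s' hs').1] at r1
    rw [← (hm s hs s' hs').2] at r2
    have := (r1.smul (uD e.w e.Us (x * b.d + s) (y * b.d + s'))).add (r2.smul e.oU)
    rw [mul_one, mul_one] at this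
    exact this
  · refine NRep.dsum e.d fun s hs s' hs' => ?_
    rw [← h1] at hs hs' ⊢
    have r1 := msk_rep V n b.D 1 s s' (v x y)
    have r2 := msk_rep V n b.D (-1) s s' (v x y)
    rw [← (hm s hs s' hs').1] at r1
    rw [← (hm s hs s' hs').2] at r2
    have := (r2.smul (uD e.w e.Us (x * b.d + s) (y * b.d + s'))).add (r1.smul e.oU)
    rw [mul_one, mul_one] at this
    exact this
  · unfold BD.C
    rw [← sum_sub_distrib, ← h1, ← h2, ← h4]
    refine sum_congr rfl fun s _ => ?_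
    rw [← sum_sub_distrib]
    refine sum_congr rfl fun s' _ => ?_
    have e1 : ∑ j ∈ range n, (spE (b.D.getD j []) s s' : ℝ) * v x y j = vp s s' - vn s s' := by
      rw [hvp, hvn, ← sum_sub_distrib]
      refine sum_congr rfl fun j _ => ?_
      rw [spE_split]; ring
    rw [e1, uD_eq, h3]; ring

/-! ### all blocks -/

/-- total positive part. -/
def Pt (es : List BE) (x y : ℕ) : ℕ := sumF (fun e => e.P x y) es
/-- total negative part. -/
def Qt (es : List BE) (x y : ℕ) : ℕ := sumF (fun e => e.Q x y) es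
/-- total bound. -/
def Mt (es : List BE) (x y : ℕ) : ℕ := sumF (fun e => e.M x y) es

/-- check of the data of all blocks. -/
def esCk (V n : ℕ) : List BD → List BE → Bool
  | [], [] => true
  | b :: bs, e :: es => BE.ck V n b e && esCk V n bs es
  | _, _ => false

theorem es_rep {V n : ℕ} {bs : List BD} {es : List BE} (h : esCk V n bs es = true)
    (v : ℕ → ℕ → ℕ → ℝ) (x y : ℕ) :
    ∃ p q, NRep V (fun j => if j < n then v x y j else 0) (Pt es x y) (Mt es x y) p ∧
      NRep V (fun j => if j < n then v x y j else 0) (Qt es x y) (Mt es x y) q ∧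
      Ct n v bs x y = p - q := by
  induction bs generalizing es with
  | nil =>
    cases es with
    | nil => exact ⟨0, 0, NRep.zero, NRep.zero, by simp [Ct]⟩
    | cons e es => exact absurd h (by simp [esCk])
  | cons b bs ih =>
    cases es with
    | nil => exact absurd h (by simp [esCk])
    | cons e es =>
      simp only [esCk, Bool.and_eq_true] at h
      obtain ⟨p, q, hp, hq, hpq⟩ := BE.rep h.1 v x y
      obtain ⟨p', q', hp', hq', hpq'⟩ := ih h.2
      refine ⟨p + p', q + q', hp.add hp', hq.add hq', ?_⟩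
      unfold Ct at hpq' ⊢
      rw [List.map_cons, List.sum_cons, hpq, hpq']; ring

theorem NRep.digits {V n P M : ℕ} {val : ℕ → ℝ} {v : ℝ} (h : NRep V val P M v) (hM : M < 2 ^ V)
    (h0 : ∀ j, n ≤ j → val j = 0) :
    v = ∑ j ∈ range n, (dg (2 ^ V) P j : ℝ) * val j ∧ ∀ j, j < n → dg (2 ^ V) P j ≤ M := by
  obtain ⟨m, hm⟩ := h.ext
  obtain ⟨a, h1, h2, h3, h4⟩ := hm (max m n) (le_max_left _ _)
  have hd : ∀ j < max m n, dg (2 ^ V) P j = a j := by
    intro j hj
    rw [h3]
    exact dg_sum hj fun i _ => (h1 i).trans_lt hM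
  refine ⟨?_, fun j hj => ?_⟩
  · rw [h4]
    symm
    have : ∑ j ∈ range n, (dg (2 ^ V) P j : ℝ) * val j = ∑ j ∈ range n, (a j : ℝ) * val j :=
      sum_congr rfl fun j hj => by
        rw [hd j (lt_of_lt_of_le (mem_range.1 hj) (le_max_right _ _))]
    rw [this]
    refine sum_subset (range_subset_range.2 (le_max_right _ _)) fun i _ hi => ?_
    rw [h0 i (by simpa using hi), mul_zero]
  · rw [hd j (lt_of_lt_of_le hj (le_max_right _ _))]
    exact h1 j

/-- packed terms of a pair. -/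
def gP (W V c n ids P : ℕ) : ℕ :=
  sumR n fun j => Nat.shiftLeft (Nat.mul c (dgt V P j)) (Nat.mul W (dgt 16 ids j))

theorem gP_rep {W V c n ids P M : ℕ} {val val' : ℕ → ℝ} {m : ℕ} {v : ℝ}
    (h : NRep V (fun j => if j < n then val' j else 0) P M v) (hM : M < 2 ^ V)
    (hv : ∀ j < n, val' j = (m : ℝ) * val (dgt 16 ids j)) :
    NRep W val (gP W V (c * m) n ids P) (c * m * n * M) ((c : ℝ) * v) := by
  obtain ⟨h1, h2⟩ := NRep.digits (n := n) h hM fun j hj => if_neg (by omega)
  have h3 : (c : ℝ) * v = ∑ j ∈ range n, ((c * m * dgt V P j : ℕ) : ℝ) * val (dgt 16 ids j) := by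
    rw [h1, mul_sum]
    refine sum_congr rfl fun j hj => ?_
    rw [if_pos (mem_range.1 hj), hv j (mem_range.1 hj), dgt_eq V P j]
    push_cast; ring
  rw [h3]
  unfold gP
  rw [sumR_eq]
  refine (NRep.sum (M := fun j => c * m * dgt V P j) n fun j _ => NRep.single _ _).mono ?_
  calc ∑ j ∈ range n, c * m * dgt V P j ≤ ∑ j ∈ range n, c * m * M :=
        sum_le_sum fun j hj => Nat.mul_le_mul_left _ (by
          rw [dgt_eq]; exact h2 j (mem_range.1 hj))
    _ = c * m * n * M := by rw [sum_const, card_range, smul_eq_mul]; ring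

/-- multiplicity of a pair of flags. -/
def mlt (fl : List FD) (x y : ℕ) : ℕ := mmb (fl.getD x fd0).b (fl.getD y fd0).b

/-- all terms of the Gram part (positive). -/
def GP (W V n nk : ℕ) (fl : List FD) (es : List BE) (ids : ℕ → ℕ → ℕ) : ℕ :=
  sumR nk fun y => sumR (y + 1) fun x =>
    force (Pt es x y) fun P => force (Nat.mul (cond (Nat.beq x y) 1 2) (mlt fl x y)) fun c =>
      force (ids x y) fun I => gP W V c n I P

/-- all terms of the Gram part (negative). -/
def GQ (W V n nk : ℕ) (fl : List FD) (es : List BE) (ids : ℕ → ℕ → ℕ) : ℕ :=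
  sumR nk fun y => sumR (y + 1) fun x =>
    force (Qt es x y) fun P => force (Nat.mul (cond (Nat.beq x y) 1 2) (mlt fl x y)) fun c =>
      force (ids x y) fun I => gP W V c n I P

/-- bound of the Gram part. -/
def GM (n nk : ℕ) (fl : List FD) (es : List BE) : ℕ :=
  sumR nk fun y => sumR (y + 1) fun x =>
    Nat.mul (Nat.mul (Nat.mul (cond (Nat.beq x y) 1 2) (mlt fl x y)) n) (Mt es x y)

/-- bound of the digits. -/
def bndCk (V nk : ℕ) (es : List BE) : Bool :=
  allR nk fun y => allR (y + 1) fun x => Nat.blt (Mt es x y) (2 ^ V)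

theorem gram_rep {W V n nk : ℕ} {fl : List FD} {bs : List BD} {es : List BE} {ids : ℕ → ℕ → ℕ}
    {val : ℕ → ℝ} {v : ℕ → ℕ → ℕ → ℝ} (he : esCk V n bs es = true)
    (hb : bndCk V nk es = true)
    (hv : ∀ y < nk, ∀ x ≤ y, ∀ j < n, v x y j = (mlt fl x y : ℝ) * val (dgt 16 (ids x y) j)) :
    ∃ p q, NRep W val (GP W V n nk fl es ids) (GM n nk fl es) p ∧
      NRep W val (GQ W V n nk fl es ids) (GM n nk fl es) q ∧
      ∑ y ∈ range nk, (Ct n v bs y y + 2 * ∑ x ∈ range y, Ct n v bs x y) = p - q := by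
  choose p q hp hq hpq using fun x y => es_rep he v x y
  have hM : ∀ y < nk, ∀ x ≤ y, Mt es x y < 2 ^ V := by
    intro y hy x hx
    have := allR_spec (allR_spec hb y hy) x (by omega)
    simpa [Nat.blt_eq] using this
  refine ⟨∑ y ∈ range nk, ∑ x ∈ range (y + 1), ((cond (Nat.beq x y) 1 2 : ℕ) : ℝ) * p x y,
    ∑ y ∈ range nk, ∑ x ∈ range (y + 1), ((cond (Nat.beq x y) 1 2 : ℕ) : ℝ) * q x y, ?_, ?_, ?_⟩
  · unfold GP GM
    simp only [sumR_eq, force_eq]
    refine NRep.sum nk fun y hy => NRep.sum (y + 1) fun x hx => ?_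
    exact gP_rep (hp x y) (hM y hy x (by omega)) (hv y hy x (by omega))
  · unfold GQ GM
    simp only [sumR_eq, force_eq]
    refine NRep.sum nk fun y hy => NRep.sum (y + 1) fun x hx => ?_
    exact gP_rep (hq x y) (hM y hy x (by omega)) (hv y hy x (by omega))
  · rw [← sum_sub_distrib]
    refine sum_congr rfl fun y _ => ?_
    rw [← sum_sub_distrib, sum_range_succ]
    have h1 : Nat.beq y y = true := by rw [Nat.beq_eq]
    rw [h1, hpq y y]
    have h2 : ∀ x ∈ range y, (((cond (Nat.beq x y) 1 2 : ℕ) : ℝ) * p x y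
        - ((cond (Nat.beq x y) 1 2 : ℕ) : ℝ) * q x y) = 2 * Ct n v bs x y := by
      intro x hx
      have h3 : Nat.beq x y = false := by rw [beq_f]; exact (mem_range.1 hx).ne
      rw [h3, hpq x y, cond_false]; push_cast; ring
    rw [sum_congr rfl h2, mul_sum, cond_true]
    push_cast; ring

/-! ### signed terms -/

/-- value of a list of signed terms. -/
noncomputable def stV (val : ℕ → ℝ) (l : List (Bool × ℕ × ℕ)) : ℝ :=
  (l.map fun t => (if t.1 then -1 else 1 : ℝ) * ((t.2.1 : ℝ) * val t.2.2)).sum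

/-- positive terms. -/
def stP (W : ℕ) (l : List (Bool × ℕ × ℕ)) : ℕ :=
  sumF (fun t => cond t.1 0 (Nat.shiftLeft t.2.1 (Nat.mul W t.2.2))) l
/-- negative terms. -/
def stQ (W : ℕ) (l : List (Bool × ℕ × ℕ)) : ℕ :=
  sumF (fun t => cond t.1 (Nat.shiftLeft t.2.1 (Nat.mul W t.2.2)) 0) l
/-- bound. -/
def stM (l : List (Bool × ℕ × ℕ)) : ℕ := sumF (fun t => t.2.1) l

theorem st_rep {W : ℕ} {val : ℕ → ℝ} (l : List (Bool × ℕ × ℕ)) :
    ∃ p q, NRep W val (stP W l) (stM l) p ∧ NRep W val (stQ W l) (stM l) q ∧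
      stV val l = p - q := by
  induction l with
  | nil => exact ⟨0, 0, NRep.zero, NRep.zero, by simp [stV]⟩
  | cons t l ih =>
    obtain ⟨p, q, hp, hq, hpq⟩ := ih
    obtain ⟨g, c, i⟩ := t
    have hs := NRep.single (W := W) (val := val) c i
    have hz := (NRep.zero (W := W) (val := val)).mono (Nat.zero_le c)
    cases g
    · refine ⟨c * val i + p, 0 + q, hs.add hp, hz.add hq, ?_⟩
      unfold stV at hpq ⊢
      rw [List.map_cons, List.sum_cons, hpq]
      simp only [Bool.false_eq_true, if_false]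
      ring
    · refine ⟨0 + p, c * val i + q, hz.add hp, hs.add hq, ?_⟩
      unfold stV at hpq ⊢
      rw [List.map_cons, List.sum_cons, hpq]
      simp only [if_true]
      ring

/-- a relation with its multiplier: sign, absolute value, terms. -/
abbrev RL := Bool × ℕ × List (Bool × ℕ × ℕ)

/-- positive part of the relations. -/
def rlP (W : ℕ) (l : List RL) : ℕ :=
  sumF (fun R => Nat.mul R.2.1 (cond R.1 (stQ W R.2.2) (stP W R.2.2))) l
/-- negative part. -/
def rlQ (W : ℕ) (l : List RL) : ℕ :=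
  sumF (fun R => Nat.mul R.2.1 (cond R.1 (stP W R.2.2) (stQ W R.2.2))) l
/-- bound. -/
def rlM (l : List RL) : ℕ := sumF (fun R => Nat.mul R.2.1 (stM R.2.2)) l

theorem rl_rep {W : ℕ} {val : ℕ → ℝ} (l : List RL) (h : ∀ R ∈ l, stV val R.2.2 = 0) :
    ∃ p q, NRep W val (rlP W l) (rlM l) p ∧ NRep W val (rlQ W l) (rlM l) q ∧ p - q = 0 := by
  induction l with
  | nil => exact ⟨0, 0, NRep.zero, NRep.zero, by simp⟩
  | cons R l ih =>
    obtain ⟨p, q, hp, hq, hpq⟩ := ih fun R' hR' => h R' (by simp [hR'])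
    obtain ⟨p1, q1, hp1, hq1, hpq1⟩ := st_rep (W := W) (val := val) R.2.2
    have h0 : p1 - q1 = 0 := by rw [← hpq1]; exact h R (by simp)
    obtain ⟨g, lam, ts⟩ := R
    cases g
    · exact ⟨lam * p1 + p, lam * q1 + q, (hp1.smul lam).add hp, (hq1.smul lam).add hq, by
        linear_combination (lam : ℝ) * h0 + hpq⟩
    · exact ⟨lam * q1 + p, lam * p1 + q, (hq1.smul lam).add hp, (hp1.smul lam).add hq, by
        linear_combination -(lam : ℝ) * h0 + hpq⟩

end Vale.Agent.P355.H41.F7
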