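import Vale.Agent.P355.H41.F7.Basic

/-! Averages over the assignments of the colours to the bases and of the vertices to the vectors. -/

namespace Vale.Agent.P355.H41.F7

open Finset Matrix Vale.Agent.P355
open Vale.Agent.P355.H138 (s6 s6_sq s6_ne star_s6)

set_option linter.unusedSectionVars false

variable {N : ℕ} {B : Fin N → M6}
variable {V V' : Type} [Fintype V] [Fintype V'] [DecidableEq V] [DecidableEq V']

/-- the configuration given by an assignment of the colours and one of the vertices. -/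
def cf (c : V → Fin N) (σ : Equiv.Perm (Fin N)) (φ : V → Fin 6) : V → Vt N :=
  fun x => (σ (c x), φ x)

/-- average over all assignments. -/
noncomputable def av (c : V → Fin N) (F : (V → Vt N) → ℂ) : ℂ :=
  (Fintype.card (Equiv.Perm (Fin N)) : ℂ)⁻¹ *
    ((6⁻¹ : ℂ) ^ Fintype.card V * ∑ σ, ∑ φ, F (cf c σ φ))

theorem cardP_ne : (Fintype.card (Equiv.Perm (Fin N)) : ℂ) ≠ 0 :=
  Nat.cast_ne_zero.2 Fintype.card_ne_zero

variable {c : V → Fin N} {F G : (V → Vt N) → ℂ}

theorem av_congr (h : ∀ σ φ, F (cf c σ φ) = G (cf c σ φ)) : av c F = av c G := by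
  unfold av
  simp only [h]

theorem av_add (F G : (V → Vt N) → ℂ) : av c (fun ω => F ω + G ω) = av c F + av c G := by
  unfold av
  simp only [Finset.sum_add_distrib, mul_add]

theorem av_sub (F G : (V → Vt N) → ℂ) : av c (fun ω => F ω - G ω) = av c F - av c G := by
  unfold av
  simp only [Finset.sum_sub_distrib, mul_sub]

theorem av_smul (z : ℂ) (F : (V → Vt N) → ℂ) : av c (fun ω => z * F ω) = z * av c F := by
  unfold av
  simp only [← Finset.mul_sum]
  ring

theorem av_sum {ι : Type*} (s : Finset ι) (F : ι → (V → Vt N) → ℂ) :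
    av c (fun ω => ∑ i ∈ s, F i ω) = ∑ i ∈ s, av c (F i) := by
  classical
  induction s using Finset.induction with
  | empty =>
    simp only [Finset.sum_empty]
    unfold av; simp
  | insert a s ha ih =>
    simp only [Finset.sum_insert ha]
    rw [av_add, ih]

theorem av_const (z : ℂ) : av c (fun _ => z) = z := by
  unfold av
  simp only [Finset.sum_const, Finset.card_univ, nsmul_eq_mul]
  have h : (6⁻¹ : ℂ) ^ Fintype.card V * (6 : ℂ) ^ Fintype.card V = 1 := by
    rw [← mul_pow]; norm_num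
  have h1 := cardP_ne (N := N)
  have h2 : (Fintype.card (V → Fin 6) : ℂ) = 6 ^ Fintype.card V := by simp
  rw [h2]
  calc _ = ((6⁻¹ : ℂ) ^ Fintype.card V * (6 : ℂ) ^ Fintype.card V) *
      ((Fintype.card (Equiv.Perm (Fin N)) : ℂ)⁻¹ * Fintype.card (Equiv.Perm (Fin N))) * z := by ring
    _ = z := by rw [h, inv_mul_cancel₀ h1]; ring

theorem star_av (F : (V → Vt N) → ℂ) : star (av c F) = av c (fun ω => star (F ω)) := by
  unfold av
  simp only [star_mul', star_sum, star_inv₀, star_pow, star_natCast]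
  congr 3
  simp

theorem av_re_nonneg (h : ∀ σ φ, 0 ≤ (F (cf c σ φ)).re) : 0 ≤ (av c F).re := by
  unfold av
  have e : (Fintype.card (Equiv.Perm (Fin N)) : ℂ)⁻¹ *
      ((6⁻¹ : ℂ) ^ Fintype.card V * ∑ σ, ∑ φ, F (cf c σ φ))
      = (((Fintype.card (Equiv.Perm (Fin N)) : ℝ)⁻¹ * (6⁻¹ : ℝ) ^ Fintype.card V : ℝ) : ℂ) *
        ∑ σ, ∑ φ, F (cf c σ φ) := by
    push_cast; ring
  rw [e, Complex.re_ofReal_mul]
  refine mul_nonneg (by positivity) ?_
  simp only [Complex.re_sum]
  exact Finset.sum_nonneg fun σ _ => Finset.sum_nonneg fun φ _ => h σ φ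

theorem norm_av_le (h : ∀ σ φ, ‖F (cf c σ φ)‖ ≤ 1) : ‖av c F‖ ≤ 1 := by
  unfold av
  rw [norm_mul, norm_mul, norm_pow, norm_inv, norm_inv]
  have h1 : ‖∑ σ : Equiv.Perm (Fin N), ∑ φ : V → Fin 6, F (cf c σ φ)‖
      ≤ ∑ σ : Equiv.Perm (Fin N), ∑ φ : V → Fin 6, (1 : ℝ) := by
    refine (norm_sum_le _ _).trans (Finset.sum_le_sum fun σ _ => ?_)
    exact (norm_sum_le _ _).trans (Finset.sum_le_sum fun φ _ => h σ φ)
  have h2 : ∑ σ : Equiv.Perm (Fin N), ∑ φ : V → Fin 6, (1 : ℝ)
      = (Fintype.card (Equiv.Perm (Fin N)) : ℝ) * 6 ^ Fintype.card V := by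
    simp
  have h3 : (Fintype.card (Equiv.Perm (Fin N)) : ℝ) ≠ 0 :=
    Nat.cast_ne_zero.2 Fintype.card_ne_zero
  have h4 : (6⁻¹ : ℝ) ^ Fintype.card V * 6 ^ Fintype.card V = 1 := by
    rw [← mul_pow]; norm_num
  have h6 : ‖(6 : ℂ)‖ = 6 := by simp
  have h7 : ‖(Fintype.card (Equiv.Perm (Fin N)) : ℂ)‖ = Fintype.card (Equiv.Perm (Fin N)) := by
    simp
  rw [h6, h7]
  calc _ ≤ (Fintype.card (Equiv.Perm (Fin N)) : ℝ)⁻¹ * ((6⁻¹ : ℝ) ^ Fintype.card V *
        ((Fintype.card (Equiv.Perm (Fin N)) : ℝ) * 6 ^ Fintype.card V)) := by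
        gcongr; exact h1.trans h2.le
    _ = ((Fintype.card (Equiv.Perm (Fin N)) : ℝ)⁻¹ * (Fintype.card (Equiv.Perm (Fin N)) : ℝ)) *
        ((6⁻¹ : ℝ) ^ Fintype.card V * 6 ^ Fintype.card V) := by ring
    _ = 1 := by rw [h4, inv_mul_cancel₀ h3]; ring

/-- relabelling of the colours. -/
theorem av_perm (τ : Equiv.Perm (Fin N)) (F : (V → Vt N) → ℂ) : av (fun x => τ (c x)) F = av c F := by
  unfold av
  congr 2
  exact Fintype.sum_equiv (Equiv.mulRight τ) _ _ fun σ => rfl

/-- an isolated vertex has no colour. -/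
theorem av_agree (c c' : V → Fin N) (S : V → Prop) (hS : ∀ x, S x → c x = c' x)
    (hF : ∀ ω ω', (∀ x, S x → ω x = ω' x) → F ω = F ω') : av c F = av c' F := by
  unfold av
  congr 2
  refine Finset.sum_congr rfl fun σ _ => Finset.sum_congr rfl fun φ _ => hF _ _ fun x hx => ?_
  simp only [cf, hS x hx]

/-- restriction to some of the vertices. -/
theorem av_inj (ι : V' → V) (hι : Function.Injective ι) (c : V → Fin N) (F : (V' → Vt N) → ℂ) :
    av c (fun ω => F (ω ∘ ι)) = av (c ∘ ι) F := by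
  unfold av
  congr 1
  rw [Finset.mul_sum, Finset.mul_sum]
  refine Finset.sum_congr rfl fun σ _ => ?_
  exact H138.sum_comp_inj ι hι (fun φ => F (cf (c ∘ ι) σ φ))

theorem sum_update_all (F : (V → Fin 6) → ℂ) (v : V) :
    ∑ φ : V → Fin 6, ∑ a, F (Function.update φ v a) = 6 * ∑ φ, F φ := by
  have h1 : ∀ φ : V → Fin 6, ∑ a, F (Function.update φ v a)
      = ∑ t, F (Function.update φ v (φ v + t)) := by
    intro φ
    exact (Equiv.sum_comp (Equiv.addLeft (φ v)) (fun a => F (Function.update φ v a))).symm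
  simp only [h1]
  rw [Finset.sum_comm]
  simp only [H138.sum_update_eq]
  simp

theorem cf_update (σ : Equiv.Perm (Fin N)) (φ : V → Fin 6) (v : V) (a : Fin 6) :
    cf c σ (Function.update φ v a) = Function.update (cf c σ φ) v ((cf c σ φ v).1, a) := by
  funext x
  by_cases h : x = v
  · subst h; simp [cf]
  · simp [cf, h]

/-- average over one vertex first. -/
theorem av_vertex (v : V) (F : (V → Vt N) → ℂ) :
    av c F = av c (fun ω => (1 / 6) * ∑ a, F (Function.update ω v ((ω v).1, a))) := by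
  rw [av_smul]
  unfold av
  have h1 : ∀ σ : Equiv.Perm (Fin N), ∑ φ : V → Fin 6, ∑ a,
      F (Function.update (cf c σ φ) v ((cf c σ φ v).1, a)) = 6 * ∑ φ, F (cf c σ φ) := by
    intro σ
    rw [← sum_update_all (fun φ => F (cf c σ φ)) v]
    simp only [cf_update]
  simp only [h1, ← Finset.mul_sum]
  ring

theorem cf_colour (σ : Equiv.Perm (Fin N)) (φ : V → Fin 6) (v : V) (j : Fin N) :
    cf (Function.update c v j) σ φ = Function.update (cf c σ φ) v (σ j, (cf c σ φ v).2) := by
  funext x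
  by_cases h : x = v
  · subst h; simp [cf]
  · simp [cf, h]

/-- all colours of one vertex. -/
theorem av_colour (v : V) (F : (V → Vt N) → ℂ) :
    ∑ j, av (Function.update c v j) F
      = av c (fun ω => ∑ j, F (Function.update ω v (j, (ω v).2))) := by
  unfold av
  rw [← Finset.mul_sum, ← Finset.mul_sum]
  congr 2
  rw [Finset.sum_comm]
  refine Finset.sum_congr rfl fun σ _ => ?_
  rw [Finset.sum_comm]
  refine Finset.sum_congr rfl fun φ _ => ?_
  simp only [cf_colour]
  exact Equiv.sum_comp σ (fun j => F (Function.update (cf c σ φ) v (j, (cf c σ φ v).2)))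

/-- renaming `z` to `x`. -/
def ren (x z : V) : V → V := fun v => if v = z then x else v

/-- merging two vertices of the same colour. -/
theorem av_merge (x z : V) (hxz : x ≠ z) (hc : c x = c z) (F : (V → Vt N) → ℂ) :
    av c (fun ω => if ω x = ω z then F ω else 0) = (1 / 6) * av c (fun ω => F (ω ∘ ren x z)) := by
  unfold av
  have h1 : ∀ σ : Equiv.Perm (Fin N), ∑ φ : V → Fin 6,
      (if cf c σ φ x = cf c σ φ z then F (cf c σ φ) else 0)
      = (1 / 6) * ∑ φ : V → Fin 6, F (cf c σ φ ∘ ren x z) := by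
    intro σ
    rw [← H138.sum_ite_eq_avg (fun φ : V → Fin 6 => F (cf c σ φ ∘ ren x z)) x z hxz]
    · refine Finset.sum_congr rfl fun φ _ => ?_
      by_cases h : φ x = φ z
      · have h2 : cf c σ φ x = cf c σ φ z := by simp [cf, h, hc]
        rw [if_pos h2, if_pos h]
        congr 1
        funext v
        by_cases hv : v = z
        · subst hv; simp [ren, h2]
        · simp [ren, hv]
      · have h2 : cf c σ φ x ≠ cf c σ φ z := by
          intro h'; exact h (congrArg Prod.snd h')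
        rw [if_neg h2, if_neg h]
    · intro φ b
      congr 1
      funext v
      by_cases hv : v = z
      · subst hv; simp [ren, cf, hxz]
      · simp [ren, cf, hv]
  simp only [h1, ← Finset.mul_sum]
  ring

end Vale.Agent.P355.H41.F7
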