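import Vale.Agent.P355.H349.Frame4
import Vale.Agent.P355.H138.Code

/-! Graphs whose vertices are coloured by the bases of a family of mutually unbiased bases:
monomials in the normalised inner products and their averages over all assignments of the colours
to the bases and of the vertices to the vectors. -/

namespace Vale.Agent.P355.H41.F7

open Finset Matrix Vale.Agent.P355
open Vale.Agent.P355.H349 (vec ip dl)
open Vale.Agent.P355.H138 (s6 s6_sq s6_ne star_s6)

set_option linter.unusedSectionVars false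

variable {N : ℕ} {B : Fin N → M6}

/-- labels of the vectors. -/
abbrev Vt (N : ℕ) := Fin N × Fin 6

/-- normalised inner product. -/
noncomputable def hh (B : Fin N → M6) (u v : Vt N) : ℂ := s6 * ip B u v

theorem star_hh (u v : Vt N) : star (hh B u v) = hh B v u := by
  unfold hh; rw [star_mul', star_s6, H349.star_ip']

theorem hh_inv (hB : IsMUBs B) {u v : Vt N} (h : u.1 ≠ v.1) : hh B u v * hh B v u = 1 := by
  unfold hh
  have := H349.ip_mul hB h
  linear_combination (s6 * s6) * this + (1 / 6) * s6_sq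

theorem hh_ne (hB : IsMUBs B) {u v : Vt N} (h : u.1 ≠ v.1) : hh B u v ≠ 0 := by
  intro h0; have := hh_inv hB h; rw [h0, zero_mul] at this; exact zero_ne_one this

theorem hh_inv' (hB : IsMUBs B) {u v : Vt N} (h : u.1 ≠ v.1) : (hh B u v)⁻¹ = hh B v u :=
  inv_eq_of_mul_eq_one_right (hh_inv hB h)

theorem hh_nrm (hB : IsMUBs B) {u v : Vt N} (h : u.1 ≠ v.1) : ‖hh B u v‖ = 1 := by
  have h1 := hh_inv hB h
  rw [← star_hh (B := B) u v] at h1
  have h2 : ‖hh B u v‖ * ‖hh B u v‖ = 1 := by
    have := congrArg (fun z : ℂ => ‖z‖) h1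
    rwa [norm_mul, norm_star, norm_one] at this
  nlinarith [norm_nonneg (hh B u v)]

theorem hh_same (hB : IsMUBs B) (u v : Vt N) (h : u.1 = v.1) :
    hh B u v = if u = v then s6 else 0 := by
  obtain ⟨i, a⟩ := u
  obtain ⟨j, b⟩ := v
  have h' : i = j := h
  subst h'
  unfold hh
  rw [H349.ip_same hB]
  unfold dl
  by_cases hab : a = b
  · simp [hab]
  · simp [hab]

theorem hh_complete (hB : IsMUBs B) (u v : Vt N) (i : Fin N) :
    ∑ a, hh B u (i, a) * hh B (i, a) v = s6 * hh B u v := by
  have := H349.ip_complete hB i u v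
  unfold hh
  rw [← this, Finset.mul_sum, Finset.mul_sum]
  exact Finset.sum_congr rfl fun a _ => by ring

theorem hh_design {B : Fin 7 → M6} (hB : IsMUBs B) (x1 x2 y1 y2 : Vt 7) :
    ∑ j, ∑ a, hh B x1 (j, a) * hh B x2 (j, a) * (hh B (j, a) y1 * hh B (j, a) y2)
      = 6 * (hh B x1 y1 * hh B x2 y2 + hh B x1 y2 * hh B x2 y1) := by
  have hd := H349.design hB
  have key : ∑ u : Vt 7, ip B x1 u * ip B x2 u * (ip B u y1 * ip B u y2)
      = ip B x1 y1 * ip B x2 y2 + ip B x1 y2 * ip B x2 y1 := by
    have e1 : ∀ u : Vt 7, ip B x1 u * ip B x2 u * (ip B u y1 * ip B u y2)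
        = ∑ p, ∑ q, ∑ r, ∑ s, (star (vec B x1 p) * star (vec B x2 q) * (vec B y1 r * vec B y2 s)) *
          (vec B u p * vec B u q * (star (vec B u r) * star (vec B u s))) := by
      intro u
      have q1 : ip B x1 u * ip B x2 u = ∑ p, ∑ q, (star (vec B x1 p) * star (vec B x2 q)) *
          (vec B u p * vec B u q) := by
        unfold ip
        rw [Finset.sum_mul_sum]
        exact Finset.sum_congr rfl fun p _ => Finset.sum_congr rfl fun q _ => by ring
      have q2 : ip B u y1 * ip B u y2 = ∑ r, ∑ s, (vec B y1 r * vec B y2 s) *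
          (star (vec B u r) * star (vec B u s)) := by
        unfold ip
        rw [Finset.sum_mul_sum]
        exact Finset.sum_congr rfl fun p _ => Finset.sum_congr rfl fun q _ => by ring
      rw [q1, q2, Finset.sum_mul]
      refine Finset.sum_congr rfl fun p _ => ?_
      rw [Finset.sum_mul]
      refine Finset.sum_congr rfl fun q _ => ?_
      rw [Finset.mul_sum]
      refine Finset.sum_congr rfl fun r _ => ?_
      rw [Finset.mul_sum]
      exact Finset.sum_congr rfl fun s _ => by ring
    simp only [e1]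
    rw [Finset.sum_comm]
    have e2 : ∀ p, ∑ u : Vt 7, ∑ q, ∑ r, ∑ s, (star (vec B x1 p) * star (vec B x2 q) *
          (vec B y1 r * vec B y2 s)) *
          (vec B u p * vec B u q * (star (vec B u r) * star (vec B u s)))
        = ∑ q, ∑ r, ∑ s, (star (vec B x1 p) * star (vec B x2 q) * (vec B y1 r * vec B y2 s)) *
          H349.fr B p q r s := by
      intro p
      rw [Finset.sum_comm]
      refine Finset.sum_congr rfl fun q _ => ?_
      rw [Finset.sum_comm]
      refine Finset.sum_congr rfl fun r _ => ?_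
      rw [Finset.sum_comm]
      refine Finset.sum_congr rfl fun s _ => ?_
      unfold H349.fr
      rw [Finset.mul_sum]
    simp only [e2, hd]
    have e3 := H349.sum_sy (fun p q r s => star (vec B x1 p) * star (vec B x2 q) *
      (vec B y1 r * vec B y2 s))
    have e4 : ∑ p, ∑ q, ∑ r, ∑ s, (star (vec B x1 p) * star (vec B x2 q) *
        (vec B y1 r * vec B y2 s)) * H349.sy p q r s
        = ∑ p, ∑ q, ∑ r, ∑ s, H349.sy p q r s * (star (vec B x1 p) * star (vec B x2 q) *
        (vec B y1 r * vec B y2 s)) :=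
      Finset.sum_congr rfl fun p _ => Finset.sum_congr rfl fun q _ =>
        Finset.sum_congr rfl fun r _ => Finset.sum_congr rfl fun s _ => mul_comm _ _
    rw [e4, e3]
    unfold ip
    rw [Finset.sum_mul_sum, Finset.sum_mul_sum]
    congr 1
    · exact Finset.sum_congr rfl fun p _ => Finset.sum_congr rfl fun q _ => by ring
    · exact Finset.sum_congr rfl fun p _ => Finset.sum_congr rfl fun q _ => by ring
  rw [Fintype.sum_prod_type] at key
  unfold hh
  have hs := s6_sq
  have e : ∀ j a, s6 * ip B x1 (j, a) * (s6 * ip B x2 (j, a)) *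
      (s6 * ip B (j, a) y1 * (s6 * ip B (j, a) y2))
      = 36 * (ip B x1 (j, a) * ip B x2 (j, a) * (ip B (j, a) y1 * ip B (j, a) y2)) := by
    intro j a
    linear_combination (ip B x1 (j, a) * ip B x2 (j, a) * (ip B (j, a) y1 * ip B (j, a) y2)) *
      (s6 * s6 + 6) * hs
  simp only [e, ← Finset.mul_sum, key]
  linear_combination (-6 * (ip B x1 y1 * ip B x2 y2 + ip B x1 y2 * ip B x2 y1)) * hs

/-! ### Monomials -/

variable {V V' : Type} [Fintype V] [Fintype V'] [DecidableEq V] [DecidableEq V']

/-- the monomial of a flow matrix. -/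
noncomputable def mon (B : Fin N → M6) (n : V → V → ℤ) (ω : V → Vt N) : ℂ :=
  ∏ x, ∏ y, hh B (ω x) (ω y) ^ n x y

/-- flows only between different bases. -/
def Nz (n : V → V → ℤ) (ω : V → Vt N) : Prop := ∀ x y, n x y ≠ 0 → (ω x).1 ≠ (ω y).1

theorem prod_zpow_sum {A : Type} [Fintype A] {z : ℂ} (f : A → ℤ) (hz : ∀ a, f a ≠ 0 → z ≠ 0) :
    ∏ a, z ^ f a = z ^ ∑ a, f a := by
  classical
  by_cases h0 : z = 0
  · have hf : ∀ a, f a = 0 := fun a => by
      by_contra h; exact hz a h h0
    simp [hf]
  · have h : ∀ s : Finset A, ∏ a ∈ s, z ^ f a = z ^ ∑ a ∈ s, f a := by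
      intro s
      induction s using Finset.induction with
      | empty => simp
      | insert a s ha ih => rw [Finset.prod_insert ha, Finset.sum_insert ha, zpow_add₀ h0, ih]
    exact h _

/-- push forward of a flow matrix. -/
def push (f : V → V') (n : V → V → ℤ) : V' → V' → ℤ := fun p q =>
  ∑ x, ∑ y, if f x = p ∧ f y = q then n x y else 0

theorem mon_push (hB : IsMUBs B) (f : V → V') (n : V → V → ℤ) (ω : V' → Vt N)
    (h : Nz n (ω ∘ f)) : mon B (push f n) ω = mon B n (ω ∘ f) := by
  have h1 : ∀ p q, hh B (ω p) (ω q) ^ push f n p q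
      = ∏ x, ∏ y, hh B (ω p) (ω q) ^ (if f x = p ∧ f y = q then n x y else 0) := by
    intro p q
    unfold push
    have ha : ∀ x y, (if f x = p ∧ f y = q then n x y else 0) ≠ 0 → hh B (ω p) (ω q) ≠ 0 := by
      intro x y hxy
      split_ifs at hxy with hc
      · have := h x y hxy
        simp only [Function.comp, hc.1, hc.2] at this
        exact hh_ne hB this
      · exact absurd rfl hxy
    rw [← prod_zpow_sum]
    · refine Finset.prod_congr rfl fun x _ => ?_
      rw [← prod_zpow_sum]
      intro y hy; exact ha x y hy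
    · intro x hx
      obtain ⟨y, _, hy⟩ := Finset.exists_ne_zero_of_sum_ne_zero hx
      exact ha x y hy
  unfold mon
  simp only [h1]
  have h2 : ∀ x y, ∏ p, ∏ q, hh B (ω p) (ω q) ^ (if f x = p ∧ f y = q then n x y else 0)
      = hh B ((ω ∘ f) x) ((ω ∘ f) y) ^ n x y := by
    intro x y
    rw [Fintype.prod_eq_single (f x), Fintype.prod_eq_single (f y)]
    · simp
    · intro q hq
      rw [if_neg fun h => hq h.2.symm, zpow_zero]
    · intro p hp
      refine Finset.prod_eq_one fun q _ => ?_
      rw [if_neg fun h => hp h.1.symm, zpow_zero]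
  calc _ = ∏ p, ∏ x, ∏ y, ∏ q, hh B (ω p) (ω q) ^ (if f x = p ∧ f y = q then n x y else 0) := by
        refine Finset.prod_congr rfl fun p _ => ?_
        rw [Finset.prod_comm]
        refine Finset.prod_congr rfl fun x _ => ?_
        rw [Finset.prod_comm]
    _ = ∏ x, ∏ y, ∏ p, ∏ q, hh B (ω p) (ω q) ^ (if f x = p ∧ f y = q then n x y else 0) := by
        rw [Finset.prod_comm]
        refine Finset.prod_congr rfl fun x _ => ?_
        rw [Finset.prod_comm]
    _ = _ := by simp only [h2]

theorem Nz.push {f : V → V'} {n : V → V → ℤ} {ω : V' → Vt N} (h : Nz n (ω ∘ f)) :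
    Nz (F7.push f n) ω := by
  intro p q hpq
  unfold F7.push at hpq
  obtain ⟨x, _, hx⟩ := Finset.exists_ne_zero_of_sum_ne_zero hpq
  obtain ⟨y, _, hy⟩ := Finset.exists_ne_zero_of_sum_ne_zero hx
  split_ifs at hy with hc
  · have := h x y hy
    simp only [Function.comp, hc.1, hc.2] at this
    exact this
  · exact absurd rfl hy

theorem mon_add (hB : IsMUBs B) (n m : V → V → ℤ) (ω : V → Vt N) (hn : Nz n ω) (hm : Nz m ω) :
    mon B (fun x y => n x y + m x y) ω = mon B n ω * mon B m ω := by
  unfold mon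
  rw [← Finset.prod_mul_distrib]
  refine Finset.prod_congr rfl fun x _ => ?_
  rw [← Finset.prod_mul_distrib]
  refine Finset.prod_congr rfl fun y _ => ?_
  by_cases h : (ω x).1 = (ω y).1
  · have h1 : n x y = 0 := by by_contra h0; exact hn x y h0 h
    have h2 : m x y = 0 := by by_contra h0; exact hm x y h0 h
    simp [h1, h2]
  · exact zpow_add₀ (hh_ne hB h) _ _

theorem star_mon (hB : IsMUBs B) (n : V → V → ℤ) (ω : V → Vt N) (hn : Nz n ω) :
    star (mon B n ω) = mon B (fun x y => - n x y) ω := by
  unfold mon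
  simp only [star_prod]
  refine Finset.prod_congr rfl fun x _ => Finset.prod_congr rfl fun y _ => ?_
  by_cases h : (ω x).1 = (ω y).1
  · have h1 : n x y = 0 := by by_contra h0; exact hn x y h0 h
    simp [h1]
  · rw [star_zpow₀, star_hh, ← hh_inv' hB h, zpow_neg, inv_zpow]

theorem norm_mon (hB : IsMUBs B) (n : V → V → ℤ) (ω : V → Vt N) (hn : Nz n ω) :
    ‖mon B n ω‖ = 1 := by
  unfold mon
  rw [norm_prod]
  refine Finset.prod_eq_one fun x _ => ?_
  rw [norm_prod]
  refine Finset.prod_eq_one fun y _ => ?_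
  by_cases h : (ω x).1 = (ω y).1
  · have h1 : n x y = 0 := by by_contra h0; exact hn x y h0 h
    simp [h1]
  · rw [norm_zpow, hh_nrm hB h, one_zpow]

theorem prod_pairs {K : ℕ} (F : Fin K → Fin K → ℂ) :
    ∏ x, ∏ y, F x y = (∏ x, F x x) * ∏ x, ∏ y, if x < y then F x y * F y x else 1 := by
  have h1 : ∀ x y, F x y = (if x = y then F x x else 1) *
      ((if x < y then F x y else 1) * (if y < x then F x y else 1)) := by
    intro x y
    rcases lt_trichotomy x y with h | h | h
    · simp [h, h.ne, not_lt.2 h.le]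
    · subst h; simp
    · simp [h, h.ne', not_lt.2 h.le]
  have e1 : ∏ x, ∏ y, F x y = ∏ x, ∏ y, ((if x = y then F x x else 1) *
      ((if x < y then F x y else 1) * (if y < x then F x y else 1))) :=
    Finset.prod_congr rfl fun x _ => Finset.prod_congr rfl fun y _ => h1 x y
  have e2 : ∏ x, ∏ y, ((if x = y then F x x else 1) *
      ((if x < y then F x y else 1) * (if y < x then F x y else 1)))
      = (∏ x, ∏ y, (if x = y then F x x else 1)) * ((∏ x, ∏ y, (if x < y then F x y else 1)) *
        ∏ x, ∏ y, (if y < x then F x y else 1)) := by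
    simp only [Finset.prod_mul_distrib]
  have e3 : ∏ x, ∏ y, (if x = y then F x x else 1) = ∏ x, F x x :=
    Finset.prod_congr rfl fun x _ => by simp
  have e4 : ∏ x, ∏ y, (if y < x then F x y else 1) = ∏ x, ∏ y, (if x < y then F y x else 1) :=
    Finset.prod_comm
  have e5 : (∏ x, ∏ y, (if x < y then F x y else 1)) * ∏ x, ∏ y, (if x < y then F y x else 1)
      = ∏ x, ∏ y, if x < y then F x y * F y x else 1 := by
    rw [← Finset.prod_mul_distrib]
    refine Finset.prod_congr rfl fun x _ => ?_
    rw [← Finset.prod_mul_distrib]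
    refine Finset.prod_congr rfl fun y _ => ?_
    split_ifs <;> simp
  rw [e1, e2, e3, e4, e5]

/-- only the antisymmetric part of the flow matters. -/
theorem mon_antisymm (hB : IsMUBs B) {K : ℕ} (n n' : Fin K → Fin K → ℤ) (ω : Fin K → Vt N)
    (hn : Nz n ω) (hn' : Nz n' ω) (h : ∀ x y, n x y - n y x = n' x y - n' y x) :
    mon B n ω = mon B n' ω := by
  unfold mon
  rw [prod_pairs (fun x y => hh B (ω x) (ω y) ^ n x y),
    prod_pairs (fun x y => hh B (ω x) (ω y) ^ n' x y)]
  refine congrArg₂ (· * ·) (Finset.prod_congr rfl fun x _ => ?_)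
    (Finset.prod_congr rfl fun x _ => Finset.prod_congr rfl fun y _ => ?_)
  · have h1 : n x x = 0 := by by_contra h0; exact hn x x h0 rfl
    have h2 : n' x x = 0 := by by_contra h0; exact hn' x x h0 rfl
    rw [h1, h2]
  · split_ifs with hxy
    · by_cases h0 : (ω x).1 = (ω y).1
      · have h1 : n x y = 0 := by by_contra h'; exact hn x y h' h0
        have h2 : n' x y = 0 := by by_contra h'; exact hn' x y h' h0
        have h3 : n y x = 0 := by by_contra h'; exact hn y x h' h0.symm
        have h4 : n' y x = 0 := by by_contra h'; exact hn' y x h' h0.symm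
        rw [h1, h2, h3, h4]
      · rw [← hh_inv' hB h0, inv_zpow, inv_zpow, ← zpow_neg, ← zpow_neg,
          ← zpow_add₀ (hh_ne hB h0), ← zpow_add₀ (hh_ne hB h0)]
        congr 1
        have := h x y
        linarith
    · rfl

end Vale.Agent.P355.H41.F7
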