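import Vale.Agent.P355.H41.F7.Grp
import Vale.Agent.P355.H129.Lin

/-! Isotypic blocks: positivity of the form of a certified integer matrix, folded to pairs
`x ≤ y`. -/

namespace Vale.Agent.P355.H41.F7

open Finset Matrix Vale.Agent.P355
open Vale.Agent.P355.H147 (GramF GTab DTab QPsd)
open Vale.Agent.P355.H129 (Gm psdCk psdCk_nonneg Gm_comm)

set_option linter.unusedSectionVars false

variable {N L r : ℕ} [NeZero N] [NeZero L] [NeZero r] {B : Fin N → M6}

theorem sum_fold (C : ℕ → ℕ → ℝ) (hC : ∀ x y, C x y = C y x) (n : ℕ) :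
    ∑ x ∈ range n, ∑ y ∈ range n, C x y
      = ∑ y ∈ range n, (C y y + 2 * ∑ x ∈ range y, C x y) := by
  induction n with
  | zero => simp
  | succ n ih =>
    rw [sum_range_succ (fun y => C y y + 2 * ∑ x ∈ range y, C x y), ← ih, sum_range_succ]
    simp only [sum_range_succ, sum_add_distrib]
    have : ∑ x ∈ range n, C n x = ∑ x ∈ range n, C x n := sum_congr rfl fun x _ => hC _ _
    rw [this]; ring

/-- the flags of a list. -/
def fd0 : FD := ⟨false, [], []⟩

/-- flag number `x`. -/
def fX (N L r : ℕ) [NeZero N] [NeZero L] [NeZero r] (fl : List FD) (x : ℕ) : Fl N L r :=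
  (fl.getD x fd0).fl N L r

/-- value of the pair `x`, `act_j y`. -/
noncomputable def vJ (lab : List ℕ) (r : ℕ) [NeZero r] (B : Fin N → M6) (L : ℕ) [NeZero L]
    (gs : List GD) (fl : List FD) (x y j : ℕ) : ℝ :=
  Mk (toF L N lab) B (fX N L r fl x) (gact N L r gs j (fX N L r fl y))

/-- data of a block. -/
structure BD where
  d : ℕ
  D : List SPm
  w : ℕ
  oU : ℕ
  Us : List ℕ

/-- the contribution of a pair of flags to a block. -/
noncomputable def BD.C (n : ℕ) (v : ℕ → ℕ → ℕ → ℝ) (b : BD) (x y : ℕ) : ℝ :=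
  ∑ s ∈ range b.d, ∑ s' ∈ range b.d, (Gm b.w b.oU b.Us (x * b.d + s) (y * b.d + s') : ℝ) *
    ∑ j ∈ range n, (spE (b.D.getD j []) s s' : ℝ) * v x y j

/-- check of the block. -/
structure BD.Ok (b : BD) (n nk : ℕ) (nu : List (List ℕ)) (inv : List ℕ) : Prop where
  rep : dtabCk n b.d nu b.D = true
  inv : ((List.range n).all fun j => (List.range b.d).all fun s => (List.range b.d).all fun s' =>
    decide (spE (b.D.getD (inv.getD j 0) []) s' s = spE (b.D.getD j []) s s')) = true
  psd : ∃ bu bl v c o δ Cs, psdCk b.w bu bl v (nk * b.d) c o b.oU δ b.Us Cs = true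

theorem sum_range_mul (nk d : ℕ) (f : ℕ → ℝ) :
    ∑ i ∈ range (nk * d), f i = ∑ x ∈ range nk, ∑ s ∈ range d, f (x * d + s) := by
  induction nk with
  | zero => simp
  | succ n ih => rw [Nat.succ_mul, sum_range_add, ih, sum_range_succ]

theorem block_ge (hB : IsMUBs B) {n nk : ℕ} [NeZero n] {lab : List ℕ} (hlab : lab.length = L)
    (hlN : allLt N lab = true) {gs : List GD} {nu : List (List ℕ)} {inv : List ℕ}
    (hg : gtabCk N L n lab gs nu = true) (fl : List FD) (b : BD) (hb : b.Ok n nk nu inv) :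
    0 ≤ ∑ x ∈ range nk, ∑ y ∈ range nk, b.C n (vJ lab r B L gs fl) x y := by
  obtain ⟨hrep, _, bu, bl, v, c, o, δ, Cs, hpsd⟩ := hb
  have hnu : ((List.range n).all fun i => isP n (nu.getD i [])) = true := by
    simp only [gtabCk, Bool.and_eq_true, List.all_eq_true, List.mem_range] at hg ⊢
    intro i hi; exact (hg.1 i hi).2
  have hD := dtab_sound hnu hrep
  have hG := gtab_sound (r := r) hg
  have hM : GramF (Mk (r := r) (toF L N lab) B) := Mk_gram _ _
  have hinv : ∀ (i : Fin n) (x y : Fl N L r), Mk (toF L N lab) B (gact N L r gs i x)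
      (gact N L r gs i y) = Mk (toF L N lab) B x y := by
    intro i x y
    simp only [gtabCk, Bool.and_eq_true, List.all_eq_true, List.mem_range] at hg
    exact Mk_inv hB (GD.Ok hlab hlN (hg.1 i i.2).1) x y
  have hQ : QPsd (I := Fin nk × Fin b.d) fun p q =>
      (Gm b.w b.oU b.Us (p.1 * b.d + p.2) (q.1 * b.d + q.2) : ℝ) := by
    intro z
    have h := psdCk_nonneg hpsd (fun i => if h : i / b.d < nk ∧ 0 < b.d then
      z (⟨i / b.d, h.1⟩, ⟨i % b.d, Nat.mod_lt _ h.2⟩) else 0)
    have e : ∀ x : Fin nk, ∀ s : Fin b.d,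
        (if h : (x * b.d + s : ℕ) / b.d < nk ∧ 0 < b.d then
          z (⟨(x * b.d + s : ℕ) / b.d, h.1⟩, ⟨(x * b.d + s : ℕ) % b.d, Nat.mod_lt _ h.2⟩) else 0)
        = z (x, s) := by
      intro x s
      have hd : 0 < b.d := s.pos
      have h1 : (x * b.d + s : ℕ) / b.d = x := by
        rw [mul_comm, Nat.mul_add_div hd, Nat.div_eq_of_lt s.2, add_zero]
      have h2 : (x * b.d + s : ℕ) % b.d = s := by
        rw [mul_comm, Nat.mul_add_mod, Nat.mod_eq_of_lt s.2]
      rw [dif_pos ⟨by rw [h1]; exact x.2, hd⟩]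
      congr 1
      exact Prod.ext (Fin.ext h1) (Fin.ext h2)
    rw [sum_range_mul] at h
    rw [Fintype.sum_prod_type]
    rw [Finset.sum_range] at h
    convert h using 1
    refine Finset.sum_congr rfl fun x _ => ?_
    rw [Finset.sum_range]
    refine Finset.sum_congr rfl fun s _ => ?_
    rw [sum_range_mul, Fintype.sum_prod_type, Finset.sum_range]
    refine Finset.sum_congr rfl fun y _ => ?_
    rw [Finset.sum_range]
    refine Finset.sum_congr rfl fun s' _ => ?_
    rw [e, e]
  have hn : 0 < n := Nat.pos_of_ne_zero (NeZero.ne n)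
  have h := H147.block_nonneg hn hG hD hM hinv (fun x : Fin nk => fX N L r fl x) hQ
  rw [Fintype.sum_prod_type] at h
  simp only [Fintype.sum_prod_type] at h
  convert h using 1
  rw [Finset.sum_range]
  refine Finset.sum_congr rfl fun x _ => ?_
  have h3 : ∀ f : Fin b.d → Fin nk → ℝ, ∑ s, ∑ y, f s y = ∑ y, ∑ s, f s y :=
    fun f => Finset.sum_comm
  rw [h3, Finset.sum_range]
  refine Finset.sum_congr rfl fun y _ => ?_
  unfold BD.C
  rw [Finset.sum_range]
  refine Finset.sum_congr rfl fun s _ => ?_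
  rw [Finset.sum_range]
  refine Finset.sum_congr rfl fun s' _ => ?_
  congr 1
  rw [Finset.sum_range]
  rfl

theorem vJ_inv (hB : IsMUBs B) {n : ℕ} {lab : List ℕ} (hlab : lab.length = L)
    (hlN : allLt N lab = true) {gs : List GD} {inv : List ℕ}
    (hgs : ((List.range n).all fun i => (gat gs i).ok N L lab) = true)
    (hi : invCk N L n gs inv = true) (fl : List FD) (x y j : ℕ) (hj : j < n) :
    vJ lab r B L gs fl y x (inv.getD j 0) = vJ lab r B L gs fl x y j := by
  unfold vJ
  have hgs' := hgs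
  simp only [List.all_eq_true, List.mem_range] at hgs'
  have hinv' := hi
  simp only [invCk, Bool.and_eq_true] at hinv'
  have hj' : inv.getD j 0 < n := isP_lt hinv'.1 hj
  have hok := GD.Ok hlab hlN (hgs' _ hj')
  have h1 := Mk_inv (r := r) hB hok (gact N L r gs j (fX N L r fl y)) (fX N L r fl x)
  have h2 : (((gat gs (inv.getD j 0)).g N L).act (gact N L r gs j (fX N L r fl y)))
      = fX N L r fl y := inv_act hgs hi j hj _
  rw [h2] at h1
  unfold gact at h1 ⊢
  rw [h1, Mk_symm]

theorem BD.C_symm (hB : IsMUBs B) {n nk : ℕ} {lab : List ℕ} (hlab : lab.length = L)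
    (hlN : allLt N lab = true) {gs : List GD} {nu : List (List ℕ)} {inv : List ℕ}
    (hgs : ((List.range n).all fun i => (gat gs i).ok N L lab) = true)
    (hi : invCk N L n gs inv = true) (fl : List FD) (b : BD) (hb : b.Ok n nk nu inv) (x y : ℕ) :
    b.C n (vJ lab r B L gs fl) x y = b.C n (vJ lab r B L gs fl) y x := by
  unfold BD.C
  rw [Finset.sum_comm]
  refine sum_congr rfl fun s' hs' => sum_congr rfl fun s hs => ?_
  rw [Gm_comm]
  congr 1
  have hI := hi
  simp only [invCk, Bool.and_eq_true] at hI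
  have hn : n = 0 ∨ 0 < n := Nat.eq_zero_or_pos n
  rcases hn with rfl | hn
  · simp
  · have : NeZero n := ⟨by omega⟩
    have hinj := isP_inj hI.1
    have e1 := hb.inv
    simp only [List.all_eq_true, List.mem_range, decide_eq_true_eq] at e1
    rw [Finset.sum_range, Finset.sum_range]
    rw [← Equiv.sum_comp (Equiv.ofBijective _ (Finite.injective_iff_bijective.1 hinj))
      (fun j : Fin n => (spE (b.D.getD j []) s' s : ℝ) * vJ lab r B L gs fl y x j)]
    refine Finset.sum_congr rfl fun j _ => ?_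
    simp only [Equiv.ofBijective_apply]
    have hv : ((toF n n inv j : Fin n) : ℕ) = inv.getD j 0 := by
      have := hI.1
      simp only [isP, Bool.and_eq_true, Nat.beq_eq] at this
      exact val_toF this.1.1 this.1.2 j
    rw [hv, vJ_inv hB hlab hlN hgs hi fl x y j j.2,
      e1 j j.2 s (mem_range.1 hs) s' (mem_range.1 hs')]

/-- total contribution. -/
noncomputable def Ct (n : ℕ) (v : ℕ → ℕ → ℕ → ℝ) (bs : List BD) (x y : ℕ) : ℝ :=
  (bs.map fun b => b.C n v x y).sum

theorem total_ge (hB : IsMUBs B) {n nk : ℕ} [NeZero n] {lab : List ℕ} (hlab : lab.length = L)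
    (hlN : allLt N lab = true) {gs : List GD} {nu : List (List ℕ)} {inv : List ℕ}
    (hg : gtabCk N L n lab gs nu = true) (hi : invCk N L n gs inv = true) (fl : List FD)
    (bs : List BD) (hb : ∀ b ∈ bs, b.Ok n nk nu inv) :
    0 ≤ ∑ y ∈ range nk, (Ct n (vJ lab r B L gs fl) bs y y
      + 2 * ∑ x ∈ range y, Ct n (vJ lab r B L gs fl) bs x y) := by
  have hgs : ((List.range n).all fun i => (gat gs i).ok N L lab) = true := by
    simp only [gtabCk, Bool.and_eq_true, List.all_eq_true, List.mem_range] at hg ⊢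
    intro i hi; exact (hg.1 i hi).1
  rw [← sum_fold (Ct n (vJ lab r B L gs fl) bs)]
  · unfold Ct
    have h1 : ∑ x ∈ range nk, ∑ y ∈ range nk, (bs.map fun b => b.C n (vJ lab r B L gs fl) x y).sum
        = (bs.map fun b => ∑ x ∈ range nk, ∑ y ∈ range nk, b.C n (vJ lab r B L gs fl) x y).sum := by
      clear hb
      induction bs with
      | nil => simp
      | cons b bs ih => simp only [List.map_cons, List.sum_cons, sum_add_distrib, ih]
    rw [h1]
    refine List.sum_nonneg fun t ht => ?_
    simp only [List.mem_map] at ht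
    obtain ⟨b, hb', rfl⟩ := ht
    exact block_ge hB hlab hlN hg fl b (hb b hb')
  · intro x y
    unfold Ct
    congr 1
    exact List.map_congr_left fun b hb' => BD.C_symm hB hlab hlN hgs hi fl b (hb b hb') x y

end Vale.Agent.P355.H41.F7
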