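import Vale.Agent.P355.H41.F7.Acc
import Vale.Agent.P355.H138.Table

/-! Executable checks of the tables, and the final contradiction. -/

namespace Vale.Agent.P355.H41.F7

open Finset Matrix Vale.Agent.P355
open Vale.Agent.P355.H129 (Gm NRep force force_eq dg dg_sum resCk resCk_spec)
open Vale.Agent.P355.H138 (Tr)

set_option linter.unusedSectionVars false

variable {N L r K : ℕ} [NeZero N] [NeZero L] [NeZero r] [NeZero K] {B : Fin N → M6}

/-! ### decoding -/

/-- digits of `b` bits. -/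
def dgs (b n : ℕ) : ℕ → List ℕ :=
  Nat.rec (motive := fun _ => ℕ → List ℕ) (fun _ => [])
    (fun _ ih X => force (Nat.mod X (2 ^ b)) fun a => force (Nat.shiftRight X b) fun Y => a :: ih Y) n

/-- placement. -/
def plD (K N X : ℕ) : Pl := ⟨dgs 3 K X, dgs 3 N (Nat.shiftRight X (3 * K))⟩

/-- class of a table. -/
noncomputable def clsT (K : ℕ) (t : Tr) (i : ℕ) : Cl :=
  ⟨(t.get i).1, dgs 3 K (t.get i).2, ((Nat.shiftRight (t.get i).2 (3 * K) : ℕ) : ℤ)⟩

/-- all leaves. -/
noncomputable def trAll (p : Bool → ℕ → Bool) (t : Tr) : Bool :=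
  Tr.rec (motive := fun _ => Bool) (fun b c => p b c) (fun _ _ ihl ihr => and ihl ihr) t

theorem trAll_spec {p : Bool → ℕ → Bool} {t : Tr} (h : trAll p t = true) (i : ℕ) :
    p (t.get i).1 (t.get i).2 = true := by
  induction t generalizing i with
  | lf b c => exact h
  | nd l r ihl ihr =>
    have h1 : (trAll p l && trAll p r) = true := h
    rw [Bool.and_eq_true] at h1
    have h2 : (Tr.nd l r).get i = cond (Nat.beq (i % 2) 0) (l.get (i / 2)) (r.get (i / 2)) := rfl
    rw [h2]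
    cases Nat.beq (i % 2) 0
    · exact ihr h1.2 _
    · exact ihl h1.1 _

/-- all classes of the table are good. -/
noncomputable def clsCk (K : ℕ) (t : Tr) : Bool :=
  trAll (fun b u => goodCk K ⟨b, dgs 3 K u, ((Nat.shiftRight u (3 * K) : ℕ) : ℤ)⟩) t

theorem clsCk_sound {t : Tr} (h : clsCk K t = true) (i : ℕ) : GoodCl K (clsT K t i) :=
  goodE_sound (trAll_spec h i)

/-! ### pairs -/

/-- check of a pair of flags. -/
def prCk (K N L r n : ℕ) (lab : List ℕ) (gs : List GD) (cls : ℕ → Cl) (fx fy : FD)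
    (ids pls : ℕ) : Bool :=
  allR n fun j => (GD.act L (gat gs j) fy).ok N L r lab && (plD K N (dgt 45 pls j)).ok N K &&
    pchk K L r lab fx (GD.act L (gat gs j) fy) (plD K N (dgt 45 pls j)) (cls (dgt 16 ids j))

/-- check of a row of pairs. -/
def prRow (K N L r n : ℕ) (lab : List ℕ) (gs : List GD) (cls : ℕ → Cl) (fl : List FD) (y : ℕ)
    (idr plr : List ℕ) : Bool :=
  allR (y + 1) fun x => prCk K N L r n lab gs cls (fl.getD x fd0) (fl.getD y fd0) (nth idr x)
    (nth plr x)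

/-- check of the flags. -/
def flCk (N L r nk : ℕ) (lab : List ℕ) (fl : List FD) : Bool :=
  allR nk fun x => (fl.getD x fd0).ok N L r lab

theorem prCk_sound (hB : IsMUBs B) (hK : K = L + (r + r)) {n nk : ℕ} {lab : List ℕ}
    (hlab : lab.length = L) (hlN : allLt N lab = true) {gs : List GD}
    (hgs : ((List.range n).all fun i => (gat gs i).ok N L lab) = true) {cls : ℕ → Cl}
    (hG : ∀ i, GoodCl K (cls i)) {fl : List FD} (hfl : flCk N L r nk lab fl = true) {x y : ℕ} (hx : x < nk) (hy : y < nk)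
    {ids pls : ℕ}
    (h : prCk K N L r n lab gs cls (fl.getD x fd0) (fl.getD y fd0) ids pls = true) :
    ∀ j < n, vJ lab r B L gs fl x y j = (mlt fl x y : ℝ) * vlc K B (cls (dgt 16 ids j)) := by
  intro j hj
  have h1 := allR_spec h j hj
  simp only [Bool.and_eq_true] at h1
  obtain ⟨⟨h2, h3⟩, h4⟩ := h1
  have hfx := allR_spec hfl x hx
  have hfy := allR_spec hfl y hy
  simp only [List.all_eq_true, List.mem_range] at hgs
  have h5 := pchk_sound hB hK hlab hlN hfx h2 _ h3 _ (hG _) h4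
  rw [GD.act_fl (hgs j hj) hfy] at h5
  exact h5

theorem prRow_sound (hB : IsMUBs B) (hK : K = L + (r + r)) {n nk : ℕ} {lab : List ℕ}
    (hlab : lab.length = L) (hlN : allLt N lab = true) {gs : List GD}
    (hgs : ((List.range n).all fun i => (gat gs i).ok N L lab) = true) {cls : ℕ → Cl}
    (hG : ∀ i, GoodCl K (cls i)) {fl : List FD} (hfl : flCk N L r nk lab fl = true) {y : ℕ} (hy : y < nk)
    {idr plr : List ℕ} (h : prRow K N L r n lab gs cls fl y idr plr = true) :
    ∀ x ≤ y, ∀ j < n, vJ lab r B L gs fl x y j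
      = (mlt fl x y : ℝ) * vlc K B (cls (dgt 16 (nth idr x) j)) := by
  intro x hx
  exact prCk_sound hB hK hlab hlN hgs hG hfl (by omega) hy (allR_spec h x (by omega))

/-- check of a part of a row of pairs: `x = lo, ..., lo + m - 1`. -/
def prSeg (K N L r n : ℕ) (lab : List ℕ) (gs : List GD) (cls : ℕ → Cl) (fl : List FD) (y lo m : ℕ)
    (idr plr : List ℕ) : Bool :=
  allR m fun k => prCk K N L r n lab gs cls (fl.getD (lo + k) fd0) (fl.getD y fd0)
    (nth idr (lo + k)) (nth plr k)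

theorem prSeg_sound (hB : IsMUBs B) (hK : K = L + (r + r)) {n nk : ℕ} {lab : List ℕ}
    (hlab : lab.length = L) (hlN : allLt N lab = true) {gs : List GD}
    (hgs : ((List.range n).all fun i => (gat gs i).ok N L lab) = true) {cls : ℕ → Cl}
    (hG : ∀ i, GoodCl K (cls i)) {fl : List FD} (hfl : flCk N L r nk lab fl = true) {y : ℕ}
    (hy : y < nk) {lo m : ℕ} (hm : lo + m ≤ nk)
    {idr plr : List ℕ} (h : prSeg K N L r n lab gs cls fl y lo m idr plr = true) (x : ℕ)
    (h1 : lo ≤ x) (h2 : x < lo + m) : ∀ j < n, vJ lab r B L gs fl x y j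
      = (mlt fl x y : ℝ) * vlc K B (cls (dgt 16 (nth idr x) j)) := by
  have h3 := allR_spec h (x - lo) (by omega)
  have e : lo + (x - lo) = x := by omega
  rw [e] at h3
  exact prCk_sound hB hK hlab hlN hgs hG hfl (by omega) hy h3

/-! ### rows -/

/-- signed terms: sign, 16 bits, identifier of 16 bits. -/
def tmD (n : ℕ) : ℕ → List (Bool × ℕ × ℕ) :=
  Nat.rec (motive := fun _ => ℕ → List (Bool × ℕ × ℕ)) (fun _ => [])
    (fun _ ih X => force (Nat.mod (Nat.shiftRight X 1) 65536) fun a =>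
      force (Nat.mod (Nat.shiftRight X 17) 65536) fun i => force (Nat.shiftRight X 33) fun Y =>
        (Nat.beq (Nat.mod X 2) 1, a, i) :: ih Y) n

/-- the relation of a packed row: sign, multiplier of 64 bits, terms. -/
def rowRL (R : ℕ) : RL :=
  (Nat.beq (Nat.mod R 2) 1, Nat.mod (Nat.shiftRight R 1) (2 ^ 64),
    tmD (Nat.mod (Nat.shiftRight R 65) 16) (Nat.shiftRight R 69))

/-- edges: two vertices of 3 bits, exponent of 4 bits plus 8. -/
def egD (n : ℕ) : ℕ → List (ℕ × ℕ × ℤ) :=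
  Nat.rec (motive := fun _ => ℕ → List (ℕ × ℕ × ℤ)) (fun _ => [])
    (fun _ ih X => force (Nat.mod X 8) fun a => force (Nat.mod (Nat.shiftRight X 3) 8) fun b =>
      force (Nat.mod (Nat.shiftRight X 6) 16) fun k => force (Nat.shiftRight X 10) fun Y =>
        (a, b, Int.subNatNat k 8) :: ih Y) n

/-- comparison of the relation. -/
def eqT : List (ℤ × ℕ) → List (Bool × ℕ × ℕ) → Bool
  | [], [] => true
  | o :: os, t :: ts => decide (o.1 = cond t.1 (-(t.2.1 : ℤ)) (t.2.1 : ℤ)) && Nat.beq o.2 t.2.2 &&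
      eqT os ts
  | _, _ => false

theorem eqT_spec {val : ℕ → ℝ} {os : List (ℤ × ℕ)} {ts : List (Bool × ℕ × ℕ)}
    (h : eqT os ts = true) : (os.map fun o => (o.1 : ℝ) * val o.2).sum = stV val ts := by
  induction os generalizing ts with
  | nil =>
    cases ts with
    | nil => simp [stV]
    | cons t ts => exact absurd h (by simp [eqT])
  | cons o os ih =>
    cases ts with
    | nil => exact absurd h (by simp [eqT])
    | cons t ts =>
      simp only [eqT, Bool.and_eq_true, decide_eq_true_eq, Nat.beq_eq] at h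
      obtain ⟨⟨h1, h2⟩, h3⟩ := h
      have := ih h3
      unfold stV at this ⊢
      rw [List.map_cons, List.sum_cons, List.map_cons, List.sum_cons, this, h1, h2]
      obtain ⟨g, c, i⟩ := t
      cases g <;> simp

/-- a row given by its word data: `kind`, colours, `v`, `x1`, `x2`, `y1`, `y2`, other colours,
edges. -/
structure RW where
  kind : Bool
  c : List ℕ
  v : ℕ
  x1 : ℕ
  x2 : ℕ
  y1 : ℕ
  y2 : ℕ
  U : List ℕ
  E : List (ℕ × ℕ × ℤ)

/-- the terms. -/
def RW.terms (w : RW) : List RT :=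
  cond w.kind (row2 w.c w.v w.x1 w.x2 w.y1 w.y2 w.E w.U) (row1 w.c w.x1 w.v w.y1 w.E)

/-- the side conditions. -/
def RW.ok (K : ℕ) (w : RW) : Bool :=
  cond w.kind
    ((⟨w.c, [(w.x1, w.v), (w.x2, w.v), (w.v, w.y1), (w.v, w.y2)], w.E⟩ : Wd).ok 7 K &&
      ok2 K w.c w.v w.x1 w.x2 w.y1 w.y2 w.E w.U)
    ((⟨w.c, [(w.x1, w.v), (w.v, w.y1)], w.E⟩ : Wd).ok 7 K &&
      (!Nat.beq w.x1 w.v && !Nat.beq w.y1 w.v && vfree w.v w.E))

theorem RW.sound {B : Fin 7 → M6} (hB : IsMUBs B) (w : RW) (h : w.ok K = true) :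
    rowS K B w.terms = 0 := by
  unfold RW.ok at h
  unfold RW.terms
  rcases hk : w.kind with _ | _
  · rw [hk] at h
    simp only [cond_false, Bool.and_eq_true] at h ⊢
    refine row1_sound hB _ _ _ _ _ h.1 ?_
    simp only [Bool.and_eq_true]
    exact h.2
  · rw [hk] at h
    simp only [cond_true, Bool.and_eq_true] at h ⊢
    exact row2_sound hB _ _ _ _ _ _ _ _ h.1 h.2

/-- pair the terms of a row with the placements (`3 (K + N)` bits) and the classes. -/
def items (K N : ℕ) : List RT → List (Bool × ℕ × ℕ) → ℕ → List (RT × Pl × ℕ)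
  | [], _, _ => []
  | t :: ts, [], X => (t, plD K N X, 0) :: items K N ts [] X
  | t :: ts, s :: ss, X => (t, plD K N X, s.2.2) :: items K N ts ss (Nat.shiftRight X (3 * (K + N)))

theorem items_map (K N : ℕ) : ∀ (ts : List RT) (ss : List (Bool × ℕ × ℕ)) (X : ℕ),
    (items K N ts ss X).map (fun t => t.1) = ts
  | [], _, _ => rfl
  | t :: ts, [], X => by simp [items, items_map K N ts [] X]
  | t :: ts, s :: ss, X => by simp [items, items_map K N ts ss _]

/-- check of a row. -/
def rwCk (K T : ℕ) (cls : ℕ → Cl) (w : RW) (ss : List (Bool × ℕ × ℕ)) (X : ℕ) : Bool :=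
  w.ok K && ((items K 7 w.terms ss X).all fun t => t.1.w.ok 7 K && t.2.1.ok 7 K) &&
    match rchk K T cls (items K 7 w.terms ss X) with
    | none => false
    | some os => eqT os ss

theorem rwCk_sound {B : Fin 7 → M6} (hB : IsMUBs B) {T : ℕ} {cls : ℕ → Cl}
    (hG : ∀ i, GoodCl K (cls i)) {w : RW}
    {ss : List (Bool × ℕ × ℕ)} {X : ℕ} (h : rwCk K T cls w ss X = true) :
    stV (fun i => vlc K B (cls i)) ss = 0 := by
  unfold rwCk at h
  simp only [Bool.and_eq_true, List.all_eq_true] at h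
  obtain ⟨⟨h1, h2⟩, h3⟩ := h
  rcases h4 : rchk K T cls (items K 7 w.terms ss X) with _ | os
  · rw [h4] at h3; exact absurd h3 (by simp)
  · rw [h4] at h3
    simp only at h3
    have h5 := rchk_sound hB T cls hG _ (fun t ht => h2 t ht) os h4
    rw [items_map, RW.sound hB w h1, mul_zero] at h5
    rw [← eqT_spec (val := fun i => vlc K B (cls i)) h3]
    exact h5.symm

/-- word data of a packed number: kind (1), colours (`3 K`), `v x1 x2 y1 y2` (15), exponent (3),
`|U|` (3), `U` (21), number of edges (5), edges. -/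
def rwD (K X : ℕ) : RW :=
  ⟨Nat.beq (Nat.mod X 2) 1, dgs 3 K (Nat.shiftRight X 1),
    Nat.mod (Nat.shiftRight X (1 + 3 * K)) 8, Nat.mod (Nat.shiftRight X (4 + 3 * K)) 8,
    Nat.mod (Nat.shiftRight X (7 + 3 * K)) 8, Nat.mod (Nat.shiftRight X (10 + 3 * K)) 8,
    Nat.mod (Nat.shiftRight X (13 + 3 * K)) 8,
    dgs 3 (Nat.mod (Nat.shiftRight X (19 + 3 * K)) 8) (Nat.shiftRight X (22 + 3 * K)),
    egD (Nat.mod (Nat.shiftRight X (43 + 3 * K)) 32) (Nat.shiftRight X (48 + 3 * K))⟩

/-- complete check of a packed row. -/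
def rowCk (K : ℕ) (cls : ℕ → Cl) (R : ℕ) : Bool :=
  force (Nat.mod (Nat.shiftRight R 65) 16) fun nt =>
  force (Nat.shiftRight R (69 + 33 * nt)) fun X =>
  force (Nat.mod (Nat.shiftRight X (16 + 3 * K)) 8) fun T =>
  force (Nat.shiftRight X (48 + 3 * K + 10 * (Nat.mod (Nat.shiftRight X (43 + 3 * K)) 32))) fun Y =>
    rwCk K T cls (rwD K X) (rowRL R).2.2 Y

theorem rowCk_sound {B : Fin 7 → M6} (hB : IsMUBs B) {cls : ℕ → Cl}
    (hG : ∀ i, GoodCl K (cls i)) {R : ℕ}
    (h : rowCk K cls R = true) : stV (fun i => vlc K B (cls i)) (rowRL R).2.2 = 0 := by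
  unfold rowCk at h
  simp only [force_eq] at h
  exact rwCk_sound hB hG h

/-- check of a list of rows. -/
def rowsCk (K : ℕ) (cls : ℕ → Cl) (l : List ℕ) : Bool :=
  List.rec (motive := fun _ => Bool) true (fun R _ ih => and (rowCk K cls R) ih) l

theorem rowsCk_sound {B : Fin 7 → M6} (hB : IsMUBs B) {cls : ℕ → Cl}
    (hG : ∀ i, GoodCl K (cls i)) {l : List ℕ}
    (h : rowsCk K cls l = true) :
    ∀ R ∈ l.map rowRL, stV (fun i => vlc K B (cls i)) R.2.2 = 0 := by
  induction l with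
  | nil => simp
  | cons R l ih =>
    have h1 : (rowCk K cls R && rowsCk K cls l) = true := h
    rw [Bool.and_eq_true] at h1
    intro R' hR'
    rw [List.map_cons, List.mem_cons] at hR'
    rcases hR' with rfl | hR'
    · exact rowCk_sound hB hG h1.1
    · exact ih h1.2 R' hR'

/-! ### the end -/

theorem vlc_zero (hB : IsMUBs B) (c : List ℕ) : vlc K B ⟨false, c, 0⟩ = 1 := by
  unfold vlc cw
  have h0 : code (fun _ _ : Fin K => (0 : ℤ)) = 0 := by unfold code; simp
  have h1 := cvl_eq hB (toF K N c) (fun _ _ : Fin K => (0 : ℤ)) (fun x y h => absurd rfl h)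
    (fun x y => by norm_num)
  rw [h0] at h1
  show H138.pw6 false * cvl B (toF K N c) 0 = 1
  rw [h1]
  have h2 : mon B (fun _ _ : Fin K => (0 : ℤ)) = fun _ => (1 : ℂ) := by
    funext ω; unfold mon; simp
  rw [h2]
  have h3 : av (toF K N c) (fun _ => (1 : ℂ)) = 1 := by
    rw [av_const]
  rw [h3]
  simp [H138.pw6]

/-- all chunks. -/
theorem chunks_rep {W : ℕ} {val : ℕ → ℝ} (ch : List (List ℕ))
    (h : ∀ l ∈ ch, ∀ R ∈ l.map rowRL, stV val R.2.2 = 0) :
    ∃ p q, NRep W val (sumF (fun l => rlP W (l.map rowRL)) ch)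
        (sumF (fun l => rlM (l.map rowRL)) ch) p ∧
      NRep W val (sumF (fun l => rlQ W (l.map rowRL)) ch)
        (sumF (fun l => rlM (l.map rowRL)) ch) q ∧ p - q = 0 := by
  induction ch with
  | nil => exact ⟨0, 0, NRep.zero, NRep.zero, by simp⟩
  | cons l ch ih =>
    obtain ⟨p, q, hp, hq, hpq⟩ := ih fun l' hl' => h l' (by simp [hl'])
    obtain ⟨p1, q1, hp1, hq1, hpq1⟩ := rl_rep (W := W) (val := val) (l.map rowRL) (h l (by simp))
    exact ⟨p1 + p, q1 + q, hp1.add hp, hq1.add hq, by linear_combination hpq + hpq1⟩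

/-- the last check. -/
def finCk (W V n nk : ℕ) (fl : List FD) (es : List BE) (ids : ℕ → ℕ → ℕ) (ch : List (List ℕ))
    (nc v D : ℕ) : Bool :=
  Nat.blt (Nat.mul (Nat.mul (2 ^ v) nc) 5) (Nat.mul 2 D) &&
  force (Nat.add D (Nat.add (GP W V n nk fl es ids) (sumF (fun l => rlP W (l.map rowRL)) ch)))
    fun P => force (Nat.add (GQ W V n nk fl es ids) (sumF (fun l => rlQ W (l.map rowRL)) ch))
    fun Q => force (Nat.add (GM n nk fl es) (sumF (fun l => rlM (l.map rowRL)) ch))
    fun M => resCk nc W v P Q (Nat.add D M) M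

theorem final {B : Fin 7 → M6} (hB : IsMUBs B) (hK : K = L + (r + r)) {n nk : ℕ} [NeZero n]
    {lab : List ℕ} (hlab : lab.length = L) (hlN : allLt 7 lab = true) {gs : List GD}
    {nu : List (List ℕ)} {inv : List ℕ} (hg : gtabCk 7 L n lab gs nu = true)
    (hi : invCk 7 L n gs inv = true) {fl : List FD} {bs : List BD}
    (hb : ∀ b ∈ bs, b.Ok n nk nu inv) {cls : ℕ → Cl} {c0 : List ℕ}
    (h0 : cls 0 = ⟨false, c0, 0⟩) {idt : List (List ℕ)}
    (hv : ∀ y < nk, ∀ x ≤ y, ∀ j < n, vJ lab r B L gs fl x y j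
      = (mlt fl x y : ℝ) * vlc K B (cls (dgt 16 (nth (nthL idt y) x) j)))
    {W V : ℕ} {es : List BE} (he : esCk V n bs es = true) (hbn : bndCk V nk es = true)
    {ch : List (List ℕ)} (hch : ∀ l ∈ ch, ∀ R ∈ l.map rowRL,
      stV (fun i => vlc K B (cls i)) R.2.2 = 0) {nc v D : ℕ}
    (hf : finCk W V n nk fl es (fun x y => nth (nthL idt y) x) ch nc v D = true) : False := by
  have hS := total_ge (r := r) hB hlab hlN hg hi fl bs hb
  obtain ⟨p, q, hp, hq, hpq⟩ := gram_rep (W := W) (ids := fun x y => nth (nthL idt y) x)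
    (val := fun i => vlc K B (cls i)) he hbn hv
  obtain ⟨p', q', hp', hq', hpq'⟩ := chunks_rep (W := W) ch hch
  unfold finCk at hf
  simp only [force_eq, Bool.and_eq_true, Nat.blt_eq] at hf
  obtain ⟨h1, h2⟩ := hf
  have hD : NRep W (fun i => vlc K B (cls i)) D D (D * 1) := by
    have := NRep.single (W := W) (val := fun i => vlc K B (cls i)) D 0
    rw [mul_zero, Nat.shiftLeft_zero] at this
    rw [h0, vlc_zero hB] at this
    exact this
  have hP := hD.add (hp.add hp')
  have hQ := hq.add hq'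
  have h3 := resCk_spec (β := 5 / 2) (fun i => abs_vlc_le hB (cls i)) hP hQ h2
  rw [hpq] at hS
  have h4 := (le_abs_self _).trans h3
  have h5 : (2 : ℝ) ^ v * nc * 5 < 2 * D := by exact_mod_cast h1
  linarith

end Vale.Agent.P355.H41.F7
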