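import Vale.Agent.P355.H41.F7.Code

/-! Executable recognition of words. All data are lists of natural numbers and integers. -/

namespace Vale.Agent.P355.H41.F7

open Finset Matrix Vale.Agent.P355
open Vale.Agent.P355.H138 (s6 s6_sq s6_ne star_s6 r6 pw6)

set_option linter.unusedSectionVars false

variable {N K : ℕ} [NeZero N] [NeZero K] {B : Fin N → M6}

/-- a word: colours of the vertices, brackets, edges with exponents. -/
structure Wd where
  c : List ℕ
  L : List (ℕ × ℕ)
  E : List (ℕ × ℕ × ℤ)

/-- a placement: positions of the vertices, permutation of the colours. -/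
structure Pl where
  pi : List ℕ
  tau : List ℕ

/-- a class: parity, colours, code. -/
structure Cl where
  b : Bool
  c : List ℕ
  k : ℤ

/-- function of a list. -/
def toF (n m : ℕ) [NeZero m] (l : List ℕ) : Fin n → Fin m := fun x => Fin.ofNat m (l.getD x 0)

/-- all entries are smaller than `n`. -/
def allLt (n : ℕ) (l : List ℕ) : Bool := l.all fun x => Nat.blt x n

/-- all brackets and edges are between the first `K` vertices. -/
def Wd.ok (N K : ℕ) (w : Wd) : Bool :=
  Nat.beq w.c.length K && allLt N w.c && (w.L.all fun u => Nat.blt u.1 K && Nat.blt u.2 K) &&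
    (w.E.all fun e => Nat.blt e.1 K && Nat.blt e.2.1 K)

/-- no repeated entry. -/
def nodup : List ℕ → Bool
  | [] => true
  | a :: l => (l.all fun b => !Nat.beq a b) && nodup l

/-- valid placement. -/
def Pl.ok (N K : ℕ) (p : Pl) : Bool :=
  Nat.beq p.pi.length K && allLt K p.pi && nodup p.pi &&
    Nat.beq p.tau.length N && allLt N p.tau && nodup p.tau

/-- merging on lists. -/
def rdl (f : List ℕ) : List (ℕ × ℕ) → ℕ × List ℕ
  | [] => (0, f)
  | (x, z) :: S =>
    if Nat.beq (f.getD x 0) (f.getD z 0) then rdl f S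
    else ((rdl (f.map fun v => if Nat.beq v (f.getD z 0) then f.getD x 0 else v) S).1 + 1,
      (rdl (f.map fun v => if Nat.beq v (f.getD z 0) then f.getD x 0 else v) S).2)

/-- code of an edge list. -/
def codeN (p : List ℕ) (E : List (ℕ × ℕ × ℤ)) : ℤ :=
  (E.map fun e => e.2.2 * wt (p.getD e.1 0) (p.getD e.2.1 0)).sum

/-- same-colour brackets. -/
def Wd.S (w : Wd) : List (ℕ × ℕ) := w.L.filter fun u => Nat.beq (w.c.getD u.1 0) (w.c.getD u.2 0)

/-- the edges after merging. -/
def Wd.E' (w : Wd) : List (ℕ × ℕ × ℤ) :=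
  ((w.L.filter fun u => !Nat.beq (w.c.getD u.1 0) (w.c.getD u.2 0)).map fun u => (u.1, u.2, (1 : ℤ)))
    ++ w.E

/-- the check of a word against a class, the vertices being placed by `p` (= placement after
merging). -/
def wck (w : Wd) (p : List ℕ) (tau : List ℕ) (cl : Cl) : Bool :=
  (w.E'.all fun e => !Nat.beq (w.c.getD e.1 0) (w.c.getD e.2.1 0) &&
    Nat.beq (cl.c.getD (p.getD e.1 0) 0) (tau.getD (w.c.getD e.1 0) 0) &&
    Nat.beq (cl.c.getD (p.getD e.2.1 0) 0) (tau.getD (w.c.getD e.2.1 0) 0)) &&
  decide (absE w.E' ≤ 31) &&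
  (decide (codeN p w.E' = cl.k) || decide (codeN p w.E' = -cl.k))

/-- complete check; returns the number of same-colour brackets and the number of merges. -/
def wchk (K : ℕ) (w : Wd) (pl : Pl) (cl : Cl) : Option (ℕ × ℕ) :=
  let r := rdl (List.range K) w.S
  if wck w (r.2.map fun v => pl.pi.getD v 0) pl.tau cl then some (w.S.length, r.1) else none

/-- semantics of a word. -/
noncomputable def bw (K : ℕ) [NeZero K] (B : Fin N → M6) (w : Wd) : ℝ :=
  (Br B (toF K N w.c) (w.L.map fun u => (Fin.ofNat K u.1, Fin.ofNat K u.2))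
    (w.E.map fun e => (Fin.ofNat K e.1, Fin.ofNat K e.2.1, e.2.2))).re

/-- value of a class. -/
noncomputable def cw (K : ℕ) [NeZero K] (B : Fin N → M6) (cl : Cl) : ℝ :=
  cvl B (toF K N cl.c) cl.k

theorem getD_lt (l : List ℕ) (i : ℕ) (h : i < l.length) : l.getD i 0 = l[i] := by
  simp [List.getD_eq_getElem?_getD, h]

theorem beq_f (a b : ℕ) : Nat.beq a b = false ↔ a ≠ b := by
  rw [ne_eq, ← Nat.beq_eq, Bool.not_eq_true]

theorem nodup_spec {l : List ℕ} (h : nodup l = true) : l.Nodup := by
  induction l with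
  | nil => simp
  | cons a l ih =>
    simp only [nodup, Bool.and_eq_true, List.all_eq_true, Bool.not_eq_true', beq_f]
      at h
    rw [List.nodup_cons]
    refine ⟨fun ha => ?_, ih h.2⟩
    exact h.1 a ha rfl

theorem toF_inj {n m : ℕ} [NeZero m] {l : List ℕ} (hl : l.length = n) (hm : allLt m l = true)
    (hd : nodup l = true) : Function.Injective (toF n m l) := by
  intro x y hxy
  have hx : (x : ℕ) < l.length := hl ▸ x.2
  have hy : (y : ℕ) < l.length := hl ▸ y.2
  simp only [toF, getD_lt _ _ hx, getD_lt _ _ hy] at hxy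
  simp only [allLt, List.all_eq_true, Nat.blt_eq] at hm
  have h1 := hm _ (List.getElem_mem hx)
  have h2 := hm _ (List.getElem_mem hy)
  have h3 := congrArg Fin.val hxy
  simp only [Fin.val_ofNat, Nat.mod_eq_of_lt h1, Nat.mod_eq_of_lt h2] at h3
  exact Fin.ext ((List.Nodup.getElem_inj_iff (nodup_spec hd)).1 h3)

theorem val_toF {n m : ℕ} [NeZero m] {l : List ℕ} (hl : l.length = n) (hm : allLt m l = true)
    (x : Fin n) : (toF n m l x : ℕ) = l.getD x 0 := by
  have hx : (x : ℕ) < l.length := hl ▸ x.2
  simp only [allLt, List.all_eq_true, Nat.blt_eq] at hm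
  have h1 := hm _ (List.getElem_mem hx)
  simp only [toF, Fin.val_ofNat, getD_lt _ _ hx, Nat.mod_eq_of_lt h1]

theorem rdl_len (S : List (ℕ × ℕ)) : ∀ f : List ℕ, (rdl f S).2.length = f.length := by
  induction S with
  | nil => intro f; rfl
  | cons u S ih =>
    obtain ⟨x, z⟩ := u
    intro f
    simp only [rdl]
    split_ifs
    · exact ih f
    · simp only [ih, List.length_map]

theorem rdl_lt (S : List (ℕ × ℕ)) (hS : ∀ u ∈ S, u.1 < K ∧ u.2 < K) : ∀ f : List ℕ,
    f.length = K → allLt K f = true → allLt K (rdl f S).2 = true := by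
  induction S with
  | nil => intro f _ h; exact h
  | cons u S ih =>
    obtain ⟨x, z⟩ := u
    intro f hl h
    have hS' : ∀ u ∈ S, u.1 < K ∧ u.2 < K := fun u hu => hS u (by simp [hu])
    simp only [rdl]
    split_ifs
    · exact ih hS' f hl h
    · refine ih hS' _ (by simpa using hl) ?_
      simp only [allLt, List.all_eq_true, List.mem_map, Nat.blt_eq] at h ⊢
      rintro _ ⟨v, hv, rfl⟩
      split_ifs
      · have hx : x < f.length := by rw [hl]; exact (hS (x, z) (by simp)).1
        rw [getD_lt _ _ hx]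
        exact h _ (List.getElem_mem hx)
      · exact h v hv

theorem rdl_eq (S : List (ℕ × ℕ)) (hS : ∀ u ∈ S, u.1 < K ∧ u.2 < K) : ∀ f : List ℕ,
    f.length = K → allLt K f = true →
    (rdl f S).1 = (rdf (toF K K f) (S.map fun u => (Fin.ofNat K u.1, Fin.ofNat K u.2))).1 ∧
    toF K K (rdl f S).2 = (rdf (toF K K f) (S.map fun u => (Fin.ofNat K u.1, Fin.ofNat K u.2))).2 := by
  induction S with
  | nil => intro f _ _; exact ⟨rfl, rfl⟩
  | cons u S ih =>
    obtain ⟨x, z⟩ := u
    intro f hl h
    have hS' : ∀ u ∈ S, u.1 < K ∧ u.2 < K := fun u hu => hS u (by simp [hu])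
    have hx : x < K := (hS (x, z) (by simp)).1
    have hz : z < K := (hS (x, z) (by simp)).2
    have hxv : ((Fin.ofNat K x : Fin K) : ℕ) = x := by
      simp [Nat.mod_eq_of_lt hx]
    have hzv : ((Fin.ofNat K z : Fin K) : ℕ) = z := by
      simp [Nat.mod_eq_of_lt hz]
    have e1 : (toF K K f (Fin.ofNat K x) : ℕ) = f.getD x 0 := by rw [val_toF hl h, hxv]
    have e2 : (toF K K f (Fin.ofNat K z) : ℕ) = f.getD z 0 := by rw [val_toF hl h, hzv]
    have e3 : toF K K f (Fin.ofNat K x) = toF K K f (Fin.ofNat K z) ↔ f.getD x 0 = f.getD z 0 := by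
      rw [Fin.ext_iff, e1, e2]
    simp only [List.map_cons, rdl, rdf]
    by_cases hc : f.getD x 0 = f.getD z 0
    · rw [if_pos (by rw [Nat.beq_eq]; exact hc), if_pos (e3.2 hc)]
      exact ih hS' f hl h
    · rw [if_neg (by rw [Nat.beq_eq]; exact hc), if_neg (fun h' => hc (e3.1 h'))]
      set g : List ℕ := f.map fun v => if Nat.beq v (f.getD z 0) then f.getD x 0 else v with hg
      have hgl : g.length = K := by rw [hg, List.length_map, hl]
      have hglt : allLt K g = true := by
        simp only [allLt, List.all_eq_true, Nat.blt_eq] at h ⊢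
        rw [hg]
        simp only [List.mem_map]
        rintro _ ⟨v, hv, rfl⟩
        split_ifs
        · have hx' : x < f.length := by rw [hl]; exact hx
          rw [getD_lt _ _ hx']
          exact h _ (List.getElem_mem hx')
        · exact h v hv
      have hgF : toF K K g = fun v => ren (toF K K f (Fin.ofNat K x)) (toF K K f (Fin.ofNat K z))
          (toF K K f v) := by
        funext v
        apply Fin.ext
        rw [val_toF hgl hglt]
        have hv : (v : ℕ) < g.length := by rw [hgl]; exact v.2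
        have hv' : (v : ℕ) < f.length := by rw [hl]; exact v.2
        rw [getD_lt _ _ hv]
        simp only [hg, List.getElem_map]
        have e4 : (toF K K f v : ℕ) = f[(v : ℕ)] := by
          rw [val_toF hl h, getD_lt _ _ hv']
        unfold ren
        by_cases h4 : toF K K f v = toF K K f (Fin.ofNat K z)
        · have h5 : f[(v : ℕ)] = f.getD z 0 := by rw [← e4, h4, e2]
          rw [if_pos h4, if_pos (by rw [Nat.beq_eq]; exact h5), e1]
        · have h5 : ¬ f[(v : ℕ)] = f.getD z 0 := by
            intro h6; exact h4 (Fin.ext (by rw [e4, e2]; exact h6))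
          rw [if_neg h4, if_neg (by rw [Nat.beq_eq]; exact h5), e4]
      have := ih hS' g hgl hglt
      rw [hgF] at this
      exact ⟨by rw [this.1], this.2⟩

theorem pb_filter {V : Type} [Fintype V] [DecidableEq V] (L : List (V × V)) (q : V × V → Bool)
    (ω : V → Vt N) : pb B L ω = pb B (L.filter q) ω * pb B (L.filter fun u => !q u) ω := by
  induction L with
  | nil => simp
  | cons u L ih =>
    rw [pb_cons, ih]
    by_cases h : q u = true
    · rw [List.filter_cons_of_pos h, List.filter_cons_of_neg (by simp [h]), pb_cons]; ring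
    · rw [List.filter_cons_of_neg h, List.filter_cons_of_pos (by simpa using h), pb_cons]; ring

theorem ofNat_val {x : ℕ} (hx : x < K) : ((Fin.ofNat K x : Fin K) : ℕ) = x := by
  simp [Nat.mod_eq_of_lt hx]

theorem r6_c : (s6 : ℂ) = ((r6 : ℝ) : ℂ) := rfl

/-- **Soundness of the word check.** -/
theorem wchk_sound (hB : IsMUBs B) (w : Wd) (pl : Pl) (cl : Cl) (hw : w.ok N K = true)
    (hp : pl.ok N K = true) (e m : ℕ) (h : wchk K w pl cl = some (e, m)) :
    bw K B w = r6 ^ e * ((1 / 6) ^ m * cw K B cl) := by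
  simp only [Wd.ok, Bool.and_eq_true, Nat.beq_eq, List.all_eq_true, Nat.blt_eq] at hw
  obtain ⟨⟨⟨hcl, hcN⟩, hL⟩, hE⟩ := hw
  simp only [Pl.ok, Bool.and_eq_true, Nat.beq_eq] at hp
  obtain ⟨⟨⟨⟨⟨hpl, hpK⟩, hpd⟩, htl⟩, htN⟩, htd⟩ := hp
  simp only [wchk] at h
  split_ifs at h with hc
  simp only [Option.some.injEq, Prod.mk.injEq] at h
  obtain ⟨he, hm⟩ := h
  set c : Fin K → Fin N := toF K N w.c with hcd
  set V2 : ℕ × ℕ → Fin K × Fin K := fun u => (Fin.ofNat K u.1, Fin.ofNat K u.2) with hV2
  set q : ℕ × ℕ → Bool := fun u => Nat.beq (w.c.getD u.1 0) (w.c.getD u.2 0) with hq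
  -- colours
  have hcv : ∀ x : ℕ, x < K → ((c (Fin.ofNat K x) : Fin N) : ℕ) = w.c.getD x 0 := by
    intro x hx
    rw [hcd, val_toF hcl hcN, ofNat_val hx]
  have hS : ∀ u ∈ w.S.map V2, c u.1 = c u.2 := by
    intro u hu
    simp only [Wd.S, List.mem_map, List.mem_filter, Nat.beq_eq] at hu
    obtain ⟨u', ⟨hu1, hu2⟩, rfl⟩ := hu
    have := hL u' hu1
    apply Fin.ext
    simp only [hV2]
    rw [hcv _ this.1, hcv _ this.2]
    exact hu2
  have hSK : ∀ u ∈ w.S, u.1 < K ∧ u.2 < K := fun u hu => hL u (List.mem_of_mem_filter hu)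
  -- the brackets split
  have hsplit : ∀ ω : Fin K → Vt N, pb B (w.L.map V2) ω = pb B (w.S.map V2) ω *
      pb B ((w.L.filter fun u => !q u).map V2) ω := by
    intro ω
    have h1 : ∀ l : List (ℕ × ℕ), pb B (l.map V2) ω
        = (l.map fun u => hh B (ω (V2 u).1) (ω (V2 u).2)).prod := by
      intro l; unfold pb; rw [List.map_map]; rfl
    rw [h1, h1, h1]
    have h2 : w.S = w.L.filter q := rfl
    rw [h2]
    generalize w.L = L
    induction L with
    | nil => simp
    | cons u L ih =>
      by_cases hu : q u = true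
      · rw [List.filter_cons_of_pos hu, List.filter_cons_of_neg (by simp [hu]), List.map_cons,
          List.prod_cons, List.map_cons, List.prod_cons, ih]; ring
      · rw [List.filter_cons_of_neg hu, List.filter_cons_of_pos (by simpa using hu), List.map_cons,
          List.prod_cons, List.map_cons, List.prod_cons, ih]; ring
  have hbr := Br_eq (c := c) hB (w.L.map V2)
    (w.E.map fun e => (Fin.ofNat K e.1, Fin.ofNat K e.2.1, e.2.2)) (w.S.map V2)
    ((w.L.filter fun u => !q u).map V2) hsplit hS
  -- the merging map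
  have hrl : (List.range K).length = K := List.length_range
  have hrK : allLt K (List.range K) = true := by
    simp only [allLt, List.all_eq_true, Nat.blt_eq]
    intro x hx; exact List.mem_range.1 hx
  have hid : toF K K (List.range K) = id := by
    funext x
    apply Fin.ext
    rw [val_toF hrl hrK, getD_lt _ _ (by rw [hrl]; exact x.2)]
    simp
  have hr := rdl_eq (K := K) w.S hSK (List.range K) hrl hrK
  rw [hid] at hr
  set r := rdl (List.range K) w.S with hrd
  have hr2l : r.2.length = K := by rw [hrd, rdl_len, hrl]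
  have hr2K : allLt K r.2 = true := rdl_lt w.S hSK _ hrl hrK
  set f : Fin K → Fin K := toF K K r.2 with hfd
  have hfc : ∀ x, c (f x) = c x := by
    intro x
    rw [hr.2]
    exact rdf_col (w.S.map V2) id (fun _ => rfl) hS x
  -- the edges
  set E2 : List (Fin K × Fin K × ℤ) := toE ((w.L.filter fun u => !q u).map V2) ++
    (w.E.map fun e => (Fin.ofNat K e.1, Fin.ofNat K e.2.1, e.2.2)) with hE2
  have hE2' : E2 = w.E'.map fun e => (Fin.ofNat K e.1, Fin.ofNat K e.2.1, e.2.2) := by
    rw [hE2]
    unfold Wd.E' toE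
    rw [List.map_append, List.map_map, List.map_map]
    rfl
  have hEK : ∀ e ∈ w.E', e.1 < K ∧ e.2.1 < K := by
    intro e he
    unfold Wd.E' at he
    rw [List.mem_append] at he
    rcases he with he | he
    · simp only [List.mem_map, List.mem_filter] at he
      obtain ⟨u, ⟨hu, _⟩, rfl⟩ := he
      exact hL u hu
    · exact hE e he
  simp only [wck, Bool.and_eq_true, List.all_eq_true, Bool.not_eq_true', beq_f,
    Nat.beq_eq, decide_eq_true_eq, Bool.or_eq_true] at hc
  obtain ⟨⟨hc1, hc2⟩, hc3⟩ := hc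
  set π : Fin K → Fin K := toF K K pl.pi with hπd
  have hπ : Function.Injective π := toF_inj hpl hpK hpd
  have hτi : Function.Injective (toF N N pl.tau) := toF_inj htl htN htd
  set τ : Equiv.Perm (Fin N) := Equiv.ofBijective _ (Finite.injective_iff_bijective.1 hτi) with hτd
  have hpv : ∀ x : ℕ, x < K → ((π (f (Fin.ofNat K x)) : Fin K) : ℕ)
      = (r.2.map fun v => pl.pi.getD v 0).getD x 0 := by
    intro x hx
    have hx2 : x < r.2.length := by rw [hr2l]; exact hx
    rw [hπd, val_toF hpl hpK, hfd, val_toF hr2l hr2K, ofNat_val hx,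
      getD_lt (r.2.map _) _ (by rw [List.length_map]; exact hx2),
      List.getElem_map, getD_lt r.2 _ hx2]
  have hτv : ∀ x : Fin N, ((τ x : Fin N) : ℕ) = pl.tau.getD x 0 := by
    intro x
    show ((toF N N pl.tau x : Fin N) : ℕ) = _
    rw [val_toF htl htN]
  have hcl' : ∀ y : Fin K, ∀ x : Fin N, cl.c.getD y 0 = pl.tau.getD x 0 →
      toF K N cl.c y = τ x := by
    intro y x hxy
    apply Fin.ext
    rw [hτv]
    have h1 := (τ x).2
    rw [hτv] at h1
    simp only [toF, Fin.val_ofNat, hxy]
    exact Nat.mod_eq_of_lt h1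
  have hterm := term_eq (B := B) hB c (toF K N cl.c) τ f π hπ E2 hfc ?_ ?_ ?_ cl.k ?_
  · unfold bw cw
    rw [hbr, ← hterm]
    have e1 : (w.S.map V2).length = e := by rw [List.length_map]; exact he
    have e2 : (rdf id (w.S.map V2)).1 = m := by rw [← hr.1]; exact hm
    rw [e1, e2, ← hr.2, r6_c]
    have e3 : ((r6 : ℝ) : ℂ) ^ e * ((1 / 6) ^ m * av c (fun ω => pe B E2 (ω ∘ f)))
        = ((r6 ^ e * (1 / 6) ^ m : ℝ) : ℂ) * av c (fun ω => pe B E2 (ω ∘ f)) := by
      push_cast; ring
    rw [e3, Complex.re_ofReal_mul]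
    ring
  · -- different colours
    intro e' he'
    rw [hE2'] at he'
    simp only [List.mem_map] at he'
    obtain ⟨e, he, rfl⟩ := he'
    intro h
    have h1 := congrArg Fin.val h
    simp only at h1
    rw [hcv _ (hEK e he).1, hcv _ (hEK e he).2] at h1
    exact (hc1 e he).1.1 h1
  · -- colours of the class
    intro e' he'
    rw [hE2'] at he'
    simp only [List.mem_map] at he'
    obtain ⟨e, he, rfl⟩ := he'
    have h1 := hc1 e he
    have hk := hEK e he
    simp only
    refine ⟨hcl' _ _ ?_, hcl' _ _ ?_⟩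
    · rw [hpv _ hk.1, hcv _ hk.1]; exact h1.1.2
    · rw [hpv _ hk.2, hcv _ hk.2]; exact h1.2
  · have : absE E2 = absE w.E' := by
      rw [hE2']; unfold absE; rw [List.map_map]; rfl
    rw [this]; exact hc2
  · have : codeE (fun x => (π (f x) : ℕ)) E2 = codeN (r.2.map fun v => pl.pi.getD v 0) w.E' := by
      rw [hE2']
      unfold codeE codeN
      rw [List.map_map]
      congr 1
      refine List.map_congr_left fun e he => ?_
      have hk := hEK e he
      simp only [Function.comp]
      rw [hpv _ hk.1, hpv _ hk.2]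
    rw [this]; exact hc3

end Vale.Agent.P355.H41.F7
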