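import Vale.Agent.P355.H41.F7.Edge

/-! Codes of flow matrices and class values. -/

namespace Vale.Agent.P355.H41.F7

open Finset Matrix Vale.Agent.P355
open Vale.Agent.P355.H138 (s6 s6_sq s6_ne star_s6 digits_zero)

set_option linter.unusedSectionVars false

variable {N K : ℕ} {B : Fin N → M6}

/-- triangular numbers `b (b - 1) / 2`. -/
def tri (b : ℕ) : ℕ := b * (b - 1) / 2

theorem tri_succ (b : ℕ) : tri (b + 1) = tri b + b := by
  unfold tri
  rcases b with _ | b
  · rfl
  · have h : (b + 1 + 1) * (b + 1 + 1 - 1) = (b + 1) * (b + 1 - 1) + (b + 1) * 2 := by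
      simp only [Nat.add_sub_cancel]; ring
    rw [h, Nat.add_mul_div_right _ _ (by norm_num)]

theorem tri_mono {b b' : ℕ} (h : b ≤ b') : tri b ≤ tri b' := by
  induction h with
  | refl => exact le_rfl
  | step _ ih => rw [tri_succ]; omega

theorem tri_inj {a b a' b' : ℕ} (h : a < b) (h' : a' < b') (e : tri b + a = tri b' + a') :
    a = a' ∧ b = b' := by
  have key : ∀ {a b a' b' : ℕ}, a < b → a' < b' → tri b + a = tri b' + a' → ¬ b < b' := by
    intro a b a' b' h h' e hb
    have h1 := tri_mono (show b + 1 ≤ b' from hb)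
    rw [tri_succ] at h1
    omega
  have h1 := key h h' e
  have h2 := key h' h e.symm
  have h3 : b = b' := by omega
  subst h3
  exact ⟨by omega, rfl⟩

/-- antisymmetric weight of an ordered pair of positions. -/
def wt (a b : ℕ) : ℤ := if a < b then 64 ^ (tri b + a) else if b < a then - 64 ^ (tri a + b) else 0

theorem wt_neg (a b : ℕ) : wt b a = - wt a b := by
  unfold wt
  rcases lt_trichotomy a b with h | h | h
  · simp [h, not_lt.2 h.le]
  · subst h; simp
  · simp [h, not_lt.2 h.le]

/-- code of a flow matrix. -/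
def code (n : Fin K → Fin K → ℤ) : ℤ := ∑ x, ∑ y, n x y * wt x y

/-- the entries of the antisymmetric part are small. -/
def Sm (n : Fin K → Fin K → ℤ) : Prop := ∀ x y, |n x y - n y x| ≤ 31

theorem code_upper (n : Fin K → Fin K → ℤ) :
    code n = ∑ x : Fin K, ∑ y : Fin K, if x < y then (n x y - n y x) * 64 ^ (tri y + x) else 0 := by
  have h1 : ∀ x y : Fin K, n x y * wt x y
      = (if x < y then n x y * 64 ^ (tri y + x) else 0)
        - (if y < x then n x y * 64 ^ (tri x + y) else 0) := by
    intro x y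
    unfold wt
    rcases lt_trichotomy x y with h | h | h
    · have h' : (x : ℕ) < y := h
      simp [h, h', not_lt.2 h.le]
    · subst h; simp
    · have h' : (y : ℕ) < x := h
      simp [h, h', not_lt.2 h.le, not_lt.2 h'.le]
  unfold code
  simp only [h1, Finset.sum_sub_distrib]
  rw [Finset.sum_comm (f := fun x y : Fin K => if y < x then n x y * (64 : ℤ) ^ (tri x + y) else 0)]
  rw [← Finset.sum_sub_distrib]
  refine Finset.sum_congr rfl fun x _ => ?_
  rw [← Finset.sum_sub_distrib]
  refine Finset.sum_congr rfl fun y _ => ?_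
  split_ifs <;> ring

theorem code_inj (n m : Fin K → Fin K → ℤ) (hn : Sm n) (hm : Sm m) (h : code n = code m) :
    ∀ x y, n x y - n y x = m x y - m y x := by
  classical
  rw [code_upper, code_upper] at h
  let e : Fin K × Fin K → ℕ := fun c => tri c.2 + c.1
  let P : Finset (Fin K × Fin K) := Finset.univ.filter fun c => c.1 < c.2
  let d : Fin K × Fin K → ℤ := fun c => (n c.1 c.2 - n c.2 c.1) - (m c.1 c.2 - m c.2 c.1)
  let g : ℕ → ℤ := fun i => ∑ c ∈ P, if e c = i then d c else 0
  have he : ∀ c ∈ P, ∀ c' ∈ P, e c = e c' → c = c' := by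
    intro c hc c' hc' hcc
    have h1 : c.1 < c.2 := by simpa [P] using hc
    have h2 : c'.1 < c'.2 := by simpa [P] using hc'
    obtain ⟨h3, h4⟩ := tri_inj (show (c.1 : ℕ) < c.2 from h1) (show (c'.1 : ℕ) < c'.2 from h2) hcc
    exact Prod.ext (Fin.ext h3) (Fin.ext h4)
  have hg : ∀ c ∈ P, g (e c) = d c := by
    intro c hc
    simp only [g]
    rw [Finset.sum_eq_single c]
    · simp
    · intro c' hc' hne
      rw [if_neg fun h => hne (he c' hc' c hc h)]
    · intro h'; exact absurd hc h'
  have hlt : ∀ c ∈ P, e c < tri (K + 1) := by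
    intro c hc
    have h1 : c.1 < c.2 := by simpa [P] using hc
    have h1' : (c.1 : ℕ) < c.2 := h1
    have h2 := tri_mono (show (c.2 : ℕ) + 1 ≤ K + 1 by have := c.2.2; omega)
    rw [tri_succ (c.2 : ℕ)] at h2
    simp only [e]
    omega
  have hb : ∀ i < tri (K + 1), |g i| < 64 := by
    intro i _
    by_cases hi : ∃ c ∈ P, e c = i
    · obtain ⟨c, hc, rfl⟩ := hi
      rw [hg c hc]
      have h1 := abs_le.1 (hn c.1 c.2)
      have h2 := abs_le.1 (hm c.1 c.2)
      simp only [d]
      rw [abs_lt]
      constructor <;> linarith [h1.1, h1.2, h2.1, h2.2]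
    · have : g i = 0 := Finset.sum_eq_zero fun c hc => if_neg fun h => hi ⟨c, hc, h⟩
      rw [this]; simp
  have hs : ∑ i ∈ Finset.range (tri (K + 1)), g i * 64 ^ i = 0 := by
    have h1 : (∑ x : Fin K, ∑ y : Fin K, if x < y then (n x y - n y x) * (64 : ℤ) ^ (tri y + x) else 0)
        - (∑ x : Fin K, ∑ y : Fin K, if x < y then (m x y - m y x) * (64 : ℤ) ^ (tri y + x) else 0)
        = ∑ c ∈ P, d c * 64 ^ e c := by
      rw [← Finset.sum_sub_distrib, Finset.sum_filter, Fintype.sum_prod_type]
      refine Finset.sum_congr rfl fun x _ => ?_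
      rw [← Finset.sum_sub_distrib]
      refine Finset.sum_congr rfl fun y _ => ?_
      simp only [d, e]
      split_ifs <;> ring
    rw [h, sub_self] at h1
    rw [h1]
    simp only [g, Finset.sum_mul]
    rw [Finset.sum_comm]
    refine Finset.sum_congr rfl fun c hc => ?_
    rw [Finset.sum_eq_single (e c)]
    · simp
    · intro i _ hi
      rw [if_neg (Ne.symm hi), zero_mul]
    · intro hc'
      exact absurd (Finset.mem_range.2 (hlt c hc)) hc'
  have hz := digits_zero 64 _ g hb hs
  have key : ∀ x y : Fin K, x < y → n x y - n y x = m x y - m y x := by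
    intro x y hxy
    have hc : ((x, y) : Fin K × Fin K) ∈ P := by simpa [P] using hxy
    have := hz (e (x, y)) (hlt _ hc)
    rw [hg _ hc] at this
    simp only [d] at this
    linarith
  intro x y
  rcases lt_trichotomy x y with h | h | h
  · exact key x y h
  · subst h; simp
  · have := key y x h; linarith

/-- flows only between vertices of different colours. -/
def Okc {V : Type} (c : V → Fin N) (n : V → V → ℤ) : Prop := ∀ x y, n x y ≠ 0 → c x ≠ c y

theorem Okc.nz {V : Type} [Fintype V] {c : V → Fin N} {n : V → V → ℤ} (h : Okc c n)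
    (σ : Equiv.Perm (Fin N)) (φ : V → Fin 6) : Nz n (cf c σ φ) := by
  intro x y hxy h'
  exact h x y hxy (σ.injective h')

open Classical in
/-- value of a class given by its colours and its code (junk if there is no such class). -/
noncomputable def cvl (B : Fin N → M6) (c : Fin K → Fin N) (k : ℤ) : ℝ :=
  if h : ∃ n : Fin K → Fin K → ℤ, Okc c n ∧ Sm n ∧ code n = k then (av c (mon B h.choose)).re else 0

theorem cvl_eq (hB : IsMUBs B) (c : Fin K → Fin N) (n : Fin K → Fin K → ℤ) (h1 : Okc c n)
    (h2 : Sm n) : cvl B c (code n) = (av c (mon B n)).re := by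
  have h : ∃ m : Fin K → Fin K → ℤ, Okc c m ∧ Sm m ∧ code m = code n := ⟨n, h1, h2, rfl⟩
  unfold cvl
  rw [dif_pos h]
  obtain ⟨g1, g2, g3⟩ := h.choose_spec
  congr 1
  refine av_congr fun σ φ => ?_
  exact mon_antisymm hB _ _ _ (g1.nz σ φ) (h1.nz σ φ) (code_inj _ _ g2 h2 g3)

theorem abs_cvl_le (hB : IsMUBs B) (c : Fin K → Fin N) (k : ℤ) : |cvl B c k| ≤ 1 := by
  unfold cvl
  split_ifs with h
  · refine (Complex.abs_re_le_norm _).trans (norm_av_le fun σ φ => ?_)
    exact (norm_mon hB _ _ (h.choose_spec.1.nz σ φ)).le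
  · simp

theorem code_neg (n : Fin K → Fin K → ℤ) : code (fun x y => - n x y) = - code n := by
  unfold code; simp only [neg_mul, Finset.sum_neg_distrib]

theorem cvl_eq_neg (hB : IsMUBs B) (c : Fin K → Fin N) (n : Fin K → Fin K → ℤ) (h1 : Okc c n)
    (h2 : Sm n) : cvl B c (- code n) = (av c (mon B n)).re := by
  rw [← code_neg, cvl_eq hB c (fun x y => - n x y)]
  · have : av c (mon B fun x y => - n x y) = star (av c (mon B n)) := by
      rw [star_av]
      refine av_congr fun σ φ => ?_
      rw [star_mon hB _ _ (h1.nz σ φ)]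
    rw [this]; simp
  · intro x y hxy; exact h1 x y (fun h => hxy (by beta_reduce; rw [h]; rfl))
  · intro x y
    have := h2 x y
    rw [← abs_neg] at this
    rwa [show - n x y - - n y x = -(n x y - n y x) by ring]

/-! ### Codes of edge lists -/

/-- code of an edge list placed by `p`. -/
def codeE (p : Fin K → ℕ) (E : List (Fin K × Fin K × ℤ)) : ℤ :=
  (E.map fun e => e.2.2 * wt (p e.1) (p e.2.1)).sum

/-- total flow. -/
def absE {V : Type} (E : List (V × V × ℤ)) : ℤ := (E.map fun e => |e.2.2|).sum

theorem absE_nonneg {V : Type} (E : List (V × V × ℤ)) : 0 ≤ absE E := by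
  unfold absE
  refine List.sum_nonneg ?_
  intro t ht
  simp only [List.mem_map] at ht
  obtain ⟨e, _, rfl⟩ := ht
  exact abs_nonneg _

theorem push_EM_cons {V V' : Type} [Fintype V] [DecidableEq V] [DecidableEq V'] (f : V → V')
    (e : V × V × ℤ) (E : List (V × V × ℤ)) (p q : V') :
    push f (EM (e :: E)) p q = (if f e.1 = p ∧ f e.2.1 = q then e.2.2 else 0) + push f (EM E) p q := by
  have h1 : EM (e :: E) = fun x y => (if e.1 = x ∧ e.2.1 = y then e.2.2 else 0) + EM E x y := by
    funext x y
    unfold EM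
    simp
  unfold push
  rw [h1]
  have h2 : ∀ x y : V, (if f x = p ∧ f y = q then
      (if e.1 = x ∧ e.2.1 = y then e.2.2 else 0) + EM E x y else 0)
      = (if f x = p ∧ f y = q then (if e.1 = x ∧ e.2.1 = y then e.2.2 else 0) else 0)
        + if f x = p ∧ f y = q then EM E x y else 0 := by
    intro x y; split_ifs <;> simp
  simp only [h2, Finset.sum_add_distrib]
  congr 1
  rw [Finset.sum_eq_single e.1, Finset.sum_eq_single e.2.1]
  · simp
  · intro y _ hy
    rw [if_neg (show ¬ (e.1 = e.1 ∧ e.2.1 = y) from fun h => hy h.2.symm), ite_self]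
  · simp
  · intro x _ hx
    refine Finset.sum_eq_zero fun y _ => ?_
    rw [if_neg (show ¬ (e.1 = x ∧ e.2.1 = y) from fun h => hx h.1.symm), ite_self]
  · simp

theorem push_EM_nil {V V' : Type} [Fintype V] [DecidableEq V] [DecidableEq V'] (f : V → V')
    (p q : V') : push f (EM ([] : List (V × V × ℤ))) p q = 0 := by
  unfold push EM
  simp

theorem code_push (f : Fin K → Fin K) (E : List (Fin K × Fin K × ℤ)) :
    code (push f (EM E)) = codeE (fun x => f x) E := by
  induction E with
  | nil =>
    unfold code codeE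
    simp [push_EM_nil]
  | cons e E ih =>
    have h1 : codeE (fun x => (f x : ℕ)) (e :: E)
        = e.2.2 * wt (f e.1) (f e.2.1) + codeE (fun x => (f x : ℕ)) E := by
      unfold codeE; simp
    rw [h1, ← ih]
    unfold code
    simp only [push_EM_cons, add_mul, Finset.sum_add_distrib]
    congr 1
    rw [Finset.sum_eq_single (f e.1), Finset.sum_eq_single (f e.2.1)]
    · simp
    · intro y _ hy
      rw [if_neg (fun h => hy h.2.symm)]
      simp
    · simp
    · intro x _ hx
      refine Finset.sum_eq_zero fun y _ => ?_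
      rw [if_neg (fun h => hx h.1.symm)]
      simp
    · simp

theorem abs_push_le {V V' : Type} [Fintype V] [DecidableEq V] [DecidableEq V'] (f : V → V')
    (E : List (V × V × ℤ)) (p q : V') (hpq : p ≠ q) :
    |push f (EM E) p q| + |push f (EM E) q p| ≤ absE E := by
  induction E with
  | nil => simp [push_EM_nil, absE]
  | cons e E ih =>
    rw [push_EM_cons, push_EM_cons]
    have h1 : absE (e :: E) = |e.2.2| + absE E := by unfold absE; simp
    rw [h1]
    have h2 : |(if f e.1 = p ∧ f e.2.1 = q then e.2.2 else 0)|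
        + |(if f e.1 = q ∧ f e.2.1 = p then e.2.2 else 0)| ≤ |e.2.2| := by
      by_cases c1 : f e.1 = p ∧ f e.2.1 = q
      · have c2 : ¬ (f e.1 = q ∧ f e.2.1 = p) := fun h => hpq (c1.1.symm.trans h.1)
        rw [if_pos c1, if_neg c2]; simp
      · rw [if_neg c1]
        split_ifs <;> simp
    have h3 := abs_add_le (if f e.1 = p ∧ f e.2.1 = q then e.2.2 else 0) (push f (EM E) p q)
    have h4 := abs_add_le (if f e.1 = q ∧ f e.2.1 = p then e.2.2 else 0) (push f (EM E) q p)
    linarith

theorem push_EM_ne {V V' : Type} [Fintype V] [DecidableEq V] [DecidableEq V'] (f : V → V')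
    (E : List (V × V × ℤ)) (p q : V') (h : push f (EM E) p q ≠ 0) :
    ∃ e ∈ E, f e.1 = p ∧ f e.2.1 = q := by
  induction E with
  | nil => exact absurd (push_EM_nil f p q) h
  | cons e E ih =>
    rw [push_EM_cons] at h
    by_cases c1 : f e.1 = p ∧ f e.2.1 = q
    · exact ⟨e, by simp, c1⟩
    · rw [if_neg c1, zero_add] at h
      obtain ⟨e', he', h'⟩ := ih h
      exact ⟨e', by simp [he'], h'⟩

/-- **Recognition of a class.** -/
theorem term_eq (hB : IsMUBs B) (c c' : Fin K → Fin N) (τ : Equiv.Perm (Fin N))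
    (f π : Fin K → Fin K) (hπ : Function.Injective π) (E : List (Fin K × Fin K × ℤ))
    (hf : ∀ x, c (f x) = c x) (hE : ∀ e ∈ E, c e.1 ≠ c e.2.1)
    (hc : ∀ e ∈ E, c' (π (f e.1)) = τ (c e.1) ∧ c' (π (f e.2.1)) = τ (c e.2.1))
    (hs : absE E ≤ 31) (k : ℤ)
    (hk : codeE (fun x => π (f x)) E = k ∨ codeE (fun x => π (f x)) E = - k) :
    (av c (fun ω => pe B E (ω ∘ f))).re = cvl B c' k := by
  set n2 : Fin K → Fin K → ℤ := push (π ∘ f) (EM E) with hn2
  have hok : Okc c' n2 := by
    intro x y hxy
    obtain ⟨e, he, h1, h2⟩ := push_EM_ne (π ∘ f) E x y hxy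
    rw [← h1, ← h2]
    simp only [Function.comp]
    rw [(hc e he).1, (hc e he).2]
    exact fun h => hE e he (τ.injective h)
  have hsm : Sm n2 := by
    intro x y
    by_cases hxy : x = y
    · subst hxy; simp
    · have h1 := abs_push_le (π ∘ f) E x y hxy
      have h2 : |n2 x y - n2 y x| ≤ |n2 x y| + |n2 y x| := abs_sub _ _
      rw [← hn2] at h1
      linarith
  have hcode : code n2 = codeE (fun x => π (f x)) E := code_push (π ∘ f) E
  have hval : av c (fun ω => pe B E (ω ∘ f)) = av c' (mon B n2) := by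
    -- first: as a matrix
    have e1 : av c (fun ω => pe B E (ω ∘ f)) = av c (mon B (push f (EM E))) := by
      refine av_congr fun σ φ => ?_
      have hne : ∀ e ∈ E, ((cf c σ φ ∘ f) e.1).1 ≠ ((cf c σ φ ∘ f) e.2.1).1 := by
        intro e he h'
        simp only [Function.comp, cf, hf] at h'
        exact hE e he (σ.injective h')
      rw [mon_push hB f (EM E) _ (EM_nz hne), mon_EM hB E _ hne]
    have e2 : av c (mon B (push f (EM E))) = av (fun x => τ (c x)) (mon B (push f (EM E))) :=
      (av_perm τ _).symm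
    have e3 : av (fun x => τ (c x)) (mon B (push f (EM E)))
        = av (c' ∘ π) (mon B (push f (EM E))) := by
      refine av_agree _ _ (fun x => ∃ e ∈ E, f e.1 = x ∨ f e.2.1 = x) ?_ ?_
      · rintro x ⟨e, he, rfl | rfl⟩
        · simp only [Function.comp]
          rw [(hc e he).1, hf]
        · simp only [Function.comp]
          rw [(hc e he).2, hf]
      · intro ω ω' h
        unfold mon
        refine Finset.prod_congr rfl fun x _ => Finset.prod_congr rfl fun y _ => ?_
        by_cases h0 : push f (EM E) x y = 0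
        · rw [h0, zpow_zero, zpow_zero]
        · obtain ⟨e, he, h1, h2⟩ := push_EM_ne f E x y h0
          rw [h x ⟨e, he, Or.inl h1⟩, h y ⟨e, he, Or.inr h2⟩]
    have e4 : av (c' ∘ π) (mon B (push f (EM E))) = av c' (mon B n2) := by
      rw [← av_inj π hπ c' (mon B (push f (EM E)))]
      refine av_congr fun σ φ => ?_
      have hne : ∀ e ∈ E, ((cf c' σ φ ∘ (π ∘ f)) e.1).1 ≠ ((cf c' σ φ ∘ (π ∘ f)) e.2.1).1 := by
        intro e he h'
        simp only [Function.comp, cf] at h'
        rw [(hc e he).1, (hc e he).2] at h'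
        exact hE e he (τ.injective (σ.injective h'))
      have hne' : ∀ e ∈ E, (((cf c' σ φ ∘ π) ∘ f) e.1).1 ≠ (((cf c' σ φ ∘ π) ∘ f) e.2.1).1 := hne
      rw [mon_push hB (π ∘ f) (EM E) _ (EM_nz hne), mon_push hB f (EM E) _ (EM_nz hne')]
      rfl
    rw [e1, e2, e3, e4]
  rw [hval]
  rcases hk with hk | hk
  · rw [← hk, ← hcode]; exact (cvl_eq hB c' n2 hok hsm).symm
  · have hk' : k = - codeE (fun x => π (f x)) E := by rw [hk, neg_neg]
    rw [hk', ← hcode]; exact (cvl_eq_neg hB c' n2 hok hsm).symm

end Vale.Agent.P355.H41.F7
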