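import Vale.Agent.P355.H41.F7.Avg

/-! Lists of edges, merging brackets, the two contraction rules. -/

namespace Vale.Agent.P355.H41.F7

open Finset Matrix Vale.Agent.P355
open Vale.Agent.P355.H138 (s6 s6_sq s6_ne star_s6)

set_option linter.unusedSectionVars false

variable {N : ℕ} {B : Fin N → M6}
variable {V V' : Type} [Fintype V] [Fintype V'] [DecidableEq V] [DecidableEq V']

/-- product over a list of edges with exponents. -/
noncomputable def pe (B : Fin N → M6) (E : List (V × V × ℤ)) (ω : V → Vt N) : ℂ :=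
  (E.map fun e => hh B (ω e.1) (ω e.2.1) ^ e.2.2).prod

/-- product over a list of brackets. -/
noncomputable def pb (B : Fin N → M6) (L : List (V × V)) (ω : V → Vt N) : ℂ :=
  (L.map fun u => hh B (ω u.1) (ω u.2)).prod

@[simp] theorem pe_nil (ω : V → Vt N) : pe B [] ω = 1 := rfl
@[simp] theorem pb_nil (ω : V → Vt N) : pb B [] ω = 1 := rfl

theorem pe_cons (e : V × V × ℤ) (E : List (V × V × ℤ)) (ω : V → Vt N) :
    pe B (e :: E) ω = hh B (ω e.1) (ω e.2.1) ^ e.2.2 * pe B E ω := by
  unfold pe; simp

theorem pb_cons (u : V × V) (L : List (V × V)) (ω : V → Vt N) :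
    pb B (u :: L) ω = hh B (ω u.1) (ω u.2) * pb B L ω := by
  unfold pb; simp

theorem pe_append (E F : List (V × V × ℤ)) (ω : V → Vt N) :
    pe B (E ++ F) ω = pe B E ω * pe B F ω := by
  unfold pe; simp

theorem pb_append (E F : List (V × V)) (ω : V → Vt N) :
    pb B (E ++ F) ω = pb B E ω * pb B F ω := by
  unfold pb; simp

/-- brackets as edges. -/
def toE (L : List (V × V)) : List (V × V × ℤ) := L.map fun u => (u.1, u.2, 1)

theorem pe_toE (L : List (V × V)) (ω : V → Vt N) : pe B (toE L) ω = pb B L ω := by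
  unfold pe pb toE; simp [Function.comp_def]

/-- matrix of a list of edges. -/
def EM (E : List (V × V × ℤ)) : V → V → ℤ := fun x y =>
  (E.map fun e => if e.1 = x ∧ e.2.1 = y then e.2.2 else 0).sum

theorem mon_single (x0 y0 : V) (k : ℤ) (ω : V → Vt N) :
    mon B (fun x y => if x0 = x ∧ y0 = y then k else 0) ω = hh B (ω x0) (ω y0) ^ k := by
  unfold mon
  rw [Fintype.prod_eq_single x0, Fintype.prod_eq_single y0]
  · simp
  · intro y hy
    beta_reduce
    rw [if_neg fun h => hy h.2.symm, zpow_zero]
  · intro x hx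
    refine Finset.prod_eq_one fun y _ => ?_
    beta_reduce
    rw [if_neg fun h => hx h.1.symm, zpow_zero]

theorem EM_nz {E : List (V × V × ℤ)} {ω : V → Vt N} (h : ∀ e ∈ E, (ω e.1).1 ≠ (ω e.2.1).1) :
    Nz (EM E) ω := by
  intro x y hxy h0
  refine hxy ?_
  unfold EM
  refine List.sum_eq_zero ?_
  intro t ht
  simp only [List.mem_map] at ht
  obtain ⟨e, he, rfl⟩ := ht
  split_ifs with hc
  · exact absurd (by rw [hc.1, hc.2]; exact h0) (h e he)
  · rfl

theorem mon_EM (hB : IsMUBs B) (E : List (V × V × ℤ)) (ω : V → Vt N)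
    (h : ∀ e ∈ E, (ω e.1).1 ≠ (ω e.2.1).1) : mon B (EM E) ω = pe B E ω := by
  induction E with
  | nil =>
    unfold mon EM
    simp
  | cons e E ih =>
    have h1 : EM (e :: E) = fun x y => (if e.1 = x ∧ e.2.1 = y then e.2.2 else 0) + EM E x y := by
      funext x y
      unfold EM
      simp
    have he := h e (by simp)
    have hE : ∀ e' ∈ E, (ω e'.1).1 ≠ (ω e'.2.1).1 := fun e' he' => h e' (by simp [he'])
    rw [h1, pe_cons, ← ih hE, mon_add hB (fun x y => if e.1 = x ∧ e.2.1 = y then e.2.2 else 0) (EM E),
      mon_single]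
    · intro x y hxy
      beta_reduce at hxy
      split_ifs at hxy with hc
      · rw [← hc.1, ← hc.2]; exact he
      · exact absurd rfl hxy
    · exact EM_nz hE

/-! ### Merging -/

/-- merging along a list of brackets between vertices of the same colour. -/
def rdf (f : V → V) : List (V × V) → ℕ × (V → V)
  | [] => (0, f)
  | (x, z) :: S =>
    if f x = f z then rdf f S
    else ((rdf (fun v => ren (f x) (f z) (f v)) S).1 + 1, (rdf (fun v => ren (f x) (f z) (f v)) S).2)

variable {c : V → Fin N}

theorem ren_col (x z : V) (h : c x = c z) (v : V) : c (ren x z v) = c v := by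
  unfold ren; split_ifs with hv
  · rw [h, hv]
  · rfl

theorem rdf_col (S : List (V × V)) : ∀ (f : V → V), (∀ v, c (f v) = c v) →
    (∀ u ∈ S, c u.1 = c u.2) → ∀ v, c ((rdf f S).2 v) = c v := by
  induction S with
  | nil => intro f hf _; exact hf
  | cons u S ih =>
    obtain ⟨x, z⟩ := u
    intro f hf hS
    have hS' : ∀ u ∈ S, c u.1 = c u.2 := fun u hu => hS u (by simp [hu])
    by_cases h : f x = f z
    · simp only [rdf, h, if_true]; exact ih f hf hS'
    · simp only [rdf, h, if_false]
      refine ih _ (fun v => ?_) hS'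
      rw [ren_col (c := c) _ _ (by rw [hf, hf]; exact hS (x, z) (by simp)), hf]

theorem rdf_spec (hB : IsMUBs B) (Φ : (V → Vt N) → ℂ) (S : List (V × V)) :
    ∀ (f : V → V), (∀ v, c (f v) = c v) → (∀ u ∈ S, c u.1 = c u.2) →
      av c (fun ω => pb B S (ω ∘ f) * Φ (ω ∘ f))
        = s6 ^ S.length * ((1 / 6) ^ (rdf f S).1 * av c (fun ω => Φ (ω ∘ (rdf f S).2))) := by
  induction S with
  | nil => intro f _ _; simp [rdf]
  | cons u S ih =>
    obtain ⟨x, z⟩ := u
    intro f hf hS
    have hS' : ∀ u ∈ S, c u.1 = c u.2 := fun u hu => hS u (by simp [hu])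
    have hxz : c x = c z := hS (x, z) (by simp)
    by_cases h : f x = f z
    · simp only [rdf, h, if_true, List.length_cons]
      rw [pow_succ, mul_assoc, mul_left_comm, ← ih f hf hS', ← av_smul]
      refine av_congr fun σ φ => ?_
      rw [pb_cons]
      have : hh B ((cf c σ φ ∘ f) x) ((cf c σ φ ∘ f) z) = s6 := by
        rw [hh_same hB]
        · simp [h]
        · simp [h]
      rw [this]; ring
    · simp only [rdf, h, if_false, List.length_cons]
      have hf' : ∀ v, c (ren (f x) (f z) (f v)) = c v := fun v => by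
        rw [ren_col (c := c) _ _ (by rw [hf, hf]; exact hxz), hf]
      have h1 := ih (fun v => ren (f x) (f z) (f v)) hf' hS'
      have h2 := av_merge (c := c) (f x) (f z) h (by rw [hf, hf]; exact hxz)
        (fun ω => pb B S (ω ∘ f) * Φ (ω ∘ f))
      have h3 : av c (fun ω => pb B ((x, z) :: S) (ω ∘ f) * Φ (ω ∘ f))
          = s6 * av c (fun ω => if ω (f x) = ω (f z) then pb B S (ω ∘ f) * Φ (ω ∘ f) else 0) := by
        rw [← av_smul]
        refine av_congr fun σ φ => ?_
        rw [pb_cons]
        have e : hh B ((cf c σ φ ∘ f) x) ((cf c σ φ ∘ f) z)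
            = if cf c σ φ (f x) = cf c σ φ (f z) then s6 else 0 := by
          rw [hh_same hB]
          · rfl
          · simp only [Function.comp, cf, hf, hxz]
        rw [e]
        split_ifs <;> ring
      rw [h3, h2]
      have h4 : av c (fun ω => pb B S ((ω ∘ ren (f x) (f z)) ∘ f) * Φ ((ω ∘ ren (f x) (f z)) ∘ f))
          = s6 ^ S.length * ((1 / 6) ^ (rdf (fun v => ren (f x) (f z) (f v)) S).1 *
            av c (fun ω => Φ (ω ∘ (rdf (fun v => ren (f x) (f z) (f v)) S).2))) := h1
      rw [h4]
      ring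

/-- average of a product of brackets and edges. -/
noncomputable def Br (B : Fin N → M6) (c : V → Fin N) (L : List (V × V)) (E : List (V × V × ℤ)) : ℂ :=
  av c (fun ω => pb B L ω * pe B E ω)

/-- the brackets between equal colours are merged, the others become edges. -/
theorem Br_eq (hB : IsMUBs B) (L : List (V × V)) (E : List (V × V × ℤ)) (S D : List (V × V))
    (hL : ∀ ω : V → Vt N, pb B L ω = pb B S ω * pb B D ω) (hS : ∀ u ∈ S, c u.1 = c u.2) :
    Br B c L E = s6 ^ S.length * ((1 / 6) ^ (rdf id S).1 *
      av c (fun ω => pe B (toE D ++ E) (ω ∘ (rdf id S).2))) := by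
  unfold Br
  have h := rdf_spec (c := c) hB (fun ω => pe B (toE D ++ E) ω) S id (fun _ => rfl) hS
  rw [← h]
  refine av_congr fun σ φ => ?_
  rw [pe_append, pe_toE]
  simp only [Function.comp_id, hL]
  ring

/-! ### Rules -/

/-- **Rule one**: contraction of a vertex with one ket and one bra. -/
theorem rule1 (hB : IsMUBs B) (v x z : V) (E : List (V × V × ℤ)) (hx : x ≠ v) (hz : z ≠ v)
    (hE : ∀ e ∈ E, e.1 ≠ v ∧ e.2.1 ≠ v) :
    6 * Br B c [(x, v), (v, z)] E = s6 * Br B c [(x, z)] E := by
  unfold Br
  rw [av_vertex v]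
  rw [← av_smul, ← av_smul]
  refine av_congr fun σ φ => ?_
  set ω := cf c σ φ with hω
  have h1 : ∀ a, pe B E (Function.update ω v ((ω v).1, a)) = pe B E ω := by
    intro a
    unfold pe
    congr 1
    refine List.map_congr_left fun e he => ?_
    rw [Function.update_of_ne (hE e he).1, Function.update_of_ne (hE e he).2]
  have h2 : ∀ a, pb B [(x, v), (v, z)] (Function.update ω v ((ω v).1, a))
      = hh B (ω x) ((ω v).1, a) * hh B ((ω v).1, a) (ω z) := by
    intro a
    rw [pb_cons, pb_cons, pb_nil]
    simp only [Function.update_self, Function.update_of_ne hx, Function.update_of_ne hz]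
    ring
  simp only [h1, h2, ← Finset.sum_mul, hh_complete hB]
  rw [pb_cons, pb_nil]
  ring

/-- **Rule two**: contraction of a vertex with two kets and two bras that is alone in its colour,
by the design property of a complete set. -/
theorem rule2 {B : Fin 7 → M6} (hB : IsMUBs B) {c : V → Fin 7} (v x1 x2 y1 y2 : V)
    (E : List (V × V × ℤ)) (hx1 : x1 ≠ v) (hx2 : x2 ≠ v) (hy1 : y1 ≠ v) (hy2 : y2 ≠ v)
    (hE : ∀ e ∈ E, e.1 ≠ v ∧ e.2.1 ≠ v) (U : List (Fin 7)) (hU : U.Nodup)
    (hU1 : ∀ x, x ≠ v → c x ∈ U) (hU2 : c v ∉ U) :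
    ((7 - U.length : ℕ) : ℂ) * Br B c [(x1, v), (x2, v), (v, y1), (v, y2)] E
      = Br B c [(x1, y1), (x2, y2)] E + Br B c [(x1, y2), (x2, y1)] E
        - (U.map fun j => Br B (Function.update c v j) [(x1, v), (x2, v), (v, y1), (v, y2)] E).sum := by
  classical
  set L : List (V × V) := [(x1, v), (x2, v), (v, y1), (v, y2)] with hLd
  set G : (V → Vt 7) → ℂ := fun ω => pb B L ω * pe B E ω with hG
  have hsum : ∑ j, av (Function.update c v j) G
      = Br B c [(x1, y1), (x2, y2)] E + Br B c [(x1, y2), (x2, y1)] E := by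
    rw [av_colour, av_vertex v]
    unfold Br
    rw [← av_add]
    refine av_congr fun σ φ => ?_
    set ω := cf c σ φ with hω
    have h1 : ∀ j a, pe B E (Function.update (Function.update ω v ((ω v).1, a)) v
        (j, ((Function.update ω v ((ω v).1, a)) v).2)) = pe B E ω := by
      intro j a
      unfold pe
      congr 1
      refine List.map_congr_left fun e he => ?_
      simp only [Function.update_of_ne (hE e he).1, Function.update_of_ne (hE e he).2]
    have h2 : ∀ j a, pb B L (Function.update (Function.update ω v ((ω v).1, a)) v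
        (j, ((Function.update ω v ((ω v).1, a)) v).2))
        = hh B (ω x1) (j, a) * hh B (ω x2) (j, a) * (hh B (j, a) (ω y1) * hh B (j, a) (ω y2)) := by
      intro j a
      rw [hLd, pb_cons, pb_cons, pb_cons, pb_cons, pb_nil]
      simp only [Function.update_self, Function.update_of_ne hx1, Function.update_of_ne hx2,
        Function.update_of_ne hy1, Function.update_of_ne hy2]
      ring
    simp only [hG, h1, h2, ← Finset.sum_mul]
    rw [Finset.sum_comm, hh_design hB]
    simp only [pb_cons, pb_nil]
    ring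
  have hsplit : ∑ j, av (Function.update c v j) G
      = (U.map fun j => av (Function.update c v j) G).sum + ((7 - U.length : ℕ) : ℂ) * av c G := by
    have hUf : (U.map fun j => av (Function.update c v j) G).sum
        = ∑ j ∈ U.toFinset, av (Function.update c v j) G := by
      rw [List.sum_toFinset _ hU]
    rw [hUf, ← Finset.sum_add_sum_compl U.toFinset]
    congr 1
    have hc : ∀ j ∈ U.toFinsetᶜ, av (Function.update c v j) G = av c G := by
      intro j hj
      have hj' : j ∉ U := by simpa using hj
      rw [← av_perm (c := c) (Equiv.swap (c v) j) G]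
      refine congrArg (fun c' => av c' G) ?_
      funext x
      by_cases hx : x = v
      · subst hx; simp
      · rw [Function.update_of_ne hx]
        symm
        refine Equiv.swap_apply_of_ne_of_ne ?_ ?_
        · intro h; exact hU2 (h ▸ hU1 x hx)
        · intro h; exact hj' (h ▸ hU1 x hx)
    have hcard : (U.toFinsetᶜ : Finset (Fin 7)).card = 7 - U.length := by
      rw [Finset.card_compl, List.toFinset_card_of_nodup hU, Fintype.card_fin]
    rw [Finset.sum_congr rfl hc, Finset.sum_const, nsmul_eq_mul, hcard]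
  have hfin := hsplit.symm.trans hsum
  unfold Br at hfin ⊢
  linear_combination hfin

end Vale.Agent.P355.H41.F7
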