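import Vale.Agent.P355.H41.F7.Cert

/-! Faster kernel checks for words with at most eight vertices (everything packed in octal). -/

namespace Vale.Agent.P355.H41.F7

open Finset Matrix Vale.Agent.P355
open Vale.Agent.P355.H129 (Gm NRep force force_eq)
open Vale.Agent.P355.H138 (Tr)

set_option linter.unusedSectionVars false

variable {N L r K : ℕ} [NeZero N] [NeZero L] [NeZero r] [NeZero K] {B : Fin N → M6}

/-- octal digit. -/
def lk (X i : ℕ) : ℕ := Nat.mod (Nat.shiftRight X (Nat.mul 3 i)) 8

/-- packed list. -/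
def pk (l : List ℕ) : ℕ :=
  List.rec (motive := fun _ => ℕ) 0 (fun a _ acc => Nat.add a (Nat.mul 8 acc)) l

theorem lk_eq (X i : ℕ) : lk X i = X / 8 ^ i % 8 := by
  show (X >>> (3 * i)) % 8 = _
  rw [Nat.shiftRight_eq_div_pow, pow_mul]; rfl

theorem lk_lt (X i : ℕ) : lk X i < 8 := Nat.mod_lt _ (by norm_num)

theorem lk_pk (l : List ℕ) (h : ∀ a ∈ l, a < 8) (i : ℕ) : lk (pk l) i = l.getD i 0 := by
  rw [lk_eq]
  induction l generalizing i with
  | nil => simp [pk]
  | cons a l ih =>
    have ha : a < 8 := h a (by simp)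
    have e : pk (a :: l) = a + 8 * pk l := rfl
    rw [e]
    cases i with
    | zero => simp; omega
    | succ i =>
      have h1 : (a + 8 * pk l) / 8 ^ (i + 1) = pk l / 8 ^ i := by
        rw [pow_succ', ← Nat.div_div_eq_div_mul]
        congr 1
        omega
      rw [h1, ih (fun b hb => h b (by simp [hb]))]
      simp

theorem dgs_succ (b n X : ℕ) : dgs b (n + 1) X = X % 2 ^ b :: dgs b n (X >>> b) := by
  show force (Nat.mod X (2 ^ b)) (fun a => force (Nat.shiftRight X b) fun Y => a :: dgs b n Y) = _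
  rw [force_eq, force_eq]
  rfl

theorem dgs_length (b n X : ℕ) : (dgs b n X).length = n := by
  induction n generalizing X with
  | zero => rfl
  | succ n ih => rw [dgs_succ, List.length_cons, ih]

theorem dgs_getD (n X i : ℕ) (hi : i < n) : (dgs 3 n X).getD i 0 = lk X i := by
  induction n generalizing X i with
  | zero => omega
  | succ n ih =>
    rw [dgs_succ]
    cases i with
    | zero =>
      rw [List.getD_cons_zero, lk_eq, pow_zero, Nat.div_one]
      rfl
    | succ i =>
      have e8 : (2 : ℕ) ^ 3 = 8 := rfl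
      rw [List.getD_cons_succ, ih _ _ (by omega), lk_eq, lk_eq, Nat.shiftRight_eq_div_pow,
        Nat.div_div_eq_div_mul, e8, pow_succ']

/-! ### placements -/

/-- union of bits. -/
def lorR (n : ℕ) (f : ℕ → ℕ) : ℕ :=
  Nat.rec (motive := fun _ => ℕ) 0 (fun k acc => Nat.lor (Nat.shiftLeft 1 (f k)) acc) n

theorem lorR_bit (n : ℕ) (f : ℕ → ℕ) (k : ℕ) :
    (lorR n f).testBit k = true ↔ ∃ i < n, f i = k := by
  induction n with
  | zero => simp [lorR]
  | succ n ih =>
    have e : lorR (n + 1) f = (1 <<< f n) ||| lorR n f := rfl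
    rw [e, Nat.testBit_or, Bool.or_eq_true, ih]
    constructor
    · rintro (h | ⟨i, hi, h⟩)
      · refine ⟨n, by omega, ?_⟩
        rw [Nat.testBit_shiftLeft] at h
        simp only [Bool.and_eq_true, decide_eq_true_eq] at h
        by_contra hne
        have h2 : k - f n ≠ 0 := by omega
        have h3 : Nat.testBit 1 (k - f n) = false := by
          obtain ⟨m, hm⟩ : ∃ m, k - f n = m + 1 := ⟨k - f n - 1, by omega⟩
          rw [hm, Nat.testBit_succ]; simp
        rw [h3] at h
        exact absurd h.2 (by simp)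
      · exact ⟨i, by omega, h⟩
    · rintro ⟨i, hi, h⟩
      rcases Nat.lt_succ_iff_lt_or_eq.1 hi with h2 | rfl
      · exact Or.inr ⟨i, h2, h⟩
      · left
        rw [Nat.testBit_shiftLeft, h]
        simp

/-- check of a permutation. -/
def pmR (n : ℕ) (f : ℕ → ℕ) : Bool := Nat.beq (lorR n f) (Nat.sub (2 ^ n) 1)

theorem pmR_spec {n : ℕ} {f : ℕ → ℕ} (h : pmR n f = true) :
    (∀ i < n, f i < n) ∧ ∀ i < n, ∀ j < n, f i = f j → i = j := by
  have h1 : lorR n f = 2 ^ n - 1 := Nat.eq_of_beq_eq_true h
  have hb : ∀ k, (k < n ↔ ∃ i < n, f i = k) := by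
    intro k
    rw [← lorR_bit, h1, Nat.testBit_two_pow_sub_one]
    simp
  have hlt : ∀ i < n, f i < n := fun i hi => (hb _).2 ⟨i, hi, rfl⟩
  refine ⟨hlt, ?_⟩
  let g : Fin n → Fin n := fun i => ⟨f i, hlt i i.2⟩
  have hs : Function.Surjective g := by
    intro k
    obtain ⟨i, hi, h⟩ := (hb k).1 k.2
    exact ⟨⟨i, hi⟩, Fin.ext h⟩
  have hi := Finite.injective_iff_surjective.2 hs
  intro i hi' j hj' hij
  have := @hi ⟨i, hi'⟩ ⟨j, hj'⟩ (Fin.ext hij)
  exact congrArg Fin.val this

theorem nodup_of {l : List ℕ} (h : l.Nodup) : nodup l = true := by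
  induction l with
  | nil => rfl
  | cons a l ih =>
    rw [List.nodup_cons] at h
    simp only [nodup, Bool.and_eq_true, List.all_eq_true, Bool.not_eq_true', beq_f]
    exact ⟨fun b hb hab => h.1 (hab ▸ hb), ih h.2⟩

theorem pmR_list {n X : ℕ} (h : pmR n (fun i => lk X i) = true) :
    Nat.beq (dgs 3 n X).length n = true ∧ allLt n (dgs 3 n X) = true ∧ nodup (dgs 3 n X) = true := by
  obtain ⟨h1, h2⟩ := pmR_spec h
  have hl := dgs_length 3 n X
  have hg : ∀ i (hi : i < (dgs 3 n X).length), (dgs 3 n X)[i] = lk X i := by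
    intro i hi
    rw [← getD_lt _ _ hi, dgs_getD n X i (by omega)]
  refine ⟨by rw [Nat.beq_eq]; exact hl, ?_, ?_⟩
  · simp only [allLt, List.all_eq_true, Nat.blt_eq]
    intro a ha
    obtain ⟨i, hi, rfl⟩ := List.getElem_of_mem ha
    rw [hg]
    exact h1 i (by omega)
  · refine nodup_of ?_
    rw [List.nodup_iff_injective_get]
    intro i j hij
    simp only [List.get_eq_getElem, hg] at hij
    exact Fin.ext (h2 i (by have := i.2; omega) j (by have := j.2; omega) hij)

/-- check of a placement. -/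
def okX (K N X : ℕ) : Bool := pmR K (fun i => lk X i) && pmR N (fun i => lk X (Nat.add K i))

theorem lk_shift (K X i : ℕ) : lk (Nat.shiftRight X (3 * K)) i = lk X (K + i) := by
  rw [lk_eq, lk_eq]
  show X >>> (3 * K) / 8 ^ i % 8 = _
  rw [Nat.shiftRight_eq_div_pow, Nat.div_div_eq_div_mul, pow_mul, show (2 : ℕ) ^ 3 = 8 from rfl,
    pow_add]

theorem okX_sound {X : ℕ} (h : okX K N X = true) : (plD K N X).ok N K = true := by
  unfold okX at h
  rw [Bool.and_eq_true] at h
  obtain ⟨h1, h2⟩ := h
  have h3 : pmR N (fun i => lk (Nat.shiftRight X (3 * K)) i) = true := by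
    simp only [lk_shift]; exact h2
  obtain ⟨a1, a2, a3⟩ := pmR_list h1
  obtain ⟨b1, b2, b3⟩ := pmR_list h3
  unfold plD Pl.ok
  simp only [Bool.and_eq_true]
  exact ⟨⟨⟨⟨⟨a1, a2⟩, a3⟩, b1⟩, b2⟩, b3⟩

/-! ### the check of a word -/

/-- the weight. -/
def wtF (a b : ℕ) : ℤ :=
  cond (Nat.blt a b)
    (Int.ofNat (Nat.shiftLeft 1 (Nat.mul 6 (Nat.add (Nat.div (Nat.mul b (Nat.sub b 1)) 2) a))))
    (cond (Nat.blt b a)
      (Int.negOfNat (Nat.shiftLeft 1 (Nat.mul 6 (Nat.add (Nat.div (Nat.mul a (Nat.sub a 1)) 2) b))))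
      (Int.ofNat 0))

theorem wtF_eq (a b : ℕ) : wtF a b = wt a b := by
  have key : ∀ n : ℕ, ((Nat.shiftLeft 1 (Nat.mul 6 n) : ℕ) : ℤ) = 64 ^ n := by
    intro n
    show ((1 <<< (6 * n) : ℕ) : ℤ) = _
    rw [Nat.shiftLeft_eq, one_mul, pow_mul]
    push_cast; norm_num
  unfold wtF wt
  rcases lt_trichotomy a b with h | h | h
  · have h1 : Nat.blt a b = true := by rw [Nat.blt_eq]; exact h
    rw [h1, cond_true, if_pos h]
    exact key _
  · subst h
    have h1 : Nat.blt a a = false := by
      rw [← Bool.not_eq_true, Nat.blt_eq]; omega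
    rw [h1, cond_false, cond_false, if_neg (lt_irrefl _), if_neg (lt_irrefl _)]
    rfl
  · have h1 : Nat.blt a b = false := by rw [← Bool.not_eq_true, Nat.blt_eq]; omega
    have h2 : Nat.blt b a = true := by rw [Nat.blt_eq]; exact h
    rw [h1, h2, cond_false, cond_true, if_neg (by omega), if_pos h]
    have : ∀ m : ℕ, Int.negOfNat m = -(m : ℤ) := fun m => by cases m <;> rfl
    rw [this, key]
    rfl

/-- code of an edge list. -/
def codeF (P : ℕ) (E : List (ℕ × ℕ × ℤ)) : ℤ :=
  List.rec (motive := fun _ => ℤ) (Int.ofNat 0)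
    (fun e _ acc => Int.add (Int.mul e.2.2 (wtF (lk P e.1) (lk P e.2.1))) acc) E

/-- total flow. -/
def absF (E : List (ℕ × ℕ × ℤ)) : ℕ :=
  List.rec (motive := fun _ => ℕ) 0 (fun e _ acc => Nat.add (Int.natAbs e.2.2) acc) E

/-- colours of the edges are different. -/
def colF (C : ℕ) (E : List (ℕ × ℕ × ℤ)) : Bool :=
  List.rec (motive := fun _ => Bool) true
    (fun e _ acc => and (not (Nat.beq (lk C e.1) (lk C e.2.1))) acc) E

/-- the colour of a class at a position. -/
def cmF (u q t : ℕ) : Bool := force (lk u q) fun d => or (Nat.beq d 7) (Nat.beq d t)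

/-- fast check of a word. -/
def wckF (K C P X u : ℕ) (E : List (ℕ × ℕ × ℤ)) : Bool :=
  and (allR K fun v => cmF u (lk P v) (lk X (Nat.add K (lk C v))))
    (and (colF C E) (and (Nat.ble (absF E) 31)
      (Nat.beq (Int.natAbs (codeF P E)) (Nat.shiftRight u (3 * K)))))

theorem codeF_eq (P : ℕ) (p : List ℕ) (E : List (ℕ × ℕ × ℤ))
    (h : ∀ e ∈ E, lk P e.1 = p.getD e.1 0 ∧ lk P e.2.1 = p.getD e.2.1 0) :
    codeF P E = codeN p E := by
  induction E with
  | nil => rfl
  | cons e E ih =>
    have e1 : codeF P (e :: E) = e.2.2 * wtF (lk P e.1) (lk P e.2.1) + codeF P E := rfl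
    have e2 : codeN p (e :: E) = e.2.2 * wt (p.getD e.1 0) (p.getD e.2.1 0) + codeN p E := by
      unfold codeN; rw [List.map_cons, List.sum_cons]
    rw [e1, e2, wtF_eq, (h e (by simp)).1, (h e (by simp)).2, ih fun e' he' => h e' (by simp [he'])]

theorem absF_eq (E : List (ℕ × ℕ × ℤ)) : (absF E : ℤ) = absE E := by
  induction E with
  | nil => rfl
  | cons e E ih =>
    have e1 : absF (e :: E) = Int.natAbs e.2.2 + absF E := rfl
    have e2 : absE (e :: E) = |e.2.2| + absE E := by unfold absE; rw [List.map_cons, List.sum_cons]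
    rw [e1, e2, ← ih, Nat.cast_add, Int.natCast_natAbs]

theorem colF_spec {C : ℕ} {E : List (ℕ × ℕ × ℤ)} (h : colF C E = true) :
    ∀ e ∈ E, lk C e.1 ≠ lk C e.2.1 := by
  induction E with
  | nil => simp
  | cons e E ih =>
    have h1 : ((!Nat.beq (lk C e.1) (lk C e.2.1)) && colF C E) = true := h
    rw [Bool.and_eq_true] at h1
    intro e' he'
    rw [List.mem_cons] at he'
    rcases he' with rfl | he'
    · have := h1.1
      simpa [beq_f] using this
    · exact ih h1.2 e' he'

/-- class of packed data. -/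
def clU (K : ℕ) (b : Bool) (u : ℕ) : Cl := ⟨b, dgs 3 K u, ((Nat.shiftRight u (3 * K) : ℕ) : ℤ)⟩

theorem wckF_sound {w : Wd} {p tau : List ℕ} {b : Bool} {u C P X : ℕ}
    (hC : ∀ v < K, lk C v = w.c.getD v 0) (hP : ∀ v < K, lk P v = p.getD v 0)
    (hX : ∀ v < K, lk X (K + w.c.getD v 0) = tau.getD (w.c.getD v 0) 0)
    (hE : ∀ e ∈ w.E', e.1 < K ∧ e.2.1 < K) (hpK : ∀ v < K, p.getD v 0 < K)
    (h : wckF K C P X u w.E' = true) : wckW w p tau (clU K b u) = true := by
  unfold wckF at h
  simp only [Bool.and_eq_true, Nat.ble_eq, Nat.beq_eq] at h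
  obtain ⟨h1, h2, h3, h4⟩ := h
  have hv : ∀ v < K, (clU K b u).c.getD (p.getD v 0) 0 = 7 ∨
      (clU K b u).c.getD (p.getD v 0) 0 = tau.getD (w.c.getD v 0) 0 := by
    intro v hv
    have := allR_spec h1 v hv
    unfold cmF at this
    rw [force_eq] at this
    simp only [Bool.or_eq_true, Nat.beq_eq] at this
    have e1 : (clU K b u).c.getD (p.getD v 0) 0 = lk u (lk P v) := by
      rw [hP v hv]
      exact dgs_getD K u _ (hpK v hv)
    have e2 : lk X (Nat.add K (lk C v)) = tau.getD (w.c.getD v 0) 0 := by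
      rw [hC v hv]; exact hX v hv
    rw [e1, ← e2]
    exact this
  simp only [wckW, cm, Bool.and_eq_true, List.all_eq_true, Bool.not_eq_true', beq_f,
    Nat.beq_eq, decide_eq_true_eq, Bool.or_eq_true]
  refine ⟨⟨fun e he => ⟨⟨?_, hv _ (hE e he).1⟩, hv _ (hE e he).2⟩, ?_⟩, ?_⟩
  · have := colF_spec h2 e he
    rw [hC _ (hE e he).1, hC _ (hE e he).2] at this
    exact this
  · rw [← absF_eq]; exact_mod_cast h3
  · rw [codeF_eq P p _ fun e he => ⟨hP _ (hE e he).1, hP _ (hE e he).2⟩] at h4
    have e : (clU K b u).k = ((Nat.shiftRight u (3 * K) : ℕ) : ℤ) := rfl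
    rw [e, ← h4]
    rcases Int.natAbs_eq (codeN p w.E') with h5 | h5
    · left; exact h5
    · right; omega

/-! ### pairs -/

theorem FD.ok_act {g : GD} {f : FD} {lab : List ℕ} (hlab : lab.length = L)
    (hlN : allLt N lab = true) (hg : g.ok N L lab = true)
    (hf : f.ok N L r lab = true) : (g.act L f).ok N L r lab = true := by
  simp only [GD.ok, Bool.and_eq_true, List.all_eq_true, List.mem_range, Nat.beq_eq] at hg
  obtain ⟨⟨hP, hQ⟩, hc⟩ := hg
  simp only [FD.ok, Bool.and_eq_true, Nat.beq_eq, List.all_eq_true, Nat.blt_eq, Bool.not_eq_true',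
    beq_f] at hf ⊢
  obtain ⟨⟨hl, hN⟩, hE⟩ := hf
  simp only [allLt, List.all_eq_true, Nat.blt_eq] at hN hlN
  have hpv : ∀ v, v < L + r → pv L g.P v < L + r := by
    intro v hv
    unfold pv
    by_cases h : v < L
    · have hb : Nat.blt v L = true := by rw [Nat.blt_eq]; exact h
      rw [if_pos hb]
      have := isP_lt hP h
      omega
    · have hb : ¬ (Nat.blt v L = true) := by rw [Nat.blt_eq]; exact h
      rw [if_neg hb]; exact hv
  have hcol : ∀ v, v < L + r → (lab ++ f.ci.map fun c => g.Q.getD c 0).getD (pv L g.P v) 0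
      = g.Q.getD ((lab ++ f.ci).getD v 0) 0 := by
    intro v hv
    unfold pv
    by_cases h : v < L
    · have hb : Nat.blt v L = true := by rw [Nat.blt_eq]; exact h
      rw [if_pos hb, toF_append_l (n := L) hlab _ (isP_lt hP h), toF_append_l (n := L) hlab v h]
      exact (hc v h).symm
    · have hb : ¬ (Nat.blt v L = true) := by rw [Nat.blt_eq]; exact h
      obtain ⟨k, rfl⟩ : ∃ k, v = L + k := ⟨v - L, by omega⟩
      rw [if_neg hb, toF_append_r hlab k (by rw [List.length_map]; omega),
        toF_append_r hlab k (by omega), getD_lt _ _ (by rw [List.length_map]; omega),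
        List.getElem_map, ← getD_lt _ _ (by omega)]
  have hcN : ∀ v, v < L + r → (lab ++ f.ci).getD v 0 < N := by
    intro v hv
    have hlen : v < (lab ++ f.ci).length := by rw [List.length_append]; omega
    rw [getD_lt _ _ hlen]
    have := List.getElem_mem hlen
    rw [List.mem_append] at this
    rcases this with h | h
    · exact hlN _ h
    · exact hN _ h
  refine ⟨⟨?_, ?_⟩, ?_⟩
  · show (f.ci.map _).length = r
    rw [List.length_map]; exact hl
  · simp only [allLt, List.all_eq_true, Nat.blt_eq]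
    intro c hc'
    simp only [GD.act, List.mem_map] at hc'
    obtain ⟨c0, h0, rfl⟩ := hc'
    exact isP_lt hQ (hN c0 h0)
  · intro e' he'
    simp only [GD.act, List.mem_map] at he'
    obtain ⟨e, he, rfl⟩ := he'
    have h1 := hE e he
    refine ⟨⟨hpv _ h1.1.1, hpv _ h1.1.2⟩, ?_⟩
    simp only [GD.act]
    rw [hcol _ h1.1.1, hcol _ h1.1.2]
    intro h2
    apply h1.2
    have hinj := isP_inj hQ
    have h3 := @hinj ⟨_, hcN _ h1.1.1⟩ ⟨_, hcN _ h1.1.2⟩ (by
      unfold toF
      simp only
      rw [h2])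
    exact congrArg Fin.val h3

/-- fast check of a pair of flags. -/
noncomputable def prF (K N L r n : ℕ) (lab : List ℕ) (gs : List GD) (tr : Tr) (fx fy : FD)
    (ids pls : ℕ) : Bool :=
  allR n fun j => force (dgt 45 pls j) fun X => and (okX K N X)
    (force (pk (lab ++ (fx.ci ++ (GD.act L (gat gs j) fy).ci))) fun C =>
      and (wckF K C X X (tr.get (dgt 16 ids j)).2 (prodW L r lab fx (GD.act L (gat gs j) fy)).E)
        ((tr.get (dgt 16 ids j)).1 == xor fx.b fy.b))

theorem prF_sound (hK : K = L + (r + r)) (hN8 : N ≤ 8) {n nk : ℕ} {lab : List ℕ}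
    (hlab : lab.length = L) (hlN : allLt N lab = true) {gs : List GD}
    (hgs : ((List.range n).all fun i => (gat gs i).ok N L lab) = true) {tr : Tr}
    {fl : List FD} (hfl : flCk N L r nk lab fl = true) {x y : ℕ} (hx : x < nk) (hy : y < nk)
    {ids pls : ℕ} (h : prF K N L r n lab gs tr (fl.getD x fd0) (fl.getD y fd0) ids pls = true) :
    prCk K N L r n lab gs (clsT K tr) (fl.getD x fd0) (fl.getD y fd0) ids pls = true := by
  have hlN' := hlN
  simp only [allLt, List.all_eq_true, Nat.blt_eq] at hlN'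
  unfold prCk
  have key : ∀ j < n, ((GD.act L (gat gs j) (fl.getD y fd0)).ok N L r lab &&
      (plD K N (dgt 45 pls j)).ok N K && pchk K L r lab (fl.getD x fd0)
        (GD.act L (gat gs j) (fl.getD y fd0)) (plD K N (dgt 45 pls j))
        (clsT K tr (dgt 16 ids j))) = true := by
    intro j hj
    have h1 := allR_spec h j hj
    simp only [force_eq, Bool.and_eq_true] at h1
    obtain ⟨hX, hw, hb⟩ := h1
    set X := dgt 45 pls j with hXd
    have hfx := allR_spec hfl x hx
    have hfy := allR_spec hfl y hy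
    simp only [List.all_eq_true, List.mem_range] at hgs
    have hg := FD.ok_act (r := r) hlab hlN (hgs j hj) hfy
    set f := fl.getD x fd0 with hf
    set g := GD.act L (gat gs j) (fl.getD y fd0) with hgd
    have hpl := okX_sound (N := N) (K := K) hX
    rw [Bool.and_eq_true, Bool.and_eq_true]
    refine ⟨⟨hg, hpl⟩, ?_⟩
    -- the word
    have hfx' := hfx
    have hg' := hg
    simp only [FD.ok, Bool.and_eq_true, Nat.beq_eq, List.all_eq_true, Nat.blt_eq,
      Bool.not_eq_true', beq_f] at hfx' hg'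
    obtain ⟨⟨hfl1, hfN⟩, hfE⟩ := hfx'
    obtain ⟨⟨hgl, hgN⟩, hgE⟩ := hg'
    simp only [allLt, List.all_eq_true, Nat.blt_eq] at hfN hgN
    have hwE' : (prodW L r lab f g).E' = (prodW L r lab f g).E := by
      unfold Wd.E' prodW; simp
    have hwS : (prodW L r lab f g).S = [] := by unfold Wd.S prodW; simp
    have hc8 : ∀ a ∈ (prodW L r lab f g).c, a < N := by
      intro a ha
      simp only [prodW, List.mem_append] at ha
      rcases ha with ha | ha | ha
      · exact hlN' a ha
      · exact hfN a ha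
      · exact hgN a ha
    have hclen : (prodW L r lab f g).c.length = K := by
      simp only [prodW, List.length_append]; omega
    have hp : ((List.range K).map fun v => (plD K N X).pi.getD v 0) = (plD K N X).pi := by
      have hl : (plD K N X).pi.length = K := dgs_length 3 K X
      apply List.ext_getElem
      · rw [List.length_map, List.length_range, hl]
      · intro i h1 h2
        rw [List.getElem_map, List.getElem_range, getD_lt _ _ h2]
    have hpi : ∀ v < K, (plD K N X).pi.getD v 0 = lk X v := fun v hv => dgs_getD K X v hv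
    have hplv := hpl
    simp only [Pl.ok, Bool.and_eq_true, Nat.beq_eq] at hplv
    have hwc : wckW (prodW L r lab f g) (plD K N X).pi (plD K N X).tau
        (clU K (tr.get (dgt 16 ids j)).1 (tr.get (dgt 16 ids j)).2) = true := by
      refine wckF_sound (K := K) (C := pk (prodW L r lab f g).c) (P := X) (X := X) ?_ ?_ ?_ ?_ ?_ ?_
      · intro v _
        exact lk_pk _ (fun a ha => lt_of_lt_of_le (hc8 a ha) hN8) v
      · intro v hv; exact (hpi v hv).symm
      · intro v hv
        have hcN : (prodW L r lab f g).c.getD v 0 < N := by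
          rw [getD_lt _ _ (by rw [hclen]; exact hv)]
          exact hc8 _ (List.getElem_mem _)
        rw [← lk_shift]
        exact (dgs_getD N _ _ hcN).symm
      · intro e he
        rw [hwE'] at he
        simp only [prodW, List.mem_append, List.mem_map] at he
        rcases he with he | ⟨e', he', rfl⟩
        · have := hfE e he; omega
        · have := hgE e' he'
          unfold shf
          simp only
          constructor <;> split_ifs <;> omega
      · intro v hv
        have h2 := hplv.1.1.1.1.2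
        simp only [allLt, List.all_eq_true, Nat.blt_eq] at h2
        rw [getD_lt _ _ (by rw [hplv.1.1.1.1.1]; exact hv)]
        exact h2 _ (List.getElem_mem _)
      · rw [hwE']; exact hw
    unfold pchk
    rw [Bool.and_eq_true]
    refine ⟨?_, ?_⟩
    · have : wchkW K (prodW L r lab f g) (plD K N X) (clsT K tr (dgt 16 ids j)) = some (0, 0) := by
        have h5 : clsT K tr (dgt 16 ids j)
          = clU K (tr.get (dgt 16 ids j)).1 (tr.get (dgt 16 ids j)).2 := rfl
        have h6 : wckW (prodW L r lab f g) ((rdl (List.range K) (prodW L r lab f g).S).2.map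
            fun v => (plD K N X).pi.getD v 0) (plD K N X).tau (clsT K tr (dgt 16 ids j)) = true := by
          have h7 : (rdl (List.range K) (prodW L r lab f g).S).2 = List.range K := by
            rw [hwS]; rfl
          rw [h7, hp, h5]
          exact hwc
        simp only [wchkW]
        rw [if_pos h6, hwS]
        rfl
      rw [this]
      rfl
    · exact hb
  clear h
  have : ∀ m ≤ n, (allR m fun j => (GD.act L (gat gs j) (fl.getD y fd0)).ok N L r lab &&
      (plD K N (dgt 45 pls j)).ok N K && pchk K L r lab (fl.getD x fd0)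
        (GD.act L (gat gs j) (fl.getD y fd0)) (plD K N (dgt 45 pls j))
        (clsT K tr (dgt 16 ids j))) = true := by
    intro m hm
    induction m with
    | zero => rfl
    | succ m ih =>
      show (_ && allR m _) = true
      rw [Bool.and_eq_true]
      exact ⟨key m (by omega), ih (by omega)⟩
  exact this n le_rfl

end Vale.Agent.P355.H41.F7
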