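import Vale.Agent.P355.H41.F7.Rows
import Vale.Agent.P355.H147.Group

/-! Flags: labelled vertices and averaged internal vertices; the Gram kernel of flags and the words
of its entries. -/

namespace Vale.Agent.P355.H41.F7

open Finset Matrix Vale.Agent.P355
open Vale.Agent.P355.H138 (s6 s6_sq s6_ne star_s6 r6 pw6)
open Vale.Agent.P355.H147 (GramF)

set_option linter.unusedSectionVars false

variable {N L r : ℕ} [NeZero N] [NeZero L] [NeZero r] {B : Fin N → M6}

/-- vertices of a flag. -/
abbrev Vf (L r : ℕ) := Fin L ⊕ Fin r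

/-- a flag: parity, colours of the internal vertices, edges. -/
structure Fl (N L r : ℕ) where
  b : Bool
  ci : Fin r → Fin N
  E : List (Vf L r × Vf L r × ℤ)

/-- colours of the vertices of a flag. -/
def Fl.col (lab : Fin L → Fin N) (f : Fl N L r) : Vf L r → Fin N := Sum.elim lab f.ci

/-- edges only between different colours. -/
def Fl.Ok (lab : Fin L → Fin N) (f : Fl N L r) : Prop :=
  ∀ e ∈ f.E, f.col lab e.1 ≠ f.col lab e.2.1

open Classical in
/-- the function of a flag on the samples (assignment of the colours, labels). -/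
noncomputable def flv (lab : Fin L → Fin N) (B : Fin N → M6) (f : Fl N L r)
    (σ : Equiv.Perm (Fin N)) (α : Fin L → Fin 6) : ℂ :=
  if f.Ok lab then ((6⁻¹ : ℂ) ^ r * ∑ ρ : Fin r → Fin 6,
    pe B f.E (cf (f.col lab) σ (Sum.elim α ρ))) * (r6 ^ bn f.b : ℝ) else 0

/-- weight of a sample. -/
noncomputable def smw (N L : ℕ) : ℝ := (Fintype.card (Equiv.Perm (Fin N)) : ℝ)⁻¹ * (6⁻¹ : ℝ) ^ L

theorem smw_nonneg (N L : ℕ) : 0 ≤ smw N L := by unfold smw; positivity

/-- the Gram kernel of flags. -/
noncomputable def Mk (lab : Fin L → Fin N) (B : Fin N → M6) (f g : Fl N L r) : ℝ :=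
  smw N L * ∑ σ, ∑ α, (flv lab B f σ α * star (flv lab B g σ α)).re

theorem Mk_gram (lab : Fin L → Fin N) (B : Fin N → M6) :
    GramF (Mk (r := r) lab B) := by
  refine ⟨Equiv.Perm (Fin N) × (Fin L → Fin 6), inferInstance,
    fun s f => ((Real.sqrt (smw N L) : ℝ) : ℂ) * flv lab B f s.1 s.2, fun f g => ?_⟩
  unfold Mk
  rw [Fintype.sum_prod_type, Finset.mul_sum]
  refine Finset.sum_congr rfl fun σ _ => ?_
  rw [Finset.mul_sum]
  refine Finset.sum_congr rfl fun α _ => ?_
  simp only
  rw [star_mul']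
  have h1 : star ((Real.sqrt (smw N L) : ℝ) : ℂ) = ((Real.sqrt (smw N L) : ℝ) : ℂ) :=
    Complex.conj_ofReal _
  rw [h1]
  have h2 : ((Real.sqrt (smw N L) : ℝ) : ℂ) * flv lab B f σ α *
      (((Real.sqrt (smw N L) : ℝ) : ℂ) * star (flv lab B g σ α))
      = ((Real.sqrt (smw N L) * Real.sqrt (smw N L) : ℝ) : ℂ) *
        (flv lab B f σ α * star (flv lab B g σ α)) := by push_cast; ring
  rw [h2, Real.mul_self_sqrt (smw_nonneg N L), Complex.re_ofReal_mul]

theorem Mk_symm (lab : Fin L → Fin N) (B : Fin N → M6) (f g : Fl N L r) :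
    Mk lab B f g = Mk lab B g f := by
  unfold Mk
  congr 1
  refine Finset.sum_congr rfl fun σ _ => Finset.sum_congr rfl fun α _ => ?_
  have h : flv lab B g σ α * star (flv lab B f σ α)
      = star (flv lab B f σ α * star (flv lab B g σ α)) := by
    rw [star_mul', star_star]; ring
  rw [h]; simp

/-! ### Group elements -/

/-- a group element: permutation of the labels, of the colours, reversal. -/
structure Gel (N L : ℕ) where
  P : Equiv.Perm (Fin L)
  Q : Equiv.Perm (Fin N)
  rev : Bool

/-- action on vertices. -/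
def Gel.v (g : Gel N L) : Vf L r → Vf L r := Sum.map g.P id

/-- sign of the reversal. -/
def sg (b : Bool) (k : ℤ) : ℤ := if b then -k else k

/-- action on flags. -/
def Gel.act (g : Gel N L) (f : Fl N L r) : Fl N L r :=
  ⟨f.b, fun i => g.Q (f.ci i), f.E.map fun e => (g.v e.1, g.v e.2.1, sg g.rev e.2.2)⟩

/-- compatibility of the permutation of labels and of colours. -/
def Gel.Ok (lab : Fin L → Fin N) (g : Gel N L) : Prop := ∀ x, g.Q (lab x) = lab (g.P x)

theorem Gel.col_act {lab : Fin L → Fin N} {g : Gel N L} (hg : g.Ok lab) (f : Fl N L r)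
    (v : Vf L r) : (g.act f).col lab (g.v v) = g.Q (f.col lab v) := by
  rcases v with x | i
  · simp only [Fl.col, Gel.v, Sum.map_inl, Sum.elim_inl]; exact (hg x).symm
  · rfl

theorem Gel.ok_act {lab : Fin L → Fin N} {g : Gel N L} (hg : g.Ok lab) (f : Fl N L r) :
    (g.act f).Ok lab ↔ f.Ok lab := by
  unfold Fl.Ok
  constructor
  · intro h e he h'
    refine h (g.v e.1, g.v e.2.1, sg g.rev e.2.2) ?_ ?_
    · simp only [Gel.act, List.mem_map]; exact ⟨e, he, rfl⟩
    · simp only
      rw [g.col_act hg, g.col_act hg, h']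
  · intro h e' he' h'
    simp only [Gel.act, List.mem_map] at he'
    obtain ⟨e, he, rfl⟩ := he'
    simp only at h'
    have := h e he
    rw [g.col_act hg, g.col_act hg] at h'
    exact this (g.Q.injective h')

theorem star_hz (hB : IsMUBs B) {u v : Vt N} (h : u.1 ≠ v.1) (k : ℤ) :
    star (hh B u v ^ k) = hh B u v ^ (-k) := by
  rw [star_zpow₀, star_hh, ← hh_inv' hB h, _root_.zpow_neg, _root_.inv_zpow]

theorem star_pe {V : Type} [Fintype V] [DecidableEq V] (hB : IsMUBs B) (E : List (V × V × ℤ))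
    (ω : V → Vt N) (h : ∀ e ∈ E, (ω e.1).1 ≠ (ω e.2.1).1) :
    star (pe B E ω) = pe B (E.map fun e => (e.1, e.2.1, -e.2.2)) ω := by
  induction E with
  | nil => simp
  | cons e E ih =>
    rw [pe_cons, star_mul', star_hz hB (h e (by simp)), ih fun e' he' => h e' (by simp [he']),
      List.map_cons, pe_cons]

theorem flv_act (hB : IsMUBs B) {lab : Fin L → Fin N} {g : Gel N L} (hg : g.Ok lab)
    (f : Fl N L r) (σ : Equiv.Perm (Fin N)) (α : Fin L → Fin 6) :
    flv lab B (g.act f) σ α = if g.rev then star (flv lab B f (σ * g.Q) (α ∘ g.P))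
      else flv lab B f (σ * g.Q) (α ∘ g.P) := by
  by_cases hf : f.Ok lab
  · have hgf := (g.ok_act hg f).2 hf
    unfold flv
    rw [if_pos hgf, if_pos hf]
    have h1 : ∀ ρ : Fin r → Fin 6, ∀ v : Vf L r,
        cf ((g.act f).col lab) σ (Sum.elim α ρ) (g.v v)
        = cf (f.col lab) (σ * g.Q) (Sum.elim (α ∘ g.P) ρ) v := by
      intro ρ v
      unfold cf
      rw [g.col_act hg]
      rcases v with x | i <;> rfl
    have h2 : ∀ ρ : Fin r → Fin 6, pe B (g.act f).E (cf ((g.act f).col lab) σ (Sum.elim α ρ))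
        = if g.rev then star (pe B f.E (cf (f.col lab) (σ * g.Q) (Sum.elim (α ∘ g.P) ρ)))
          else pe B f.E (cf (f.col lab) (σ * g.Q) (Sum.elim (α ∘ g.P) ρ)) := by
      intro ρ
      have hne : ∀ e ∈ f.E, (cf (f.col lab) (σ * g.Q) (Sum.elim (α ∘ g.P) ρ) e.1).1
          ≠ (cf (f.col lab) (σ * g.Q) (Sum.elim (α ∘ g.P) ρ) e.2.1).1 := by
        intro e he h'
        exact hf e he ((σ * g.Q).injective h')
      have e1 : pe B (g.act f).E (cf ((g.act f).col lab) σ (Sum.elim α ρ))
          = pe B (f.E.map fun e => (e.1, e.2.1, sg g.rev e.2.2))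
            (cf (f.col lab) (σ * g.Q) (Sum.elim (α ∘ g.P) ρ)) := by
        unfold pe
        simp only [Gel.act, List.map_map]
        congr 1
        refine List.map_congr_left fun e _ => ?_
        simp only [Function.comp]
        have e3 := h1 ρ e.1
        have e4 := h1 ρ e.2.1
        unfold Gel.act at e3 e4
        rw [e3, e4]
      rw [e1]
      cases hr : g.rev
      · simp only [sg, Bool.false_eq_true, if_false]
        have : (f.E.map fun e => (e.1, e.2.1, e.2.2)) = f.E := by simp
        rw [this]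
      · simp only [sg, if_true]
        rw [star_pe hB _ _ hne]
    simp only [h2]
    cases g.rev
    · rfl
    · simp only [if_true]
      have h6 : star (6 : ℂ) = 6 := by simp
      have hr : star ((r6 ^ bn f.b : ℝ) : ℂ) = ((r6 ^ bn f.b : ℝ) : ℂ) := Complex.conj_ofReal _
      rw [star_mul', star_mul', star_pow, star_inv₀, h6, star_sum, hr]
      rfl
  · have hgf : ¬ (g.act f).Ok lab := fun h => hf ((g.ok_act hg f).1 h)
    unfold flv
    rw [if_neg hgf, if_neg hf]
    simp

theorem Mk_inv (hB : IsMUBs B) {lab : Fin L → Fin N} {g : Gel N L} (hg : g.Ok lab)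
    (f h : Fl N L r) : Mk lab B (g.act f) (g.act h) = Mk lab B f h := by
  unfold Mk
  congr 1
  simp only [flv_act hB hg]
  have h1 : ∀ (σ : Equiv.Perm (Fin N)) (α : Fin L → Fin 6),
      ((if g.rev then star (flv lab B f (σ * g.Q) (α ∘ g.P)) else flv lab B f (σ * g.Q) (α ∘ g.P)) *
        star (if g.rev then star (flv lab B h (σ * g.Q) (α ∘ g.P))
          else flv lab B h (σ * g.Q) (α ∘ g.P))).re
      = (flv lab B f (σ * g.Q) (α ∘ g.P) * star (flv lab B h (σ * g.Q) (α ∘ g.P))).re := by
    intro σ α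
    cases g.rev
    · rfl
    · simp only [if_true]
      rw [← star_mul']
      simp
  simp only [h1]
  rw [← Equiv.sum_comp (Equiv.mulRight g.Q) (fun σ => ∑ α : Fin L → Fin 6,
    (flv lab B f σ α * star (flv lab B h σ α)).re)]
  refine Finset.sum_congr rfl fun σ _ => ?_
  exact Fintype.sum_equiv (Equiv.arrowCongr g.P.symm (Equiv.refl (Fin 6))) _ _ fun α => by
    simp only [Equiv.coe_mulRight]
    rfl

end Vale.Agent.P355.H41.F7
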