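import Vale.Agent.P355.H41.F7.Prod

/-! Group tables and signed permutation representations, given by lists of numbers. -/

namespace Vale.Agent.P355.H41.F7

open Finset Matrix Vale.Agent.P355
open Vale.Agent.P355.H147 (GramF GTab DTab)

set_option linter.unusedSectionVars false

variable {N L r : ℕ} [NeZero N] [NeZero L] [NeZero r] {B : Fin N → M6}

open Classical in
/-- permutation of a list. -/
noncomputable def permL (n : ℕ) [NeZero n] (l : List ℕ) : Equiv.Perm (Fin n) :=
  if h : Function.Injective (toF n n l) then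
    Equiv.ofBijective _ (Finite.injective_iff_bijective.1 h) else 1

theorem permL_apply {n : ℕ} [NeZero n] {l : List ℕ} (h : Function.Injective (toF n n l))
    (x : Fin n) : permL n l x = toF n n l x := by
  unfold permL; rw [dif_pos h]; rfl

/-- list of a permutation. -/
def isP (n : ℕ) (l : List ℕ) : Bool := Nat.beq l.length n && allLt n l && nodup l

theorem isP_inj {n : ℕ} [NeZero n] {l : List ℕ} (h : isP n l = true) :
    Function.Injective (toF n n l) := by
  simp only [isP, Bool.and_eq_true, Nat.beq_eq] at h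
  exact toF_inj h.1.1 h.1.2 h.2

theorem isP_val {n : ℕ} [NeZero n] {l : List ℕ} (h : isP n l = true) (x : Fin n) :
    ((permL n l x : Fin n) : ℕ) = l.getD x 0 := by
  rw [permL_apply (isP_inj h)]
  simp only [isP, Bool.and_eq_true, Nat.beq_eq] at h
  exact val_toF h.1.1 h.1.2 x

theorem isP_lt {n : ℕ} {l : List ℕ} (h : isP n l = true) {x : ℕ} (hx : x < n) :
    l.getD x 0 < n := by
  simp only [isP, Bool.and_eq_true, Nat.beq_eq, allLt, List.all_eq_true, Nat.blt_eq] at h
  have hx' : x < l.length := by rw [h.1.1]; exact hx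
  rw [getD_lt _ _ hx']
  exact h.1.2 _ (List.getElem_mem hx')

/-- data of a group element: permutation of the labels, of the colours, reversal. -/
structure GD where
  P : List ℕ
  Q : List ℕ
  rev : Bool

/-- correctness of the data. -/
def GD.ok (N L : ℕ) (lab : List ℕ) (g : GD) : Bool :=
  isP L g.P && isP N g.Q &&
    (List.range L).all fun x => Nat.beq (g.Q.getD (lab.getD x 0) 0) (lab.getD (g.P.getD x 0) 0)

/-- the group element. -/
noncomputable def GD.g (N L : ℕ) [NeZero N] [NeZero L] (g : GD) : Gel N L :=
  ⟨permL L g.P, permL N g.Q, g.rev⟩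

theorem GD.Ok {g : GD} {lab : List ℕ} (hlab : lab.length = L) (hlN : allLt N lab = true)
    (h : g.ok N L lab = true) : (g.g N L).Ok (toF L N lab) := by
  simp only [GD.ok, Bool.and_eq_true, List.all_eq_true, List.mem_range, Nat.beq_eq] at h
  obtain ⟨⟨hP, hQ⟩, hc⟩ := h
  intro x
  apply Fin.ext
  show ((permL N g.Q (toF L N lab x) : Fin N) : ℕ) = (toF L N lab (permL L g.P x) : ℕ)
  rw [isP_val hQ, val_toF hlab hlN, val_toF hlab hlN, isP_val hP]
  exact hc x x.2

/-- action on the vertices. -/
def pv (L : ℕ) (P : List ℕ) (v : ℕ) : ℕ := if Nat.blt v L then P.getD v 0 else v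

/-- action on data of flags. -/
def GD.act (L : ℕ) (g : GD) (f : FD) : FD :=
  ⟨f.b, f.ci.map fun c => g.Q.getD c 0, f.E.map fun e => (pv L g.P e.1, pv L g.P e.2.1, sg g.rev e.2.2)⟩

theorem GD.act_fl {g : GD} {f : FD} {lab : List ℕ} (hg : g.ok N L lab = true)
    (hf : f.ok N L r lab = true) :
    (g.act L f).fl N L r = (g.g N L).act (f.fl N L r) := by
  simp only [GD.ok, Bool.and_eq_true, List.all_eq_true, List.mem_range, Nat.beq_eq] at hg
  obtain ⟨⟨hP, hQ⟩, hc⟩ := hg
  simp only [FD.ok, Bool.and_eq_true, Nat.beq_eq, List.all_eq_true, Nat.blt_eq, Bool.not_eq_true',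
    beq_f] at hf
  obtain ⟨⟨hl, hN⟩, hE⟩ := hf
  unfold FD.fl GD.act Gel.act
  simp only [Fl.mk.injEq, true_and]
  refine ⟨?_, ?_⟩
  · funext i
    apply Fin.ext
    have hi : (i : ℕ) < f.ci.length := by rw [hl]; exact i.2
    show (toF r N (f.ci.map fun c => g.Q.getD c 0) i : ℕ) = (permL N g.Q (toF r N f.ci i) : ℕ)
    rw [isP_val hQ, val_toF hl hN]
    have h1 : f.ci.getD i 0 < N := by
      simp only [allLt, List.all_eq_true, Nat.blt_eq] at hN
      rw [getD_lt _ _ hi]
      exact hN _ (List.getElem_mem hi)
    unfold toF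
    rw [Fin.val_ofNat, getD_lt (f.ci.map _) _ (by rw [List.length_map]; exact hi), List.getElem_map,
      ← getD_lt _ _ hi]
    exact Nat.mod_eq_of_lt (isP_lt hQ h1)
  · rw [List.map_map, List.map_map]
    refine List.map_congr_left fun e he => ?_
    have h1 := (hE e he).1
    have hv : ∀ v : ℕ, dv L r (pv L g.P v) = (g.g N L).v (dv L r v) := by
      intro v
      unfold dv pv Gel.v
      by_cases h : v < L
      · have hb : Nat.blt v L = true := by rw [Nat.blt_eq]; exact h
        rw [if_pos hb, if_pos (isP_lt hP h), if_pos h, Sum.map_inl]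
        congr 1
        apply Fin.ext
        show _ = (permL L g.P (Fin.ofNat L v) : ℕ)
        rw [isP_val hP, ofNat_val (isP_lt hP h), ofNat_val h]
      · have hb : ¬ (Nat.blt v L = true) := by rw [Nat.blt_eq]; exact h
        rw [if_neg hb, if_neg h, Sum.map_inr]
        rfl
    simp only [Function.comp]
    rw [hv, hv]
    rfl

/-- `k` is the product of `g` and `h`. -/
def gmul (N L : ℕ) (g h k : GD) : Bool :=
  ((List.range L).all fun x => Nat.beq (k.P.getD x 0) (g.P.getD (h.P.getD x 0) 0)) &&
  ((List.range N).all fun x => Nat.beq (k.Q.getD x 0) (g.Q.getD (h.Q.getD x 0) 0)) &&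
  (k.rev == xor g.rev h.rev)

theorem sg_sg (a b : Bool) (k : ℤ) : sg a (sg b k) = sg (xor a b) k := by
  cases a <;> cases b <;> simp [sg]

theorem gmul_act {g h k : GD} {lab : List ℕ} (hg : g.ok N L lab = true) (hh : h.ok N L lab = true)
    (hk : k.ok N L lab = true) (hm : gmul N L g h k = true) (f : Fl N L r) :
    (g.g N L).act ((h.g N L).act f) = (k.g N L).act f := by
  simp only [GD.ok, Bool.and_eq_true] at hg hh hk
  simp only [gmul, Bool.and_eq_true, List.all_eq_true, List.mem_range, Nat.beq_eq, beq_iff_eq] at hm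
  obtain ⟨⟨hP, hQ⟩, hr⟩ := hm
  have eP : ∀ x, (g.g N L).P ((h.g N L).P x) = (k.g N L).P x := by
    intro x
    apply Fin.ext
    show ((permL L g.P (permL L h.P x) : Fin L) : ℕ) = (permL L k.P x : Fin L)
    rw [isP_val hg.1.1, isP_val hh.1.1, isP_val hk.1.1]
    exact (hP x x.2).symm
  have eQ : ∀ x, (g.g N L).Q ((h.g N L).Q x) = (k.g N L).Q x := by
    intro x
    apply Fin.ext
    show ((permL N g.Q (permL N h.Q x) : Fin N) : ℕ) = (permL N k.Q x : Fin N)
    rw [isP_val hg.1.2, isP_val hh.1.2, isP_val hk.1.2]
    exact (hQ x x.2).symm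
  have ev : ∀ v : Vf L r, (g.g N L).v ((h.g N L).v v) = (k.g N L).v v := by
    intro v
    rcases v with x | i
    · unfold Gel.v
      simp only [Sum.map_inl]
      rw [eP]
    · rfl
  unfold Gel.act
  simp only [Fl.mk.injEq, true_and]
  refine ⟨?_, ?_⟩
  · funext i; exact eQ _
  · rw [List.map_map]
    refine List.map_congr_left fun e _ => ?_
    simp only [Function.comp]
    rw [ev, ev, sg_sg]
    have : (k.g N L).rev = xor (g.g N L).rev (h.g N L).rev := hr
    rw [this]

/-! ### Tables -/

/-- default element. -/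
def gd0 : GD := ⟨[], [], false⟩

/-- element `j` of a list. -/
def gat (gs : List GD) (j : ℕ) : GD := gs.getD j gd0

/-- the action of the elements of a list. -/
noncomputable def gact (N L r : ℕ) [NeZero N] [NeZero L] [NeZero r] (gs : List GD) (j : ℕ) :
    Fl N L r → Fl N L r := ((gat gs j).g N L).act

/-- multiplication table. -/
def nuF (n : ℕ) [NeZero n] (nu : List (List ℕ)) (i j : Fin n) : Fin n :=
  toF n n (nu.getD i []) j

/-- check of the tables. -/
def gtabCk (N L n : ℕ) (lab : List ℕ) (gs : List GD) (nu : List (List ℕ)) : Bool :=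
  ((List.range n).all fun i => (gat gs i).ok N L lab && isP n (nu.getD i [])) &&
  (List.range n).all fun i => (List.range n).all fun j =>
    gmul N L (gat gs i) (gat gs j) (gat gs ((nu.getD i []).getD j 0))

theorem gtab_sound {n : ℕ} [NeZero n] {lab : List ℕ} {gs : List GD} {nu : List (List ℕ)}
    (h : gtabCk N L n lab gs nu = true) :
    GTab (X := Fl N L r) (fun j : Fin n => gact N L r gs j) (nuF n nu) := by
  simp only [gtabCk, Bool.and_eq_true, List.all_eq_true, List.mem_range] at h
  obtain ⟨h1, h2⟩ := h
  constructor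
  · intro i j f
    have hi := h1 i i.2
    have hj := h1 j j.2
    have hm := h2 i i.2 j j.2
    have e : ((nuF n nu i j : Fin n) : ℕ) = (nu.getD i []).getD j 0 := by
      unfold nuF
      have := hi.2
      simp only [isP, Bool.and_eq_true, Nat.beq_eq] at this
      exact val_toF this.1.1 this.1.2 j
    have hk := h1 (nuF n nu i j : Fin n) (nuF n nu i j).2
    rw [e] at hk
    unfold gact
    rw [e]
    exact gmul_act hi.1 hj.1 hk.1 hm f
  · intro i
    exact Finite.injective_iff_bijective.1 (isP_inj (h1 i i.2).2)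

/-- the check of the inverses. -/
def invCk (N L n : ℕ) (gs : List GD) (inv : List ℕ) : Bool :=
  isP n inv && (List.range n).all fun j =>
    gmul N L (gat gs (inv.getD j 0)) (gat gs j) ⟨List.range L, List.range N, false⟩

theorem inv_act {n : ℕ} {lab : List ℕ} {gs : List GD} {inv : List ℕ}
    (hgs : ((List.range n).all fun i => (gat gs i).ok N L lab) = true)
    (h : invCk N L n gs inv = true) (j : ℕ) (hj : j < n) (f : Fl N L r) :
    gact N L r gs (inv.getD j 0) (gact N L r gs j f) = f := by
  simp only [List.all_eq_true, List.mem_range] at hgs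
  simp only [invCk, Bool.and_eq_true, List.all_eq_true, List.mem_range] at h
  obtain ⟨h1, h2⟩ := h
  have hj' := isP_lt h1 hj
  have hm := h2 j hj
  have hg := hgs j hj
  have hg' := hgs _ hj'
  simp only [GD.ok, Bool.and_eq_true] at hg hg'
  simp only [gmul, Bool.and_eq_true, List.all_eq_true, List.mem_range, Nat.beq_eq,
    beq_iff_eq] at hm
  obtain ⟨⟨hP, hQ⟩, hr⟩ := hm
  set g := gat gs (inv.getD j 0) with hgd
  set k := gat gs j with hkd
  have hrg : ∀ m x : ℕ, x < m → (List.range m).getD x 0 = x := by
    intro m x hx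
    rw [getD_lt _ _ (by rw [List.length_range]; exact hx)]; simp
  have eP : ∀ x, (g.g N L).P ((k.g N L).P x) = x := by
    intro x
    apply Fin.ext
    show ((permL L g.P (permL L k.P x) : Fin L) : ℕ) = x
    rw [isP_val hg'.1.1, isP_val hg.1.1, ← hP x x.2, hrg _ _ x.2]
  have eQ : ∀ x, (g.g N L).Q ((k.g N L).Q x) = x := by
    intro x
    apply Fin.ext
    show ((permL N g.Q (permL N k.Q x) : Fin N) : ℕ) = x
    rw [isP_val hg'.1.2, isP_val hg.1.2, ← hQ x x.2, hrg _ _ x.2]
  have ev : ∀ v : Vf L r, (g.g N L).v ((k.g N L).v v) = v := by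
    intro v
    rcases v with x | i
    · unfold Gel.v
      simp only [Sum.map_inl]
      rw [eP]
    · rfl
  obtain ⟨fb, fc, fE⟩ := f
  unfold gact
  rw [← hgd, ← hkd]
  unfold Gel.act
  simp only [Fl.mk.injEq, true_and]
  refine ⟨?_, ?_⟩
  · funext i; exact eQ _
  · rw [List.map_map]
    conv_rhs => rw [← List.map_id fE]
    refine List.map_congr_left fun e _ => ?_
    simp only [Function.comp]
    rw [ev, ev, sg_sg]
    have : xor (g.g N L).rev (k.g N L).rev = false := hr.symm
    rw [this]
    rfl

/-! ### Signed permutation representations -/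

/-- a signed permutation: image and sign of every basis vector. -/
abbrev SPm := List (ℕ × Bool)

/-- sign. -/
def sgz (b : Bool) : ℤ := if b then -1 else 1

/-- matrix entry. -/
def spE (p : SPm) (s s' : ℕ) : ℤ :=
  if Nat.beq (p.getD s' (0, false)).1 s then sgz (p.getD s' (0, false)).2 else 0

/-- check of a signed permutation. -/
def spOk (d : ℕ) (p : SPm) : Bool := isP d (p.map fun u => u.1) && Nat.beq p.length d

/-- product. -/
def spMul (d : ℕ) (p q k : SPm) : Bool :=
  (List.range d).all fun s =>
    Nat.beq (k.getD s (0, false)).1 (p.getD (q.getD s (0, false)).1 (0, false)).1 &&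
    ((k.getD s (0, false)).2 == xor (p.getD (q.getD s (0, false)).1 (0, false)).2
      (q.getD s (0, false)).2)

/-- the representation. -/
noncomputable def Drep (n d : ℕ) (D : List SPm) (j : Fin n) (s s' : Fin d) : ℝ :=
  (spE (D.getD j []) s s' : ℝ)

/-- check of the representation. -/
def dtabCk (n d : ℕ) (nu : List (List ℕ)) (D : List SPm) : Bool :=
  ((List.range n).all fun i => spOk d (D.getD i [])) &&
  (List.range n).all fun i => (List.range n).all fun j =>
    spMul d (D.getD i []) (D.getD j []) (D.getD ((nu.getD i []).getD j 0) [])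

theorem sp_fst {d : ℕ} {p : SPm} (h : spOk d p = true) {s : ℕ} (hs : s < d) :
    (p.getD s (0, false)).1 < d ∧ (p.getD s (0, false)).1 = (p.map fun u => u.1).getD s 0 := by
  simp only [spOk, Bool.and_eq_true, Nat.beq_eq] at h
  have hl : s < p.length := by rw [h.2]; exact hs
  have e : (p.getD s (0, false)).1 = (p.map fun u => u.1).getD s 0 := by
    rw [getD_lt (p.map _) _ (by rw [List.length_map]; exact hl), List.getElem_map]
    simp [List.getD_eq_getElem?_getD, hl]
  refine ⟨?_, e⟩
  rw [e]
  exact isP_lt h.1 hs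

theorem sp_inj {d : ℕ} {p : SPm} (h : spOk d p = true) {s s' : ℕ} (hs : s < d) (hs' : s' < d)
    (e : (p.getD s (0, false)).1 = (p.getD s' (0, false)).1) : s = s' := by
  rw [(sp_fst h hs).2, (sp_fst h hs').2] at e
  simp only [spOk, Bool.and_eq_true] at h
  have hd : 0 < d := by omega
  have : NeZero d := ⟨by omega⟩
  have h1 := isP_inj h.1
  have h2 := @h1 ⟨s, hs⟩ ⟨s', hs'⟩ (by
    unfold toF
    simp only
    rw [e])
  exact congrArg Fin.val h2

theorem dtab_sound {n d : ℕ} [NeZero n] {nu : List (List ℕ)} {D : List SPm}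
    (hnu : ((List.range n).all fun i => isP n (nu.getD i [])) = true)
    (h : dtabCk n d nu D = true) : DTab (nuF n nu) (Drep n d D) := by
  simp only [dtabCk, Bool.and_eq_true, List.all_eq_true, List.mem_range] at h
  simp only [List.all_eq_true, List.mem_range] at hnu
  obtain ⟨h1, h2⟩ := h
  constructor
  · intro i j s s'
    have e : ((nuF n nu i j : Fin n) : ℕ) = (nu.getD i []).getD j 0 := by
      unfold nuF
      have := hnu i i.2
      simp only [isP, Bool.and_eq_true, Nat.beq_eq] at this
      exact val_toF this.1.1 this.1.2 j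
    have hm := h2 i i.2 j j.2
    simp only [spMul, List.all_eq_true, List.mem_range, Bool.and_eq_true, Nat.beq_eq,
      beq_iff_eq] at hm
    have hs := hm s' s'.2
    have hj := sp_fst (h1 j j.2) s'.2
    set t0 : Fin d := ⟨((D.getD j []).getD s' (0, false)).1, hj.1⟩ with ht0
    unfold Drep
    rw [Finset.sum_eq_single t0]
    · have e1 : spE (D.getD j []) t0 s' = sgz ((D.getD j []).getD s' (0, false)).2 := by
        unfold spE; rw [if_pos (by rw [Nat.beq_eq])]
      rw [e, e1, ← Int.cast_mul]
      congr 1
      unfold spE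
      rw [hs.1, hs.2]
      have : (t0 : ℕ) = ((D.getD j []).getD s' (0, false)).1 := rfl
      rw [this]
      split_ifs
      · generalize ((D.getD i []).getD ((D.getD j []).getD s' (0, false)).1 (0, false)).2 = a
        generalize ((D.getD j []).getD s' (0, false)).2 = b
        cases a <;> cases b <;> rfl
      · simp
    · intro t _ ht
      have : spE (D.getD j []) t s' = 0 := by
        unfold spE
        rw [if_neg]
        rw [Nat.beq_eq]
        intro h'; exact ht (Fin.ext h'.symm)
      rw [this]; simp
    · intro h'; exact absurd (mem_univ _) h'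
  · intro i s s'
    have hs := sp_fst (h1 i i.2) s.2
    set t0 : Fin d := ⟨((D.getD i []).getD s (0, false)).1, hs.1⟩ with ht0
    unfold Drep
    rw [Finset.sum_eq_single t0]
    · have e1 : spE (D.getD i []) t0 s = sgz ((D.getD i []).getD s (0, false)).2 := by
        unfold spE; rw [if_pos (by rw [Nat.beq_eq])]
      rw [e1]
      by_cases hss : s = s'
      · subst hss
        rw [e1, if_pos rfl]
        cases ((D.getD i []).getD s (0, false)).2 <;> simp [sgz]
      · rw [if_neg hss]
        have : spE (D.getD i []) t0 s' = 0 := by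
          unfold spE
          rw [if_neg]
          rw [Nat.beq_eq]
          intro h'
          exact hss (Fin.ext (sp_inj (h1 i i.2) s'.2 s.2 h')).symm
        rw [this]; simp
    · intro t _ ht
      have : spE (D.getD i []) t s = 0 := by
        unfold spE
        rw [if_neg]
        rw [Nat.beq_eq]
        intro h'; exact ht (Fin.ext h'.symm)
      rw [this]; simp
    · intro h'; exact absurd (mem_univ _) h'

end Vale.Agent.P355.H41.F7
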