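import Vale.Agent.P355.H41.F7.Flags

/-! The entries of the Gram kernel are values of words. -/

namespace Vale.Agent.P355.H41.F7

open Finset Matrix Vale.Agent.P355
open Vale.Agent.P355.H138 (s6 s6_sq s6_ne star_s6 r6 pw6)

set_option linter.unusedSectionVars false

variable {N L r K : ℕ} [NeZero N] [NeZero L] [NeZero r] [NeZero K] {B : Fin N → M6}

/-- data of a flag: vertices `< L` are labels, `L ≤ v < L + r` are internal. -/
structure FD where
  b : Bool
  ci : List ℕ
  E : List (ℕ × ℕ × ℤ)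

/-- vertex of a number. -/
def dv (L r : ℕ) [NeZero L] [NeZero r] (v : ℕ) : Vf L r :=
  if v < L then Sum.inl (Fin.ofNat L v) else Sum.inr (Fin.ofNat r (v - L))

/-- flag of the data. -/
def FD.fl (N L r : ℕ) [NeZero N] [NeZero L] [NeZero r] (f : FD) : Fl N L r :=
  ⟨f.b, toF r N f.ci, f.E.map fun e => (dv L r e.1, dv L r e.2.1, e.2.2)⟩

/-- well-formedness. -/
def FD.ok (N L r : ℕ) (lab : List ℕ) (f : FD) : Bool :=
  Nat.beq f.ci.length r && allLt N f.ci &&
    f.E.all fun e => Nat.blt e.1 (L + r) && Nat.blt e.2.1 (L + r) &&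
      !Nat.beq ((lab ++ f.ci).getD e.1 0) ((lab ++ f.ci).getD e.2.1 0)

/-- shift of the internal vertices. -/
def shf (L r v : ℕ) : ℕ := if Nat.blt v L then v else v + r

/-- the word of a product. -/
def prodW (L r : ℕ) (lab : List ℕ) (f g : FD) : Wd :=
  ⟨lab ++ (f.ci ++ g.ci), [], f.E ++ g.E.map fun e => (shf L r e.1, shf L r e.2.1, -e.2.2)⟩

theorem toF_append_l {n : ℕ} {l l' : List ℕ} (hl : l.length = n) (x : ℕ) (hx : x < n) :
    (l ++ l').getD x 0 = l.getD x 0 := by
  rw [getD_lt _ _ (by rw [List.length_append]; omega), getD_lt _ _ (by omega),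
    List.getElem_append_left]

theorem toF_append_r {n : ℕ} {l l' : List ℕ} (hl : l.length = n) (x : ℕ) (hx : x < l'.length) :
    (l ++ l').getD (n + x) 0 = l'.getD x 0 := by
  rw [getD_lt _ _ (by rw [List.length_append]; omega), getD_lt _ _ hx,
    List.getElem_append_right (by omega)]
  congr 1
  omega

/-- positions of the vertices of the product. -/
def e3 (L r : ℕ) : Fin L ⊕ (Fin r ⊕ Fin r) ≃ Fin (L + (r + r)) :=
  (Equiv.sumCongr (Equiv.refl _) finSumFinEquiv).trans finSumFinEquiv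

theorem e3_l (L r : ℕ) (x : Fin L) : ((e3 L r (Sum.inl x) : Fin (L + (r + r))) : ℕ) = x := rfl
theorem e3_rl (L r : ℕ) (i : Fin r) :
    ((e3 L r (Sum.inr (Sum.inl i)) : Fin (L + (r + r))) : ℕ) = L + i := rfl
theorem e3_rr (L r : ℕ) (i : Fin r) :
    ((e3 L r (Sum.inr (Sum.inr i)) : Fin (L + (r + r))) : ℕ) = L + (r + i) := rfl

/-- vertices of the left factor. -/
def iL : Vf L r → Fin L ⊕ (Fin r ⊕ Fin r) := Sum.map id Sum.inl
/-- vertices of the right factor. -/
def iR : Vf L r → Fin L ⊕ (Fin r ⊕ Fin r) := Sum.map id Sum.inr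

theorem ofNat_iL (v : ℕ) (hv : v < L + r) [NeZero (L + (r + r))] :
    (Fin.ofNat (L + (r + r)) v : Fin (L + (r + r))) = e3 L r (iL (dv L r v)) := by
  apply Fin.ext
  rw [ofNat_val (by omega)]
  unfold dv
  split_ifs with h
  · simp only [iL, Sum.map_inl, id]
    rw [e3_l, ofNat_val h]
  · simp only [iL, Sum.map_inr]
    rw [e3_rl, ofNat_val (by omega)]
    omega

theorem ofNat_iR (v : ℕ) (hv : v < L + r) [NeZero (L + (r + r))] :
    (Fin.ofNat (L + (r + r)) (shf L r v) : Fin (L + (r + r))) = e3 L r (iR (dv L r v)) := by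
  apply Fin.ext
  unfold shf dv
  by_cases h : v < L
  · rw [if_pos (by rw [Nat.blt_eq]; exact h), if_pos h, ofNat_val (by omega)]
    simp only [iR, Sum.map_inl, id]
    rw [e3_l, ofNat_val h]
  · rw [if_neg (by rw [Nat.blt_eq]; exact h), if_neg h, ofNat_val (by omega)]
    simp only [iR, Sum.map_inr]
    rw [e3_rr, ofNat_val (by omega)]
    omega

theorem FD.ok_fl {lab : List ℕ} (hlab : lab.length = L) (hlN : allLt N lab = true) {f : FD}
    (hf : f.ok N L r lab = true) : (f.fl N L r).Ok (toF L N lab) := by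
  simp only [FD.ok, Bool.and_eq_true, Nat.beq_eq, List.all_eq_true, Nat.blt_eq, Bool.not_eq_true',
    beq_f] at hf
  obtain ⟨⟨hl, hN⟩, hE⟩ := hf
  have hcol : ∀ v : ℕ, v < L + r →
      (((f.fl N L r).col (toF L N lab) (dv L r v) : Fin N) : ℕ) = (lab ++ f.ci).getD v 0 := by
    intro v hv
    unfold Fl.col FD.fl dv
    by_cases h : v < L
    · rw [if_pos h]
      simp only [Sum.elim_inl]
      rw [val_toF hlab hlN, ofNat_val h, toF_append_l (n := L) hlab v h]
    · rw [if_neg h]
      simp only [Sum.elim_inr]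
      rw [val_toF hl hN, ofNat_val (by omega)]
      have h1 := toF_append_r (l' := f.ci) hlab (v - L) (by omega)
      rw [← h1]
      congr 1
      omega
  intro e' he' h'
  simp only [FD.fl, List.mem_map] at he'
  obtain ⟨e, he, rfl⟩ := he'
  have h1 := hE e he
  have h2 := congrArg Fin.val h'
  simp only at h2
  rw [hcol e.1 h1.1.1, hcol e.2.1 h1.1.2] at h2
  exact h1.2 h2

theorem pe_map {V V' : Type} [Fintype V] [DecidableEq V] [Fintype V'] [DecidableEq V']
    (i : V → V') (E : List (V × V × ℤ)) (ω : V' → Vt N) :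
    pe B (E.map fun e => (i e.1, i e.2.1, e.2.2)) ω = pe B E (ω ∘ i) := by
  unfold pe; rw [List.map_map]; rfl

/-- **Product of two flags.** -/
theorem Mk_prod (hB : IsMUBs B) (hK : K = L + (r + r)) {lab : List ℕ} (hlab : lab.length = L)
    (hlN : allLt N lab = true) {f g : FD} (hf : f.ok N L r lab = true)
    (hg : g.ok N L r lab = true) :
    Mk (toF L N lab) B (f.fl N L r) (g.fl N L r)
      = r6 ^ (bn f.b + bn g.b) * bw K B (prodW L r lab f g) := by
  subst hK
  have hfo := FD.ok_fl hlab hlN hf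
  have hgo := FD.ok_fl hlab hlN hg
  simp only [FD.ok, Bool.and_eq_true, Nat.beq_eq, List.all_eq_true, Nat.blt_eq, Bool.not_eq_true',
    beq_f] at hf hg
  obtain ⟨⟨hfl, hfN⟩, hfE⟩ := hf
  obtain ⟨⟨hgl, hgN⟩, hgE⟩ := hg
  set c3 : Fin L ⊕ (Fin r ⊕ Fin r) → Fin N :=
    Sum.elim (toF L N lab) (Sum.elim (toF r N f.ci) (toF r N g.ci)) with hc3
  set cK : Fin (L + (r + r)) → Fin N := toF (L + (r + r)) N (lab ++ (f.ci ++ g.ci)) with hcK
  have hcc : cK ∘ (e3 L r) = c3 := by
    funext v
    rcases v with x | i | i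
    · simp only [Function.comp, hcK, hc3, Sum.elim_inl, toF]
      rw [e3_l, toF_append_l (n := L) hlab x x.2]
    · simp only [Function.comp, hcK, hc3, Sum.elim_inr, Sum.elim_inl, toF]
      rw [e3_rl, toF_append_r hlab i (by rw [List.length_append]; have := i.2; omega),
        toF_append_l (n := r) hfl i i.2]
    · simp only [Function.comp, hcK, hc3, Sum.elim_inr, toF]
      rw [e3_rr, toF_append_r hlab (r + i) (by rw [List.length_append]; have := i.2; omega),
        toF_append_r hfl i (by have := i.2; omega)]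
  -- the edges of the word
  set Ef := (f.fl N L r).E with hEf
  set Eg := (g.fl N L r).E with hEg
  have hE : (prodW L r lab f g).E.map (fun e => ((Fin.ofNat (L + (r + r)) e.1 : Fin (L + (r + r))),
      (Fin.ofNat (L + (r + r)) e.2.1 : Fin (L + (r + r))), e.2.2))
      = (Ef.map fun e => (e3 L r (iL e.1), e3 L r (iL e.2.1), e.2.2)) ++
        ((Eg.map fun e => (e.1, e.2.1, -e.2.2)).map
          fun e => (e3 L r (iR e.1), e3 L r (iR e.2.1), e.2.2)) := by
    unfold prodW
    simp only [List.map_append, List.map_map, hEf, hEg, FD.fl]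
    congr 1
    · refine List.map_congr_left fun e he => ?_
      have h1 := hfE e he
      simp only [Function.comp]
      rw [ofNat_iL _ h1.1.1, ofNat_iL _ h1.1.2]
    · refine List.map_congr_left fun e he => ?_
      have h1 := hgE e he
      simp only [Function.comp]
      rw [ofNat_iR _ h1.1.1, ofNat_iR _ h1.1.2]
  -- the average
  have hbw : bw (L + (r + r)) B (prodW L r lab f g) = (av cK (fun ω =>
      pe B Ef (ω ∘ (e3 L r ∘ iL)) * pe B (Eg.map fun e => (e.1, e.2.1, -e.2.2))
        (ω ∘ (e3 L r ∘ iR)))).re := by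
    unfold bw Br
    congr 1
    have hc : toF (L + (r + r)) N (prodW L r lab f g).c = cK := rfl
    rw [hc, hE]
    refine av_congr fun σ φ => ?_
    have hL : (prodW L r lab f g).L = [] := rfl
    rw [hL, List.map_nil, pb_nil, one_mul, pe_append]
    congr 1
    · exact pe_map (N := N) (B := B) (fun v => e3 L r (iL v)) Ef (cf cK σ φ)
    · exact pe_map (N := N) (B := B) (fun v => e3 L r (iR v))
        (Eg.map fun e => (e.1, e.2.1, -e.2.2)) (cf cK σ φ)
  have hav : av cK (fun ω => pe B Ef (ω ∘ (e3 L r ∘ iL)) *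
      pe B (Eg.map fun e => (e.1, e.2.1, -e.2.2)) (ω ∘ (e3 L r ∘ iR)))
      = av c3 (fun η => pe B Ef (η ∘ iL) *
        pe B (Eg.map fun e => (e.1, e.2.1, -e.2.2)) (η ∘ iR)) := by
    rw [← hcc]
    exact av_inj (e3 L r) (e3 L r).injective cK (fun η => pe B Ef (η ∘ iL) *
        pe B (Eg.map fun e => (e.1, e.2.1, -e.2.2)) (η ∘ iR))
  -- values on a sample
  have hfv : ∀ (σ : Equiv.Perm (Fin N)) (α : Fin L → Fin 6) (ρ ρ' : Fin r → Fin 6),
      cf c3 σ (Sum.elim α (Sum.elim ρ ρ')) ∘ iL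
        = cf ((f.fl N L r).col (toF L N lab)) σ (Sum.elim α ρ) := by
    intro σ α ρ ρ'
    funext v
    rcases v with x | i <;> rfl
  have hgv : ∀ (σ : Equiv.Perm (Fin N)) (α : Fin L → Fin 6) (ρ ρ' : Fin r → Fin 6),
      cf c3 σ (Sum.elim α (Sum.elim ρ ρ')) ∘ iR
        = cf ((g.fl N L r).col (toF L N lab)) σ (Sum.elim α ρ') := by
    intro σ α ρ ρ'
    funext v
    rcases v with x | i <;> rfl
  have hgs : ∀ (σ : Equiv.Perm (Fin N)) (α : Fin L → Fin 6) (ρ' : Fin r → Fin 6),
      pe B (Eg.map fun e => (e.1, e.2.1, -e.2.2))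
        (cf ((g.fl N L r).col (toF L N lab)) σ (Sum.elim α ρ'))
      = star (pe B Eg (cf ((g.fl N L r).col (toF L N lab)) σ (Sum.elim α ρ'))) := by
    intro σ α ρ'
    rw [star_pe hB]
    intro e he h'
    exact hgo e he (σ.injective h')
  have hval : av c3 (fun η => pe B Ef (η ∘ iL) *
        pe B (Eg.map fun e => (e.1, e.2.1, -e.2.2)) (η ∘ iR))
      = (smw N L : ℂ) * ∑ σ : Equiv.Perm (Fin N), ∑ α : Fin L → Fin 6,
        ((6⁻¹ : ℂ) ^ r * ∑ ρ : Fin r → Fin 6,
          pe B Ef (cf ((f.fl N L r).col (toF L N lab)) σ (Sum.elim α ρ))) *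
        star ((6⁻¹ : ℂ) ^ r * ∑ ρ' : Fin r → Fin 6,
          pe B Eg (cf ((g.fl N L r).col (toF L N lab)) σ (Sum.elim α ρ'))) := by
    unfold av smw
    have hcard : Fintype.card (Fin L ⊕ (Fin r ⊕ Fin r)) = L + (r + r) := by simp
    rw [hcard]
    have h1 : ∀ σ : Equiv.Perm (Fin N), ∑ φ : Fin L ⊕ (Fin r ⊕ Fin r) → Fin 6,
        (pe B Ef (cf c3 σ φ ∘ iL) *
          pe B (Eg.map fun e => (e.1, e.2.1, -e.2.2)) (cf c3 σ φ ∘ iR))
        = ∑ α : Fin L → Fin 6, (∑ ρ : Fin r → Fin 6,
          pe B Ef (cf ((f.fl N L r).col (toF L N lab)) σ (Sum.elim α ρ))) *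
          star (∑ ρ' : Fin r → Fin 6,
          pe B Eg (cf ((g.fl N L r).col (toF L N lab)) σ (Sum.elim α ρ'))) := by
      intro σ
      rw [H138.sum_sumType]
      refine Finset.sum_congr rfl fun α _ => ?_
      rw [H138.sum_sumType (fun β : Fin r ⊕ Fin r → Fin 6 =>
        (pe B Ef (cf c3 σ (Sum.elim α β) ∘ iL) *
          pe B (Eg.map fun e => (e.1, e.2.1, -e.2.2)) (cf c3 σ (Sum.elim α β) ∘ iR)))]
      simp only [hfv, hgv, hgs]
      rw [star_sum, Finset.sum_mul_sum]
    simp only [h1]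
    have h6 : star (6 : ℂ) = 6 := by simp
    simp only [star_mul', star_pow, star_inv₀, h6]
    push_cast
    rw [mul_assoc]
    congr 1
    rw [Finset.mul_sum, Finset.mul_sum]
    refine Finset.sum_congr rfl fun σ _ => ?_
    rw [Finset.mul_sum, Finset.mul_sum]
    refine Finset.sum_congr rfl fun α _ => ?_
    rw [pow_add, pow_add]
    ring
  rw [hbw, hav, hval, Complex.re_ofReal_mul]
  unfold Mk
  rw [mul_left_comm]
  congr 1
  rw [Complex.re_sum, Finset.mul_sum]
  refine Finset.sum_congr rfl fun σ _ => ?_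
  rw [Complex.re_sum, Finset.mul_sum]
  refine Finset.sum_congr rfl fun α _ => ?_
  unfold flv
  rw [if_pos hfo, if_pos hgo]
  have hr : ∀ n : ℕ, star ((r6 ^ n : ℝ) : ℂ) = ((r6 ^ n : ℝ) : ℂ) := fun n => Complex.conj_ofReal _
  rw [← Complex.re_ofReal_mul, star_mul' (_ * _) _, hr]
  congr 1
  have hb1 : (f.fl N L r).b = f.b := rfl
  have hb2 : (g.fl N L r).b = g.b := rfl
  rw [hb1, hb2, pow_add]
  push_cast
  ring

/-- check of a pair of flags. -/
def pchk (K L r : ℕ) (lab : List ℕ) (f g : FD) (pl : Pl) (cl : Cl) : Bool :=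
  (match wchkW K (prodW L r lab f g) pl cl with
    | some (e, m) => Nat.beq e 0 && Nat.beq m 0
    | none => false) && (cl.b == xor f.b g.b)

/-- multiplicity from the parities. -/
def mmb (b b' : Bool) : ℕ := if b && b' then 6 else 1

theorem pchk_sound (hB : IsMUBs B) (hK : K = L + (r + r)) {lab : List ℕ} (hlab : lab.length = L)
    (hlN : allLt N lab = true) {f g : FD} (hf : f.ok N L r lab = true)
    (hg : g.ok N L r lab = true) (pl : Pl) (hp : pl.ok N K = true) (cl : Cl)
    (hG : GoodCl K cl) (h : pchk K L r lab f g pl cl = true) :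
    Mk (toF L N lab) B (f.fl N L r) (g.fl N L r) = (mmb f.b g.b : ℝ) * vlc K B cl := by
  rw [Mk_prod (K := K) hB hK hlab hlN hf hg]
  unfold pchk at h
  rw [Bool.and_eq_true] at h
  obtain ⟨h1, h2⟩ := h
  rcases h3 : wchkW K (prodW L r lab f g) pl cl with _ | ⟨e, m⟩
  · rw [h3] at h1; exact absurd h1 (by simp)
  · rw [h3] at h1
    simp only [Bool.and_eq_true, Nat.beq_eq] at h1
    obtain ⟨rfl, rfl⟩ := h1
    have hw : (prodW L r lab f g).ok N K = true := by
      have hf' := hf
      have hg' := hg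
      simp only [FD.ok, Bool.and_eq_true, Nat.beq_eq, List.all_eq_true, Nat.blt_eq,
        Bool.not_eq_true', beq_f] at hf' hg'
      obtain ⟨⟨hfl, hfN⟩, hfE⟩ := hf'
      obtain ⟨⟨hgl, hgN⟩, hgE⟩ := hg'
      simp only [Wd.ok, Bool.and_eq_true, Nat.beq_eq, List.all_eq_true, Nat.blt_eq]
      refine ⟨⟨⟨?_, ?_⟩, ?_⟩, ?_⟩
      · simp only [prodW, List.length_append]; omega
      · simp only [allLt, List.all_eq_true, Nat.blt_eq, prodW, List.mem_append] at hlN hfN hgN ⊢
        rintro x (hx | hx | hx)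
        · exact hlN x hx
        · exact hfN x hx
        · exact hgN x hx
      · intro u hu; simp [prodW] at hu
      · intro e he
        simp only [prodW, List.mem_append, List.mem_map] at he
        rcases he with he | ⟨e', he', rfl⟩
        · have := hfE e he; omega
        · have := hgE e' he'
          unfold shf
          simp only
          constructor <;> split_ifs <;> omega
    have h4 := wchkW_sound hB _ pl cl hG hw hp 0 0 h3
    rw [h4]
    simp only [pow_zero, one_mul]
    unfold vlc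
    have h5 : cl.b = xor f.b g.b := by simpa using h2
    rw [h5, pw6_eq, ← mul_assoc]
    congr 1
    cases f.b <;> cases g.b <;> simp [bn, mmb]
    rw [pow_two]; exact r6_sq

end Vale.Agent.P355.H41.F7
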