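import Vale.Agent.P355.H41.F7.Wild

/-! Rows: linear relations between class values, from the two contraction rules and from the
expansion of distinctness. -/

namespace Vale.Agent.P355.H41.F7

open Finset Matrix Vale.Agent.P355
open Vale.Agent.P355.H138 (s6 s6_sq s6_ne star_s6 r6 pw6)

set_option linter.unusedSectionVars false

variable {N K : ℕ} [NeZero N] [NeZero K] {B : Fin N → M6}

/-- a term of a row: coefficient, additional exponent of `√6`, word. -/
structure RT where
  q : ℤ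
  r : ℕ
  w : Wd

/-- value of a list of terms. -/
noncomputable def rowS (K : ℕ) [NeZero K] (B : Fin N → M6) (l : List RT) : ℝ :=
  (l.map fun t => (t.q : ℝ) * (r6 ^ t.r * bw K B t.w)).sum

/-- value of a class, normalised by its parity. -/
noncomputable def vlc (K : ℕ) [NeZero K] (B : Fin N → M6) (cl : Cl) : ℝ := pw6 cl.b * cw K B cl

theorem abs_vlc_le (hB : IsMUBs B) (cl : Cl) : |vlc K B cl| ≤ 5 / 2 := by
  unfold vlc
  rw [abs_mul, abs_of_nonneg (H138.pw6_nonneg _)]
  calc _ ≤ (5 / 2 : ℝ) * 1 :=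
        mul_le_mul (H138.pw6_le _) (abs_cvl_le hB _ _) (abs_nonneg _) (by norm_num)
    _ = _ := by norm_num

theorem r6_sq : r6 * r6 = 6 := by unfold r6; exact Real.mul_self_sqrt (by norm_num)

theorem r6_pos : 0 < r6 := by unfold r6; exact Real.sqrt_pos.2 (by norm_num)

/-- exponent of the parity. -/
def bn (b : Bool) : ℕ := if b then 1 else 0

theorem pw6_eq (b : Bool) : pw6 b = r6 ^ bn b := by
  unfold pw6 bn; cases b <;> simp

theorem r6_even (h : ℕ) : r6 ^ (2 * h) = 6 ^ h := by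
  rw [pow_mul, pow_two, r6_sq]

/-- integer coefficient of a term after multiplication by `√6 ^ T`. -/
def tcoef (T : ℕ) (q : ℤ) (r e m : ℕ) (b : Bool) : Option ℤ :=
  if Nat.ble (2 * m + bn b) (T + r + e) && Nat.beq ((T + r + e - (2 * m + bn b)) % 2) 0 then
    some (q * 6 ^ ((T + r + e - (2 * m + bn b)) / 2)) else none

/-- check of one term. -/
def tchk (K T : ℕ) (cls : ℕ → Cl) (t : RT × Pl × ℕ) : Option (ℤ × ℕ) :=
  match wchkW K t.1.w t.2.1 (cls t.2.2) with
  | none => none
  | some (e, m) =>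
    match tcoef T t.1.q t.1.r e m (cls t.2.2).b with
    | none => none
    | some z => some (z, t.2.2)

theorem tchk_sound (hB : IsMUBs B) (T : ℕ) (cls : ℕ → Cl) (hG : ∀ i, GoodCl K (cls i))
    (t : RT × Pl × ℕ)
    (hw : t.1.w.ok N K = true) (hp : t.2.1.ok N K = true) (o : ℤ × ℕ)
    (h : tchk K T cls t = some o) :
    r6 ^ T * ((t.1.q : ℝ) * (r6 ^ t.1.r * bw K B t.1.w)) = (o.1 : ℝ) * vlc K B (cls o.2) := by
  unfold tchk at h
  rcases h1 : wchkW K t.1.w t.2.1 (cls t.2.2) with _ | ⟨e, m⟩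
  · rw [h1] at h; exact absurd h (by simp)
  · rw [h1] at h
    simp only at h
    rcases h2 : tcoef T t.1.q t.1.r e m (cls t.2.2).b with _ | z
    · rw [h2] at h; exact absurd h (by simp)
    · rw [h2] at h
      simp only [Option.some.injEq] at h
      subst h
      have hs := wchkW_sound hB t.1.w t.2.1 (cls t.2.2) (hG _) hw hp e m h1
      unfold tcoef at h2
      split_ifs at h2 with hc
      simp only [Option.some.injEq] at h2
      simp only [Bool.and_eq_true, Nat.ble_eq, Nat.beq_eq] at hc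
      obtain ⟨hc1, hc2⟩ := hc
      rw [hs]
      unfold vlc
      rw [pw6_eq, ← h2]
      set X := T + t.1.r + e - (2 * m + bn (cls t.2.2).b) with hX
      have hX2 : X = 2 * (X / 2) := by omega
      have hsum : T + t.1.r + e = X + (2 * m + bn (cls t.2.2).b) := by omega
      have hpow : r6 ^ T * (r6 ^ t.1.r * r6 ^ e) = 6 ^ (X / 2) * (6 ^ m * r6 ^ bn (cls t.2.2).b) := by
        rw [← pow_add, ← pow_add, ← add_assoc, hsum, pow_add, pow_add, r6_even, hX2, r6_even]
        congr 2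
        omega
      have h6 : (6 : ℝ) ^ m * (1 / 6) ^ m = 1 := by rw [← mul_pow]; norm_num
      push_cast
      calc _ = (t.1.q : ℝ) * (r6 ^ T * (r6 ^ t.1.r * r6 ^ e)) * ((1 / 6) ^ m * cw K B (cls t.2.2)) := by
            ring
        _ = (t.1.q : ℝ) * (6 ^ (X / 2) * r6 ^ bn (cls t.2.2).b) *
            ((6 : ℝ) ^ m * (1 / 6) ^ m) * cw K B (cls t.2.2) := by rw [hpow]; ring
        _ = _ := by rw [h6]; ring

/-- check of a row; returns integer coefficients and class numbers. -/
def rchk (K T : ℕ) (cls : ℕ → Cl) : List (RT × Pl × ℕ) → Option (List (ℤ × ℕ))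
  | [] => some []
  | t :: l =>
    match tchk K T cls t with
    | none => none
    | some o =>
      match rchk K T cls l with
      | none => none
      | some os => some (o :: os)

theorem rchk_sound (hB : IsMUBs B) (T : ℕ) (cls : ℕ → Cl) (hG : ∀ i, GoodCl K (cls i))
    (l : List (RT × Pl × ℕ))
    (hok : ∀ t ∈ l, t.1.w.ok N K = true ∧ t.2.1.ok N K = true) (os : List (ℤ × ℕ))
    (h : rchk K T cls l = some os) :
    r6 ^ T * rowS K B (l.map fun t => t.1) = (os.map fun o => (o.1 : ℝ) * vlc K B (cls o.2)).sum := by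
  induction l generalizing os with
  | nil =>
    simp only [rchk, Option.some.injEq] at h
    subst h
    simp [rowS]
  | cons t l ih =>
    unfold rchk at h
    rcases h1 : tchk K T cls t with _ | o
    · rw [h1] at h; exact absurd h (by simp)
    · rw [h1] at h
      simp only at h
      rcases h2 : rchk K T cls l with _ | os'
      · rw [h2] at h; exact absurd h (by simp)
      · rw [h2] at h
        simp only [Option.some.injEq] at h
        subst h
        have ht := hok t (by simp)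
        have e1 := tchk_sound hB T cls hG t ht.1 ht.2 o h1
        have e2 := ih (fun t' ht' => hok t' (by simp [ht'])) os' h2
        simp only [List.map_cons, List.sum_cons]
        rw [← e1, ← e2]
        unfold rowS
        simp only [List.map_cons, List.sum_cons]
        ring

/-! ### Rule one -/

/-- `v` does not occur. -/
def vfree (v : ℕ) (E : List (ℕ × ℕ × ℤ)) : Bool := E.all fun e => !Nat.beq e.1 v && !Nat.beq e.2.1 v

theorem ofNat_inj {x y : ℕ} (hx : x < K) (hy : y < K) (h : (Fin.ofNat K x : Fin K) = Fin.ofNat K y) :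
    x = y := by
  have := congrArg Fin.val h
  rwa [ofNat_val hx, ofNat_val hy] at this

/-- the row of rule one. -/
def row1 (c : List ℕ) (x v z : ℕ) (E : List (ℕ × ℕ × ℤ)) : List RT :=
  [⟨6, 0, ⟨c, [(x, v), (v, z)], E⟩⟩, ⟨-1, 1, ⟨c, [(x, z)], E⟩⟩]

theorem row1_sound (hB : IsMUBs B) (c : List ℕ) (x v z : ℕ) (E : List (ℕ × ℕ × ℤ))
    (hw : (⟨c, [(x, v), (v, z)], E⟩ : Wd).ok N K = true)
    (hc : (!Nat.beq x v && !Nat.beq z v && vfree v E) = true) :
    rowS K B (row1 c x v z E) = 0 := by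
  simp only [Wd.ok, Bool.and_eq_true, Nat.beq_eq, List.all_eq_true, Nat.blt_eq] at hw
  obtain ⟨⟨⟨hcl, hcN⟩, hL⟩, hE⟩ := hw
  simp only [vfree, Bool.and_eq_true, List.all_eq_true, Bool.not_eq_true', beq_f] at hc
  obtain ⟨⟨hxv, hzv⟩, hvE⟩ := hc
  have hx := (hL (x, v) (by simp)).1
  have hv := (hL (x, v) (by simp)).2
  have hz := (hL (v, z) (by simp)).2
  simp only at hx hv hz
  have h := rule1 (c := toF K N c) hB (Fin.ofNat K v) (Fin.ofNat K x) (Fin.ofNat K z)
    (E.map fun e => (Fin.ofNat K e.1, Fin.ofNat K e.2.1, e.2.2))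
    (fun h => hxv (ofNat_inj hx hv h)) (fun h => hzv (ofNat_inj hz hv h)) (by
      intro e' he'
      simp only [List.mem_map] at he'
      obtain ⟨e, he, rfl⟩ := he'
      have h1 := hvE e he
      have h2 := hE e he
      exact ⟨fun h => h1.1 (ofNat_inj h2.1 hv h), fun h => h1.2 (ofNat_inj h2.2 hv h)⟩)
  unfold rowS row1 bw
  simp only [List.map_cons, List.map_nil, List.sum_cons, List.sum_nil]
  have h2 := congrArg Complex.re h
  rw [r6_c, Complex.re_ofReal_mul] at h2
  have h3 : ((6 : ℂ) * Br B (toF K N c) [(Fin.ofNat K x, Fin.ofNat K v), (Fin.ofNat K v, Fin.ofNat K z)]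
      (E.map fun e => (Fin.ofNat K e.1, Fin.ofNat K e.2.1, e.2.2))).re
      = 6 * (Br B (toF K N c) [(Fin.ofNat K x, Fin.ofNat K v), (Fin.ofNat K v, Fin.ofNat K z)]
      (E.map fun e => (Fin.ofNat K e.1, Fin.ofNat K e.2.1, e.2.2))).re := by
    rw [show (6 : ℂ) = ((6 : ℝ) : ℂ) by norm_num, Complex.re_ofReal_mul]
  rw [h3] at h2
  push_cast
  linarith

/-! ### Rule two -/

/-- the row of rule two. -/
def row2 (c : List ℕ) (v x1 x2 y1 y2 : ℕ) (E : List (ℕ × ℕ × ℤ)) (U : List ℕ) : List RT :=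
  ⟨((7 - U.length : ℕ) : ℤ), 0, ⟨c, [(x1, v), (x2, v), (v, y1), (v, y2)], E⟩⟩ ::
  ⟨-1, 0, ⟨c, [(x1, y1), (x2, y2)], E⟩⟩ :: ⟨-1, 0, ⟨c, [(x1, y2), (x2, y1)], E⟩⟩ ::
  (U.map fun j => ⟨1, 0, ⟨c.set v j, [(x1, v), (x2, v), (v, y1), (v, y2)], E⟩⟩)

/-- side conditions of rule two. -/
def ok2 (K : ℕ) (c : List ℕ) (v x1 x2 y1 y2 : ℕ) (E : List (ℕ × ℕ × ℤ)) (U : List ℕ) : Bool :=
  !Nat.beq x1 v && !Nat.beq x2 v && !Nat.beq y1 v && !Nat.beq y2 v && vfree v E &&
    allLt 7 U && nodup U && (U.all fun j => !Nat.beq (c.getD v 0) j) &&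
    ((List.range K).all fun x => Nat.beq x v || U.any fun j => Nat.beq (c.getD x 0) j)

theorem toF_set {c : List ℕ} {v j : ℕ} (hcl : c.length = K) (hv : v < K) :
    toF K N (c.set v j) = Function.update (toF K N c) (Fin.ofNat K v) (Fin.ofNat N j) := by
  funext x
  by_cases hx : x = Fin.ofNat K v
  · have hxv : (x : ℕ) = v := by rw [hx, ofNat_val hv]
    rw [hx, Function.update_self, ← hx]
    unfold toF
    rw [hxv, getD_lt _ _ (by rw [List.length_set, hcl]; exact hv), List.getElem_set_self]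
  · rw [Function.update_of_ne hx]
    have hxv : v ≠ (x : ℕ) := by
      intro h; apply hx; apply Fin.ext; rw [ofNat_val hv]; exact h.symm
    have hxl : (x : ℕ) < c.length := by rw [hcl]; exact x.2
    unfold toF
    rw [getD_lt _ _ (by rw [List.length_set]; exact hxl), getD_lt _ _ hxl,
      List.getElem_set_ne hxv]

theorem row2_sound {B : Fin 7 → M6} (hB : IsMUBs B) (c : List ℕ) (v x1 x2 y1 y2 : ℕ)
    (E : List (ℕ × ℕ × ℤ)) (U : List ℕ)
    (hw : (⟨c, [(x1, v), (x2, v), (v, y1), (v, y2)], E⟩ : Wd).ok 7 K = true)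
    (hc : ok2 K c v x1 x2 y1 y2 E U = true) :
    rowS K B (row2 c v x1 x2 y1 y2 E U) = 0 := by
  simp only [Wd.ok, Bool.and_eq_true, Nat.beq_eq, List.all_eq_true, Nat.blt_eq] at hw
  obtain ⟨⟨⟨hcl, hcN⟩, hL⟩, hE⟩ := hw
  simp only [ok2, vfree, Bool.and_eq_true, List.all_eq_true, Bool.not_eq_true', beq_f,
    Bool.or_eq_true, Nat.beq_eq, List.any_eq_true, List.mem_range] at hc
  obtain ⟨⟨⟨⟨⟨⟨⟨⟨hx1v, hx2v⟩, hy1v⟩, hy2v⟩, hvE⟩, hU7⟩, hUd⟩, hUv⟩, hall⟩ := hc
  have hx1 := (hL (x1, v) (by simp)).1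
  have hv := (hL (x1, v) (by simp)).2
  have hx2 := (hL (x2, v) (by simp)).1
  have hy1 := (hL (v, y1) (by simp)).2
  have hy2 := (hL (v, y2) (by simp)).2
  simp only at hx1 hx2 hy1 hy2 hv
  have hUlt : ∀ j ∈ U, j < 7 := by
    simp only [allLt, List.all_eq_true, Nat.blt_eq] at hU7; exact hU7
  have hcv : ∀ x : ℕ, x < K → ((toF K 7 c (Fin.ofNat K x) : Fin 7) : ℕ) = c.getD x 0 := by
    intro x hx
    rw [val_toF hcl hcN, ofNat_val hx]
  have h := rule2 (c := toF K 7 c) hB (Fin.ofNat K v) (Fin.ofNat K x1) (Fin.ofNat K x2)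
    (Fin.ofNat K y1) (Fin.ofNat K y2)
    (E.map fun e => (Fin.ofNat K e.1, Fin.ofNat K e.2.1, e.2.2))
    (fun h => hx1v (ofNat_inj hx1 hv h)) (fun h => hx2v (ofNat_inj hx2 hv h))
    (fun h => hy1v (ofNat_inj hy1 hv h)) (fun h => hy2v (ofNat_inj hy2 hv h)) (by
      intro e' he'
      simp only [List.mem_map] at he'
      obtain ⟨e, he, rfl⟩ := he'
      have h1 := hvE e he
      have h2 := hE e he
      exact ⟨fun h => h1.1 (ofNat_inj h2.1 hv h), fun h => h1.2 (ofNat_inj h2.2 hv h)⟩)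
    (U.map fun j => Fin.ofNat 7 j) (by
      refine List.Nodup.map_on ?_ (nodup_spec hUd)
      intro a ha b hb hab
      exact ofNat_inj (hUlt a ha) (hUlt b hb) hab)
    (by
      intro x hx
      have hxK := x.2
      rcases hall x hxK with h0 | ⟨j, hj, hj'⟩
      · exact absurd (Fin.ext (by rw [ofNat_val hv]; exact h0)) hx
      · simp only [List.mem_map]
        refine ⟨j, hj, ?_⟩
        apply Fin.ext
        rw [ofNat_val (hUlt j hj), val_toF hcl hcN]
        exact hj'.symm)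
    (by
      intro h'
      simp only [List.mem_map] at h'
      obtain ⟨j, hj, hj'⟩ := h'
      have := congrArg Fin.val hj'
      rw [ofNat_val (hUlt j hj), hcv v hv] at this
      exact hUv j hj this.symm)
  have h2 := congrArg Complex.re h
  rw [List.length_map] at h2
  have h3 : ∀ z : ℂ, (((7 - U.length : ℕ) : ℂ) * z).re = ((7 - U.length : ℕ) : ℝ) * z.re := by
    intro z
    rw [show ((7 - U.length : ℕ) : ℂ) = (((7 - U.length : ℕ) : ℝ) : ℂ) by push_cast; rfl,
      Complex.re_ofReal_mul]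
  rw [h3, Complex.sub_re, Complex.add_re, List.map_map] at h2
  have h4 : ((U.map ((fun j => Br B (Function.update (toF K 7 c) (Fin.ofNat K v) j)
      [(Fin.ofNat K x1, Fin.ofNat K v), (Fin.ofNat K x2, Fin.ofNat K v),
        (Fin.ofNat K v, Fin.ofNat K y1), (Fin.ofNat K v, Fin.ofNat K y2)]
      (E.map fun e => (Fin.ofNat K e.1, Fin.ofNat K e.2.1, e.2.2))) ∘ fun j => Fin.ofNat 7 j)).sum).re
      = ((U.map fun j => (⟨1, 0, ⟨c.set v j, [(x1, v), (x2, v), (v, y1), (v, y2)], E⟩⟩ : RT)).map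
        fun t => (t.q : ℝ) * (r6 ^ t.r * bw K B t.w)).sum := by
    rw [List.map_map]
    clear h2 h h3 hUd hUv hU7 hall hUlt
    induction U with
    | nil => simp
    | cons j U ih =>
      simp only [List.map_cons, List.sum_cons, Complex.add_re]
      rw [ih]
      congr 1
      simp only [Function.comp, bw, List.map_cons, List.map_nil]
      rw [toF_set hcl hv]
      push_cast
      ring
  rw [h4] at h2
  unfold rowS row2
  simp only [List.map_cons, List.sum_cons, Int.cast_natCast, Int.cast_neg, Int.cast_one, pow_zero,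
    one_mul]
  have e0 : ∀ (L : List (ℕ × ℕ)), bw K B ⟨c, L, E⟩ = (Br B (toF K 7 c)
      (L.map fun u => (Fin.ofNat K u.1, Fin.ofNat K u.2))
      (E.map fun e => (Fin.ofNat K e.1, Fin.ofNat K e.2.1, e.2.2))).re := fun _ => rfl
  rw [e0, e0, e0]
  simp only [List.map_cons, List.map_nil]
  linarith

end Vale.Agent.P355.H41.F7
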