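import Vale.Agent.P355.H41.F7.Chk

/-! Recognition of words, second version: the positions not used by a class have no colour
(colour number 7), so that vertices which become isolated by cancellation can be put there. -/

namespace Vale.Agent.P355.H41.F7

open Finset Matrix Vale.Agent.P355
open Vale.Agent.P355.H138 (s6 s6_sq s6_ne star_s6 r6 pw6)

set_option linter.unusedSectionVars false

variable {N K : ℕ} {B : Fin N → M6}

/-- **Recognition of a class**, with unused positions `W`. -/
theorem term_eqW (hB : IsMUBs B) (c c' : Fin K → Fin N) (τ : Equiv.Perm (Fin N))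
    (f π : Fin K → Fin K) (hπ : Function.Injective π) (E : List (Fin K × Fin K × ℤ))
    (hf : ∀ x, c (f x) = c x) (hE : ∀ e ∈ E, c e.1 ≠ c e.2.1) (W : Fin K → Prop)
    (hc : ∀ e ∈ E, (W (π (f e.1)) ∨ c' (π (f e.1)) = τ (c e.1)) ∧
      (W (π (f e.2.1)) ∨ c' (π (f e.2.1)) = τ (c e.2.1)))
    (hs : absE E ≤ 31) (k : ℤ)
    (hG : ∃ n : Fin K → Fin K → ℤ, code n = k ∧ Sm n ∧ ∀ x y, n x y ≠ 0 → ¬ W x ∧ ¬ W y)
    (hk : codeE (fun x => π (f x)) E = k ∨ codeE (fun x => π (f x)) E = - k) :
    (av c (fun ω => pe B E (ω ∘ f))).re = cvl B c' k := by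
  classical
  set n2 : Fin K → Fin K → ℤ := push (π ∘ f) (EM E) with hn2
  have hsm : Sm n2 := by
    intro x y
    by_cases hxy : x = y
    · subst hxy; simp
    · have h1 := abs_push_le (π ∘ f) E x y hxy
      have h2 : |n2 x y - n2 y x| ≤ |n2 x y| + |n2 y x| := abs_sub _ _
      rw [← hn2] at h1
      linarith
  have hcode : code n2 = codeE (fun x => π (f x)) E := code_push (π ∘ f) E
  -- the antisymmetric part vanishes on the unused positions
  have hW : ∀ x y, n2 x y - n2 y x ≠ 0 → ¬ W x ∧ ¬ W y := by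
    obtain ⟨n, h1, h2, h3⟩ := hG
    intro x y hxy
    have h4 : ∀ x y, (n2 x y - n2 y x = n x y - n y x) ∨ (n2 x y - n2 y x = - (n x y - n y x)) := by
      rcases hk with hk | hk
      · intro x y
        exact Or.inl (code_inj n2 n hsm h2 (by rw [hcode, hk, h1]) x y)
      · intro x y
        right
        have h5 : Sm (fun x y => - n x y) := by
          intro x y
          have := h2 x y
          rw [← abs_neg] at this
          rwa [show - n x y - - n y x = -(n x y - n y x) by ring]
        have := code_inj n2 (fun x y => - n x y) hsm h5 (by rw [hcode, hk, code_neg, h1]) x y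
        rw [this]; ring
    have h5 : n x y ≠ 0 ∨ n y x ≠ 0 := by
      by_contra hcon
      push Not at hcon
      rcases h4 x y with h | h <;> rw [hcon.1, hcon.2] at h <;> exact hxy (by simpa using h)
    rcases h5 with h5 | h5
    · exact h3 x y h5
    · exact (h3 y x h5).symm
  -- the upper part
  set n3 : Fin K → Fin K → ℤ := fun x y => if x < y then n2 x y - n2 y x else 0 with hn3
  have hanti : ∀ x y, n3 x y - n3 y x = n2 x y - n2 y x := by
    intro x y
    simp only [hn3]
    rcases lt_trichotomy x y with h | h | h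
    · rw [if_pos h, if_neg (not_lt.2 h.le)]; ring
    · subst h; simp
    · rw [if_neg (not_lt.2 h.le), if_pos h]; ring
  have hsm3 : Sm n3 := fun x y => by rw [hanti]; exact hsm x y
  have hcode3 : code n3 = code n2 := by
    rw [code_upper, code_upper]
    refine Finset.sum_congr rfl fun x _ => Finset.sum_congr rfl fun y _ => ?_
    rw [hanti]
  have hn3ne : ∀ x y, n3 x y ≠ 0 → n2 x y - n2 y x ≠ 0 := by
    intro x y h h'
    apply h
    simp only [hn3]
    rw [h']; simp
  -- edges behind the entries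
  set πe : Equiv.Perm (Fin K) := Equiv.ofBijective π (Finite.injective_iff_bijective.1 hπ) with hπe
  set c2 : Fin K → Fin N := fun q => τ (c (πe.symm q)) with hc2
  have hc2π : ∀ x, c2 (π (f x)) = τ (c x) := by
    intro x
    simp only [hc2]
    have : πe.symm (π (f x)) = f x := by
      rw [Equiv.symm_apply_eq]; rfl
    rw [this, hf]
  have hok2 : Okc c2 n2 := by
    intro x y hxy
    obtain ⟨e, he, h1, h2⟩ := push_EM_ne (π ∘ f) E x y hxy
    rw [← h1, ← h2]
    simp only [Function.comp]
    rw [hc2π, hc2π]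
    exact fun h => hE e he (τ.injective h)
  have hpair : ∀ x y, n3 x y ≠ 0 → c2 x ≠ c2 y ∧ c' x = c2 x ∧ c' y = c2 y := by
    intro x y hxy
    have h1 := hn3ne x y hxy
    have hw := hW x y h1
    have h2 : n2 x y ≠ 0 ∨ n2 y x ≠ 0 := by
      by_contra hcon
      push Not at hcon
      exact h1 (by rw [hcon.1, hcon.2]; simp)
    rcases h2 with h2 | h2
    · obtain ⟨e, he, e1, e2⟩ := push_EM_ne (π ∘ f) E x y h2
      simp only [Function.comp] at e1 e2
      refine ⟨hok2 x y h2, ?_, ?_⟩
      · rcases (hc e he).1 with h | h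
        · rw [e1] at h; exact absurd h hw.1
        · rw [← e1, h, hc2π]
      · rcases (hc e he).2 with h | h
        · rw [e2] at h; exact absurd h hw.2
        · rw [← e2, h, hc2π]
    · obtain ⟨e, he, e1, e2⟩ := push_EM_ne (π ∘ f) E y x h2
      simp only [Function.comp] at e1 e2
      refine ⟨fun h => hok2 y x h2 h.symm, ?_, ?_⟩
      · rcases (hc e he).2 with h | h
        · rw [e2] at h; exact absurd h hw.1
        · rw [← e2, h, hc2π]
      · rcases (hc e he).1 with h | h
        · rw [e1] at h; exact absurd h hw.2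
        · rw [← e1, h, hc2π]
  have hok3 : Okc c2 n3 := fun x y h => (hpair x y h).1
  have hok' : Okc c' n3 := by
    intro x y h
    obtain ⟨h1, h2, h3⟩ := hpair x y h
    rw [h2, h3]; exact h1
  have hval : av c (fun ω => pe B E (ω ∘ f)) = av c' (mon B n3) := by
    have e1 : av c (fun ω => pe B E (ω ∘ f)) = av c (mon B (push f (EM E))) := by
      refine av_congr fun σ φ => ?_
      have hne : ∀ e ∈ E, ((cf c σ φ ∘ f) e.1).1 ≠ ((cf c σ φ ∘ f) e.2.1).1 := by
        intro e he h'
        simp only [Function.comp, cf, hf] at h'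
        exact hE e he (σ.injective h')
      rw [mon_push hB f (EM E) _ (EM_nz hne), mon_EM hB E _ hne]
    have e2 : av c (mon B (push f (EM E))) = av (fun x => τ (c x)) (mon B (push f (EM E))) :=
      (av_perm τ _).symm
    have e3 : av (fun x => τ (c x)) (mon B (push f (EM E))) = av (c2 ∘ π) (mon B (push f (EM E))) := by
      congr 1
      funext x
      simp only [Function.comp, hc2]
      have : πe.symm (π x) = x := by rw [Equiv.symm_apply_eq]; rfl
      rw [this]
    have e4 : av (c2 ∘ π) (mon B (push f (EM E))) = av c2 (mon B n2) := by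
      rw [← av_inj π hπ c2 (mon B (push f (EM E)))]
      refine av_congr fun σ φ => ?_
      have hne : ∀ e ∈ E, ((cf c2 σ φ ∘ (π ∘ f)) e.1).1 ≠ ((cf c2 σ φ ∘ (π ∘ f)) e.2.1).1 := by
        intro e he h'
        simp only [Function.comp, cf] at h'
        rw [hc2π, hc2π] at h'
        exact hE e he (τ.injective (σ.injective h'))
      have hne' : ∀ e ∈ E, (((cf c2 σ φ ∘ π) ∘ f) e.1).1 ≠ (((cf c2 σ φ ∘ π) ∘ f) e.2.1).1 := hne
      rw [mon_push hB (π ∘ f) (EM E) _ (EM_nz hne), mon_push hB f (EM E) _ (EM_nz hne')]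
      rfl
    have e5 : av c2 (mon B n2) = av c2 (mon B n3) := by
      refine av_congr fun σ φ => ?_
      exact mon_antisymm hB _ _ _ (hok2.nz σ φ) (hok3.nz σ φ) fun x y => (hanti x y).symm
    have e6 : av c2 (mon B n3) = av c' (mon B n3) := by
      refine av_agree _ _ (fun x => ∃ y, n3 x y ≠ 0 ∨ n3 y x ≠ 0) ?_ ?_
      · rintro x ⟨y, h | h⟩
        · exact (hpair x y h).2.1.symm
        · exact (hpair y x h).2.2.symm
      · intro ω ω' h
        unfold mon
        refine Finset.prod_congr rfl fun x _ => Finset.prod_congr rfl fun y _ => ?_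
        by_cases h0 : n3 x y = 0
        · rw [h0, zpow_zero, zpow_zero]
        · rw [h x ⟨y, Or.inl h0⟩, h y ⟨x, Or.inr h0⟩]
    rw [e1, e2, e3, e4, e5, e6]
  rw [hval]
  rcases hk with hk | hk
  · rw [← hk, ← hcode, ← hcode3]; exact (cvl_eq hB c' n3 hok' hsm3).symm
  · have hk' : k = - codeE (fun x => π (f x)) E := by rw [hk, neg_neg]
    rw [hk', ← hcode, ← hcode3]; exact (cvl_eq_neg hB c' n3 hok' hsm3).symm

variable [NeZero N] [NeZero K]

/-- the class uses no position of colour 7. -/
def GoodCl (K : ℕ) (cl : Cl) : Prop :=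
  ∃ n : Fin K → Fin K → ℤ, code n = cl.k ∧ Sm n ∧
    ∀ x y, n x y ≠ 0 → ¬ cl.c.getD x 0 = 7 ∧ ¬ cl.c.getD y 0 = 7

/-- the colour at a position is the colour of the vertex, or the position is unused. -/
def cm (cl : Cl) (q t : ℕ) : Bool := Nat.beq (cl.c.getD q 0) 7 || Nat.beq (cl.c.getD q 0) t

/-- the check of a word against a class. -/
def wckW (w : Wd) (p : List ℕ) (tau : List ℕ) (cl : Cl) : Bool :=
  (w.E'.all fun e => !Nat.beq (w.c.getD e.1 0) (w.c.getD e.2.1 0) &&
    cm cl (p.getD e.1 0) (tau.getD (w.c.getD e.1 0) 0) &&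
    cm cl (p.getD e.2.1 0) (tau.getD (w.c.getD e.2.1 0) 0)) &&
  decide (absE w.E' ≤ 31) &&
  (decide (codeN p w.E' = cl.k) || decide (codeN p w.E' = -cl.k))

/-- complete check; returns the number of same-colour brackets and the number of merges. -/
def wchkW (K : ℕ) (w : Wd) (pl : Pl) (cl : Cl) : Option (ℕ × ℕ) :=
  let r := rdl (List.range K) w.S
  if wckW w (r.2.map fun v => pl.pi.getD v 0) pl.tau cl then some (w.S.length, r.1) else none

/-- **Soundness of the word check.** -/
theorem wchkW_sound (hB : IsMUBs B) (w : Wd) (pl : Pl) (cl : Cl) (hG : GoodCl K cl)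
    (hw : w.ok N K = true) (hp : pl.ok N K = true) (e m : ℕ)
    (h : wchkW K w pl cl = some (e, m)) :
    bw K B w = r6 ^ e * ((1 / 6) ^ m * cw K B cl) := by
  simp only [Wd.ok, Bool.and_eq_true, Nat.beq_eq, List.all_eq_true, Nat.blt_eq] at hw
  obtain ⟨⟨⟨hcl, hcN⟩, hL⟩, hE⟩ := hw
  simp only [Pl.ok, Bool.and_eq_true, Nat.beq_eq] at hp
  obtain ⟨⟨⟨⟨⟨hpl, hpK⟩, hpd⟩, htl⟩, htN⟩, htd⟩ := hp
  simp only [wchkW] at h
  split_ifs at h with hc
  simp only [Option.some.injEq, Prod.mk.injEq] at h
  obtain ⟨he, hm⟩ := h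
  set c : Fin K → Fin N := toF K N w.c with hcd
  set V2 : ℕ × ℕ → Fin K × Fin K := fun u => (Fin.ofNat K u.1, Fin.ofNat K u.2) with hV2
  set q : ℕ × ℕ → Bool := fun u => Nat.beq (w.c.getD u.1 0) (w.c.getD u.2 0) with hq
  -- colours
  have hcv : ∀ x : ℕ, x < K → ((c (Fin.ofNat K x) : Fin N) : ℕ) = w.c.getD x 0 := by
    intro x hx
    rw [hcd, val_toF hcl hcN, ofNat_val hx]
  have hS : ∀ u ∈ w.S.map V2, c u.1 = c u.2 := by
    intro u hu
    simp only [Wd.S, List.mem_map, List.mem_filter, Nat.beq_eq] at hu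
    obtain ⟨u', ⟨hu1, hu2⟩, rfl⟩ := hu
    have := hL u' hu1
    apply Fin.ext
    simp only [hV2]
    rw [hcv _ this.1, hcv _ this.2]
    exact hu2
  have hSK : ∀ u ∈ w.S, u.1 < K ∧ u.2 < K := fun u hu => hL u (List.mem_of_mem_filter hu)
  -- the brackets split
  have hsplit : ∀ ω : Fin K → Vt N, pb B (w.L.map V2) ω = pb B (w.S.map V2) ω *
      pb B ((w.L.filter fun u => !q u).map V2) ω := by
    intro ω
    have h1 : ∀ l : List (ℕ × ℕ), pb B (l.map V2) ω
        = (l.map fun u => hh B (ω (V2 u).1) (ω (V2 u).2)).prod := by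
      intro l; unfold pb; rw [List.map_map]; rfl
    rw [h1, h1, h1]
    have h2 : w.S = w.L.filter q := rfl
    rw [h2]
    generalize w.L = L
    induction L with
    | nil => simp
    | cons u L ih =>
      by_cases hu : q u = true
      · rw [List.filter_cons_of_pos hu, List.filter_cons_of_neg (by simp [hu]), List.map_cons,
          List.prod_cons, List.map_cons, List.prod_cons, ih]; ring
      · rw [List.filter_cons_of_neg hu, List.filter_cons_of_pos (by simpa using hu), List.map_cons,
          List.prod_cons, List.map_cons, List.prod_cons, ih]; ring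
  have hbr := Br_eq (c := c) hB (w.L.map V2)
    (w.E.map fun e => (Fin.ofNat K e.1, Fin.ofNat K e.2.1, e.2.2)) (w.S.map V2)
    ((w.L.filter fun u => !q u).map V2) hsplit hS
  -- the merging map
  have hrl : (List.range K).length = K := List.length_range
  have hrK : allLt K (List.range K) = true := by
    simp only [allLt, List.all_eq_true, Nat.blt_eq]
    intro x hx; exact List.mem_range.1 hx
  have hid : toF K K (List.range K) = id := by
    funext x
    apply Fin.ext
    rw [val_toF hrl hrK, getD_lt _ _ (by rw [hrl]; exact x.2)]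
    simp
  have hr := rdl_eq (K := K) w.S hSK (List.range K) hrl hrK
  rw [hid] at hr
  set r := rdl (List.range K) w.S with hrd
  have hr2l : r.2.length = K := by rw [hrd, rdl_len, hrl]
  have hr2K : allLt K r.2 = true := rdl_lt w.S hSK _ hrl hrK
  set f : Fin K → Fin K := toF K K r.2 with hfd
  have hfc : ∀ x, c (f x) = c x := by
    intro x
    rw [hr.2]
    exact rdf_col (w.S.map V2) id (fun _ => rfl) hS x
  -- the edges
  set E2 : List (Fin K × Fin K × ℤ) := toE ((w.L.filter fun u => !q u).map V2) ++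
    (w.E.map fun e => (Fin.ofNat K e.1, Fin.ofNat K e.2.1, e.2.2)) with hE2
  have hE2' : E2 = w.E'.map fun e => (Fin.ofNat K e.1, Fin.ofNat K e.2.1, e.2.2) := by
    rw [hE2]
    unfold Wd.E' toE
    rw [List.map_append, List.map_map, List.map_map]
    rfl
  have hEK : ∀ e ∈ w.E', e.1 < K ∧ e.2.1 < K := by
    intro e he
    unfold Wd.E' at he
    rw [List.mem_append] at he
    rcases he with he | he
    · simp only [List.mem_map, List.mem_filter] at he
      obtain ⟨u, ⟨hu, _⟩, rfl⟩ := he
      exact hL u hu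
    · exact hE e he
  simp only [wckW, cm, Bool.and_eq_true, List.all_eq_true, Bool.not_eq_true', beq_f,
    Nat.beq_eq, decide_eq_true_eq, Bool.or_eq_true] at hc
  obtain ⟨⟨hc1, hc2⟩, hc3⟩ := hc
  set π : Fin K → Fin K := toF K K pl.pi with hπd
  have hπ : Function.Injective π := toF_inj hpl hpK hpd
  have hτi : Function.Injective (toF N N pl.tau) := toF_inj htl htN htd
  set τ : Equiv.Perm (Fin N) := Equiv.ofBijective _ (Finite.injective_iff_bijective.1 hτi) with hτd
  have hpv : ∀ x : ℕ, x < K → ((π (f (Fin.ofNat K x)) : Fin K) : ℕ)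
      = (r.2.map fun v => pl.pi.getD v 0).getD x 0 := by
    intro x hx
    have hx2 : x < r.2.length := by rw [hr2l]; exact hx
    rw [hπd, val_toF hpl hpK, hfd, val_toF hr2l hr2K, ofNat_val hx,
      getD_lt (r.2.map _) _ (by rw [List.length_map]; exact hx2),
      List.getElem_map, getD_lt r.2 _ hx2]
  have hτv : ∀ x : Fin N, ((τ x : Fin N) : ℕ) = pl.tau.getD x 0 := by
    intro x
    show ((toF N N pl.tau x : Fin N) : ℕ) = _
    rw [val_toF htl htN]
  have hcl' : ∀ y : Fin K, ∀ x : Fin N, cl.c.getD y 0 = pl.tau.getD x 0 →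
      toF K N cl.c y = τ x := by
    intro y x hxy
    apply Fin.ext
    rw [hτv]
    have h1 := (τ x).2
    rw [hτv] at h1
    simp only [toF, Fin.val_ofNat, hxy]
    exact Nat.mod_eq_of_lt h1
  have hterm := term_eqW (B := B) hB c (toF K N cl.c) τ f π hπ E2 hfc ?_
    (fun q => cl.c.getD q 0 = 7) ?_ ?_ cl.k hG ?_
  · unfold bw cw
    rw [hbr, ← hterm]
    have e1 : (w.S.map V2).length = e := by rw [List.length_map]; exact he
    have e2 : (rdf id (w.S.map V2)).1 = m := by rw [← hr.1]; exact hm
    rw [e1, e2, ← hr.2, r6_c]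
    have e3 : ((r6 : ℝ) : ℂ) ^ e * ((1 / 6) ^ m * av c (fun ω => pe B E2 (ω ∘ f)))
        = ((r6 ^ e * (1 / 6) ^ m : ℝ) : ℂ) * av c (fun ω => pe B E2 (ω ∘ f)) := by
      push_cast; ring
    rw [e3, Complex.re_ofReal_mul]
    ring
  · -- different colours
    intro e' he'
    rw [hE2'] at he'
    simp only [List.mem_map] at he'
    obtain ⟨e, he, rfl⟩ := he'
    intro h
    have h1 := congrArg Fin.val h
    simp only at h1
    rw [hcv _ (hEK e he).1, hcv _ (hEK e he).2] at h1
    exact (hc1 e he).1.1 h1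
  · -- colours of the class
    intro e' he'
    rw [hE2'] at he'
    simp only [List.mem_map] at he'
    obtain ⟨e, he, rfl⟩ := he'
    have h1 := hc1 e he
    have hk := hEK e he
    simp only
    rw [← hpv _ hk.1, ← hpv _ hk.2] at h1
    refine ⟨h1.1.2.imp id fun h => hcl' _ _ ?_, h1.2.imp id fun h => hcl' _ _ ?_⟩
    · rw [hcv _ hk.1]; exact h
    · rw [hcv _ hk.2]; exact h
  · have : absE E2 = absE w.E' := by
      rw [hE2']; unfold absE; rw [List.map_map]; rfl
    rw [this]; exact hc2
  · have : codeE (fun x => (π (f x) : ℕ)) E2 = codeN (r.2.map fun v => pl.pi.getD v 0) w.E' := by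
      rw [hE2']
      unfold codeE codeN
      rw [List.map_map]
      congr 1
      refine List.map_congr_left fun e he => ?_
      have hk := hEK e he
      simp only [Function.comp]
      rw [hpv _ hk.1, hpv _ hk.2]
    rw [this]; exact hc3

/-! ### check of a class -/

/-- the pairs `a < b < K` in the order of the digits. -/
def prs (K : ℕ) : List (ℕ × ℕ) := (List.range K).flatMap fun b => (List.range b).map fun a => (a, b)

/-- edges of the digits (offset 32). -/
def decE : List (ℕ × ℕ) → ℕ → List (ℕ × ℕ × ℤ)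
  | [], _ => []
  | u :: l, X => if Nat.beq (X % 64) 32 then decE l (X / 64)
      else (u.1, u.2, ((X % 64 : ℕ) : ℤ) - 32) :: decE l (X / 64)

/-- check of a class with edges `E`. -/
def goodE (K : ℕ) (cl : Cl) (E : List (ℕ × ℕ × ℤ)) : Bool :=
  (E.all fun e => Nat.blt e.1 K && Nat.blt e.2.1 K && !Nat.beq e.1 e.2.1 &&
    !Nat.beq (cl.c.getD e.1 0) 7 && !Nat.beq (cl.c.getD e.2.1 0) 7) &&
  decide (absE E ≤ 31) && decide (codeN (List.range K) E = cl.k)

theorem goodE_sound {cl : Cl} {E : List (ℕ × ℕ × ℤ)} (h : goodE K cl E = true) : GoodCl K cl := by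
  simp only [goodE, Bool.and_eq_true, List.all_eq_true, Nat.blt_eq, Bool.not_eq_true', beq_f,
    decide_eq_true_eq] at h
  obtain ⟨⟨h1, h2⟩, h3⟩ := h
  set E2 : List (Fin K × Fin K × ℤ) := E.map fun e => (Fin.ofNat K e.1, Fin.ofNat K e.2.1, e.2.2)
    with hE2
  refine ⟨push id (EM E2), ?_, ?_, ?_⟩
  · rw [code_push, ← h3]
    unfold codeE codeN
    rw [hE2, List.map_map]
    congr 1
    refine List.map_congr_left fun e he => ?_
    have hk := (h1 e he).1.1.1
    simp only [Function.comp, id]
    have hr : ∀ x : ℕ, x < K → (List.range K).getD x 0 = x := by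
      intro x hx
      rw [getD_lt _ _ (by rw [List.length_range]; exact hx)]; simp
    rw [ofNat_val hk.1, ofNat_val hk.2, hr _ hk.1, hr _ hk.2]
  · intro x y
    by_cases hxy : x = y
    · subst hxy; simp
    · have h4 := abs_push_le id E2 x y hxy
      have h5 : |push id (EM E2) x y - push id (EM E2) y x| ≤ |push id (EM E2) x y| +
        |push id (EM E2) y x| := abs_sub _ _
      have h6 : absE E2 = absE E := by
        rw [hE2]; unfold absE; rw [List.map_map]; rfl
      rw [h6] at h4
      linarith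
  · intro x y hxy
    obtain ⟨e', he', e1, e2⟩ := push_EM_ne id E2 x y hxy
    rw [hE2] at he'
    simp only [List.mem_map] at he'
    obtain ⟨e, he, rfl⟩ := he'
    simp only [id] at e1 e2
    have hk := h1 e he
    rw [← e1, ← e2, ofNat_val hk.1.1.1.1, ofNat_val hk.1.1.1.2]
    exact ⟨hk.1.2, hk.2⟩

/-- check of a class. -/
def goodCk (K : ℕ) (cl : Cl) : Bool :=
  goodE K cl (decE (prs K) (cl.k + 32 * ((64 ^ (tri K) - 1) / 63)).toNat)

end Vale.Agent.P355.H41.F7
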